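import Vale.Agent.P141.H690.Q2R
import Vale.Agent.P141.H677.RawFD

/-!
# P141, line (A): the field `q2` of the raw numbers at the data of the flow part

* `wt_next` : the killed `L²` input of time `k + 1` as weights at the scale `k`;
* `X2_eq` : the left side of the field;
* `fld_q2 : RawField FQ2`.
-/

namespace Vale.Agent.P141.H690.Q2F

open Finset Matrix
open Vale.Agent.P141.PL (Pt iv ix mem_iv ix_ix cx cb)
open Vale.Agent.P141.H43 (nsq nsq_nonneg)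
open Vale.Agent.P141.H677 (KT GT MT rt kF)
open Vale.Agent.P141.H677.Sk
open Vale.Agent.P141.H841 (v'_le Th_le)
open Vale.Agent.P141.H690.Q2R
open Vale.Agent.P141.H48 (sst)

noncomputable section

open scoped Classical

set_option linter.unusedSectionVars false

variable {ι : Type} [Fintype ι] [DecidableEq ι]

theorem sst_mono {Λ : ℝ} {a : ℤ × ℤ → ℝ} {K k k' : ℕ} (hk : k ≤ k') {x z : ℤ}
    (h : sst Λ a K k' x z) : sst Λ a K k x z := by
  obtain ⟨m, h1, h2, h3⟩ := h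
  exact ⟨m, hk.trans h1, h2, h3⟩

theorem iv_up (k : ℕ) (y : ℤ) : iv k (ix k y) ⊆ iv (k + 1) (ix (k + 1) y) := by
  intro z hz
  rw [mem_iv] at hz ⊢
  have h1 := ix_ix k 1 z
  have h2 := ix_ix k 1 y
  rw [hz] at h1
  rw [← h1, ← h2]

section fd

variable {q : H401.Num} {n : ℕ} {ez : ℝ} {F1 F2 F3 : ℕ → Pt → ℝ} {K : ℕ} {x : Pt} {s r : ℝ}
  {U : PL.H315.Tri} {g : ℤ → ℤ → ℝ} {u v : ℤ → ℤ → ι → ℝ} {A : FamA}
  {b C : FamV ι} {Q1 Q2 Q3 : ℕ → Pt → Prop} {v' : ℤ → ℤ → ι → ℝ}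

/-- the weights of time `k + 1` -/
def Wn (q : H401.Num) (K : ℕ) (U : PL.H315.Tri) (F : ℕ → Pt → ℝ) (x1 : ℤ) (k : ℕ) (x0 z : ℤ) : ℝ :=
  kF q.Lm U.2.1 K F (k + 1) (x0, x1, z) ^ 2

/-- the live scales of time `k + 1` -/
def aln (q : H401.Num) (K : ℕ) (x : Pt) (U : PL.H315.Tri) (x1 : ℤ) (k : ℕ) (y : ℤ) : Prop :=
  y ∈ iv K (cx K x).2.2 ∧ ¬ sst q.Lm U.2.1 K (min (k + 1) K) x1 y

theorem lam1_nonneg {q : H401.Num} (ht : 0 < q.t) (hr : 0 < r) : 0 ≤ lam1 q s r := by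
  unfold lam1
  positivity

/-- **The killed input of time `k + 1` as weights.** -/
theorem wt_next (D : FDs q n ez F1 F2 F3 K x s r U g u v A b C Q1 Q2 Q3 v') (hez : 0 ≤ ez)
    (hK : K ≤ n) (ht : 0 < q.t) (hr : 0 < r) :
    Wt K (cx K x) v' (Wn q K U F2) (aln q K x U) ez (2 * lam1 q s r) where
  e0 := hez
  W0 := fun _ _ _ _ => sq_nonneg _
  line := by
    intro x1 _ k hk j y
    exact H58.kF_line D.B2 hez (lt_of_lt_of_le hk hK) j x1 y
  V0 := by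
    have := lam1_nonneg (s := s) ht hr
    linarith
  fib := by
    intro x1 hx1 k hk y hy
    have hl0 := lam1_nonneg (s := s) ht hr
    rcases lt_or_eq_of_le hk with hk | hk
    · have h1 : min (k + 1) K = k + 1 := min_eq_left hk
      have h2 := hy.2
      rw [h1] at h2
      have h3 := D.fib (k + 1) hk x1 hx1 y hy.1 h2
      have h4 : ∑ y' ∈ iv k (ix k y), nsq (v' x1 y') ≤
          ∑ y' ∈ iv (k + 1) (ix (k + 1) y), nsq (v' x1 y') :=
        sum_le_sum_of_subset_of_nonneg (iv_up k y) fun _ _ _ => nsq_nonneg _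
      refine h4.trans (h3.trans (le_of_eq ?_))
      rw [pow_succ]
      ring
    · subst hk
      have h1 : min (k + 1) k = k := min_eq_right (Nat.le_succ k)
      have h2 := hy.2
      rw [h1] at h2
      have h3 := D.fib k le_rfl x1 hx1 y hy.1 h2
      refine h3.trans ?_
      have : (0 : ℝ) < 2 ^ k := by positivity
      nlinarith
  up := by
    intro x1 _ y hy k hk h
    refine ⟨hy, fun h2 => h.2 (sst_mono ?_ h2)⟩
    exact min_le_min (Nat.le_succ _) le_rfl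
  dead := by
    intro x1 _ y hy k hk h x0
    have h1 : min (k + 1) K = k + 1 := min_eq_left hk
    have h2 : sst q.Lm U.2.1 K (k + 1) x1 y := by
      by_contra h3
      exact h ⟨hy, by rw [h1]; exact h3⟩
    unfold Wn
    rw [H58.kF_dead F2 h2]
    norm_num

/-- **The left side of the field.** -/
theorem X2_eq (D : FDs q n ez F1 F2 F3 K x s r U g u v A b C Q1 Q2 Q3 v') (M : Pt) (R : Slt ι)
    (h : ℤ) :
    ∑ t ∈ rt M, ∑ x0 ∈ iv K t, ∑ k ∈ range K, ∑ x ∈ iv K M.1, ∑ z ∈ iv K M.2.2,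
      nsq ((av R h x0 k z x - av R h x0 (k + 1) z x) *ᵥ
        (av R h x0 (k + 1) z x *ᵥ C x0 (k + 1) z x)) =
      X2 K M R h (Wn q K U F2) v' := by
  unfold X2
  refine sum_congr rfl fun t _ => sum_congr rfl fun x0 _ => sum_congr rfl fun k _ =>
    sum_congr rfl fun x1 _ => sum_congr rfl fun z _ => ?_
  rw [D.C_eq, mulVec_smul, mulVec_smul]
  unfold H43.nsq Wn
  rw [smul_dotProduct, dotProduct_smul, smul_eq_mul, smul_eq_mul]
  ring

end fd

/-- **The field `q2`.** -/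
theorem fld_q2 : RawField FQ2 := by
  refine ⟨6, 12, 12, fun p => (9 * 10 ^ 8 * (1 + ((70 : ℕ) : ℝ)) ^ 6) ^ 2 * p.L, ?_⟩
  intro ι _ _ q n ez F1 F2 F3 o K x s r U g u v A b C R κ E hS h hh
  obtain ⟨Q1, Q2, Q3, v', D⟩ := hS.dat
  have ht := hS.t0
  have hr0 : 0 < r := by linarith [hS.r1]
  have hs := hS.s0
  have hy : 0 < q.t / r := div_pos ht hr0
  have hy1 : q.t / r ≤ 1 := by
    rw [div_le_one hr0]
    linarith [hS.t1, hS.r1]
  have hl : 0 < q.lam s r := H401.Num.lam_pos (p := q) ht hs hS.r1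
  have hb : 0 ≤ q.t ^ (-q.c) := Real.rpow_nonneg ht.le _
  have hL1 := hS.L1
  have hP : 0 ≤ q.L * q.t ^ (2 - q.c) * √s := by
    have : 0 ≤ q.L := by linarith
    positivity
  have hlr := lam_row (q := q) ht hS.t1 hS.e00 hs hS.r1 hS.e01
  have hm := m_eq (q := q) ht hs hS.r1
  have hy2 : (q.t / r) ^ (-2 : ℝ) = (r / q.t) ^ 2 := by
    rw [Real.rpow_neg hy.le, Real.rpow_ofNat, ← inv_pow, inv_div]
  have hVy : 2 * lam1 q s r / (2 * q.lam s r) ≤ (q.t / r) ^ (-10 : ℝ) := by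
    rw [mul_div_mul_left _ _ (two_ne_zero)]
    rw [div_le_iff₀ hl]
    unfold lam1 H401.Num.lam
    have hS0 : 0 < √s := Real.sqrt_pos.2 hs
    rw [Real.div_rpow ht.le hr0.le]
    have e1 : q.t ^ (-10 : ℝ) / r ^ (-10 : ℝ) * (q.t ^ (2 - q.e0) * √s * r ^ q.e0) =
        (q.t ^ (-8 - q.e0) * √s * r ^ (10 + q.e0)) := by
      have e2 : q.t ^ (-8 - q.e0) = q.t ^ (-10 : ℝ) * q.t ^ (2 - q.e0) := by
        rw [← Real.rpow_add ht]
        congr 1
        ring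
      have e3 : r ^ (10 + q.e0) = r ^ (10 : ℝ) * r ^ q.e0 := by
        rw [← Real.rpow_add hr0]
      have e4 : r ^ (-10 : ℝ) = (r ^ (10 : ℝ))⁻¹ := Real.rpow_neg hr0.le _
      have hr10 : 0 < r ^ (10 : ℝ) := Real.rpow_pos_of_pos hr0 _
      rw [e2, e3, e4]
      field_simp
    rw [e1]
    have e5 : q.t ^ (-8 : ℝ) ≤ q.t ^ (-8 - q.e0) :=
      Real.rpow_le_rpow_of_exponent_ge ht hS.t1 (by linarith [hS.e00])
    have e6 : r ^ (8 : ℝ) ≤ r ^ (10 + q.e0) :=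
      Real.rpow_le_rpow_of_exponent_le hS.r1 (by linarith [hS.e00])
    exact mul_le_mul (mul_le_mul_of_nonneg_right e5 hS0.le) e6 (Real.rpow_nonneg hr0.le _)
      (by positivity)
  have hΘy : (r / q.t) ^ 2 / 2 ≤ (q.t / r) ^ (-2 : ℝ) := by
    rw [hy2]
    have : 0 ≤ (r / q.t) ^ 2 := sq_nonneg _
    linarith
  have hPy : q.L * q.t ^ (2 - q.c) * √s / (2 * q.lam s r) ≤
      q.t ^ (-q.c) * q.L * (q.t / r) ^ q.e0 := by
    rw [hm]
    have h1 : 0 ≤ q.t ^ (-q.c) * (q.t / r) ^ q.e0 := mul_nonneg hb (Real.rpow_nonneg hy.le _)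
    nlinarith
  show Raw _ _ _ _ _ _ _ _ _ _ _
  rw [X2_eq D]
  exact q2_raw hS.cls.toCls hl hS.ho (v'_le D) hs.le hP
    (wt_next D hS.hF2.1 hS.hK ht hr0) (by linarith [hS.κ1]) hS.E0.le hS.slt
    (Θ := (r / q.t) ^ 2 / 2) (by positivity) (Th_le hS.cls ht hl hlr) h.2.2 hy hy1 hb hL1 hVy
    hΘy hPy

end

end Vale.Agent.P141.H690.Q2F
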