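import Vale.Agent.P141.H690.Q2F
import Vale.Agent.P141.H627.LagQ

/-!
# P141, line (A): the field `q2L` of the raw numbers at the data of the flow part

`fld_q2L : RawField FQ2L` : the products of the slot at every lag.
-/

namespace Vale.Agent.P141.H690.Q2F

open Finset Matrix
open Vale.Agent.P141.PL (Pt iv ix mem_iv ix_ix cx cb)
open Vale.Agent.P141.H43 (nsq nsq_nonneg)
open Vale.Agent.P141.H677 (KT GT MT rt kF)
open Vale.Agent.P141.H677.Sk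
open Vale.Agent.P141.H841 (v'_le Th_le alF fibF upF)
open Vale.Agent.P141.H690.Q2R
open Vale.Agent.P141.H627 (WL WL_nonneg WL_cell WL_al lag_red reord)

noncomputable section

open scoped Classical

set_option linter.unusedSectionVars false

section fd

variable {ι : Type} [Fintype ι] [DecidableEq ι] {q : H401.Num} {n : ℕ} {ez : ℝ}
  {F1 F2 F3 : ℕ → Pt → ℝ} {K : ℕ} {x : Pt} {s r : ℝ}
  {U : PL.H315.Tri} {g : ℤ → ℤ → ℝ} {u v : ℤ → ℤ → ι → ℝ} {A : FamA}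
  {b C : FamV ι} {Q1 Q2 Q3 : ℕ → Pt → Prop} {v' : ℤ → ℤ → ι → ℝ}

/-- the killed input of time `k`, lag `l`, as weights -/
theorem wt_lag (D : FDs q n ez F1 F2 F3 K x s r U g u v A b C Q1 Q2 Q3 v') (hez : 0 ≤ ez)
    (hK : K ≤ n) (ht : 0 < q.t) (hr : 0 < r) (l : ℕ) :
    Wt K (cx K x) v' (WL q.Lm U.2.1 K F2 l) (alF q K x U) ez (lam1 q s r) where
  e0 := hez
  W0 := fun x1 k x0 y => WL_nonneg _ _ _ _ l x1 k x0 y
  line := fun x1 _ k hk j y => WL_cell D.B2 hez hK l x1 k hk.le j y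
  V0 := lam1_nonneg (s := s) ht hr
  fib := fun x1 hx1 => fibF D hx1
  up := fun x1 _ => upF q K x U x1
  dead := fun x1 _ y hy k hk h x0 => WL_al q.Lm F2 l x1 rfl y hy k hk.le h x0

/-- the left side of the field below the number of the weights -/
theorem X2L_le (D : FDs q n ez F1 F2 F3 K x s r U g u v A b C Q1 Q2 Q3 v') (M : Pt) (R : Slt ι)
    (h : ℤ) (l : ℕ) :
    ∑ t ∈ rt M, ∑ x0 ∈ iv K t, ∑ k ∈ range (K - l), ∑ x ∈ iv K M.1, ∑ z ∈ iv K M.2.2,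
      nsq ((av R h x0 (k + l) z x - av R h x0 (k + l + 1) z x) *ᵥ
        (av R h x0 (k + l + 1) z x *ᵥ C x0 k z x)) ≤
      X2 K M R h (WL q.Lm U.2.1 K F2 l) v' := by
  unfold X2
  refine sum_le_sum fun t _ => ?_
  rw [reord (iv K t) (iv K M.1) (iv K M.2.2) (range K) fun x0 k x1 z =>
    WL q.Lm U.2.1 K F2 l x1 k x0 z * nsq ((av R h x0 k z x1 - av R h x0 (k + 1) z x1) *ᵥ
      (av R h x0 (k + 1) z x1 *ᵥ v' x1 z))]
  refine le_trans (le_of_eq ?_) (lag_red (iv K t) (iv K M.1) (iv K M.2.2) K l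
    (W := fun x1 k x0 z => kF q.Lm U.2.1 K F2 k (x0, x1, z) ^ 2)
    (F := fun x1 k x0 z => nsq ((av R h x0 k z x1 - av R h x0 (k + 1) z x1) *ᵥ
      (av R h x0 (k + 1) z x1 *ᵥ v' x1 z)))
    (fun _ _ _ _ => sq_nonneg _) (fun _ _ _ _ => nsq_nonneg _))
  refine sum_congr rfl fun x0 _ => sum_congr rfl fun k _ => sum_congr rfl fun x1 _ =>
    sum_congr rfl fun z _ => ?_
  rw [D.C_eq, mulVec_smul, mulVec_smul]
  unfold H43.nsq
  rw [smul_dotProduct, dotProduct_smul, smul_eq_mul, smul_eq_mul]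
  ring

end fd

/-- the scalars of the class -/
theorem scal {q : H401.Num} {s r : ℝ} (ht : 0 < q.t) (ht1 : q.t ≤ 1) (hs : 0 < s) (hr : 1 ≤ r)
    (he : 0 < q.e0) (hL1 : 1 ≤ q.L) :
    0 < q.lam s r ∧ 0 < q.t / r ∧ q.t / r ≤ 1 ∧ lam1 q s r / q.lam s r ≤ (q.t / r) ^ (-10 : ℝ) ∧
      (r / q.t) ^ 2 / 2 ≤ (q.t / r) ^ (-2 : ℝ) ∧
      q.L * q.t ^ (2 - q.c) * √s / (2 * q.lam s r) ≤ q.t ^ (-q.c) * q.L * (q.t / r) ^ q.e0 := by
  have hr0 : 0 < r := by linarith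
  have hy : 0 < q.t / r := div_pos ht hr0
  have hy1 : q.t / r ≤ 1 := by
    rw [div_le_one hr0]
    linarith
  have hl : 0 < q.lam s r := H401.Num.lam_pos (p := q) ht hs hr
  have hb : 0 ≤ q.t ^ (-q.c) := Real.rpow_nonneg ht.le _
  have hm := m_eq (q := q) ht hs hr
  have hy2 : (q.t / r) ^ (-2 : ℝ) = (r / q.t) ^ 2 := by
    rw [Real.rpow_neg hy.le, Real.rpow_ofNat, ← inv_pow, inv_div]
  refine ⟨hl, hy, hy1, ?_, ?_, ?_⟩
  · rw [div_le_iff₀ hl]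
    unfold lam1 H401.Num.lam
    have hS0 : 0 < √s := Real.sqrt_pos.2 hs
    rw [Real.div_rpow ht.le hr0.le]
    have e1 : q.t ^ (-10 : ℝ) / r ^ (-10 : ℝ) * (q.t ^ (2 - q.e0) * √s * r ^ q.e0) =
        (q.t ^ (-8 - q.e0) * √s * r ^ (10 + q.e0)) := by
      have e2 : q.t ^ (-8 - q.e0) = q.t ^ (-10 : ℝ) * q.t ^ (2 - q.e0) := by
        rw [← Real.rpow_add ht]
        congr 1
        ring
      have e3 : r ^ (10 + q.e0) = r ^ (10 : ℝ) * r ^ q.e0 := by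
        rw [← Real.rpow_add hr0]
      have e4 : r ^ (-10 : ℝ) = (r ^ (10 : ℝ))⁻¹ := Real.rpow_neg hr0.le _
      have hr10 : 0 < r ^ (10 : ℝ) := Real.rpow_pos_of_pos hr0 _
      rw [e2, e3, e4]
      field_simp
    rw [e1]
    have e5 : q.t ^ (-8 : ℝ) ≤ q.t ^ (-8 - q.e0) :=
      Real.rpow_le_rpow_of_exponent_ge ht ht1 (by linarith)
    have e6 : r ^ (8 : ℝ) ≤ r ^ (10 + q.e0) :=
      Real.rpow_le_rpow_of_exponent_le hr (by linarith)
    exact mul_le_mul (mul_le_mul_of_nonneg_right e5 hS0.le) e6 (Real.rpow_nonneg hr0.le _)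
      (by positivity)
  · rw [hy2]
    have : 0 ≤ (r / q.t) ^ 2 := sq_nonneg _
    linarith
  · rw [hm]
    have h1 : 0 ≤ q.t ^ (-q.c) * (q.t / r) ^ q.e0 := mul_nonneg hb (Real.rpow_nonneg hy.le _)
    nlinarith

/-- a smaller number -/
theorem raw_le {q : ℕ} {C0 C1 A b y e0 κ E D X X' : ℝ} (H : Raw q C0 C1 A b y e0 κ E D X)
    (hX : X' ≤ X) : Raw q C0 C1 A b y e0 κ E D X' :=
  ⟨fun L => hX.trans (H.blind L), fun L δ hδ => hX.trans (H.signed L δ hδ)⟩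

/-- **The field `q2L`.** -/
theorem fld_q2L : RawField FQ2L := by
  refine ⟨6, 12, 12, fun p => (9 * 10 ^ 8 * (1 + ((70 : ℕ) : ℝ)) ^ 6) ^ 2 * p.L, ?_⟩
  intro ι _ _ q n ez F1 F2 F3 o K x s r U g u v A b C R κ E hS h hh l
  obtain ⟨Q1, Q2, Q3, v', D⟩ := hS.dat
  have ht := hS.t0
  have hr0 : 0 < r := by linarith [hS.r1]
  have hs := hS.s0
  have hL1 := hS.L1
  obtain ⟨hl, hy, hy1, hV, hΘy, hPy⟩ := scal ht hS.t1 hs hS.r1 hS.e00 hL1
  have hb : 0 ≤ q.t ^ (-q.c) := Real.rpow_nonneg ht.le _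
  have hP : 0 ≤ q.L * q.t ^ (2 - q.c) * √s := by
    have : 0 ≤ q.L := by linarith
    positivity
  have hlr := lam_row (q := q) ht hS.t1 hS.e00 hs hS.r1 hS.e01
  have h0 := lam1_nonneg (q := q) (s := s) ht hr0
  have hVy : lam1 q s r / (2 * q.lam s r) ≤ (q.t / r) ^ (-10 : ℝ) := by
    refine le_trans ?_ hV
    refine div_le_div_of_nonneg_left h0 hl ?_
    linarith
  show Raw _ _ _ _ _ _ _ _ _ _ _
  refine raw_le ?_ (X2L_le D (cx K x) R h.2.2 l)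
  exact q2_raw hS.cls.toCls hl hS.ho (v'_le D) hs.le hP
    (wt_lag D hS.hF2.1 hS.hK ht hr0 l) (by linarith [hS.κ1]) hS.E0.le hS.slt
    (Θ := (r / q.t) ^ 2 / 2) (by positivity) (Th_le hS.cls ht hl hlr) h.2.2 hy hy1 hb hL1 hVy
    hΘy hPy

end

end Vale.Agent.P141.H690.Q2F
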