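import Vale.Agent.P141.H841.Lay

/-!
# P141, line (A), shifted grids: sums of the weights `om`

* `diag_split` : a double sum over scales by the difference of the scales;
* `near_om`, `near_E`, `near_diag`, `near_lay` : the near part;
* `om_far` : the far part, summed over `y`.
-/

namespace Vale.Agent.P141.H690

open Finset
open Vale.Agent.P141.PL (iv ix mem_iv card_iv ix_ix)
open Vale.Agent.P141.H841 (om om_nonneg st)

noncomputable section

/-! ### Series -/

theorem ser2 (N : ℕ) : ∑ d ∈ range N, (d : ℝ) ^ 2 / 2 ^ d =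
    6 - (2 * (N : ℝ) ^ 2 + 4 * N + 6) / 2 ^ N := by
  induction N with
  | zero => norm_num
  | succ N ih => rw [sum_range_succ, ih]; push_cast; field_simp; ring

theorem ser4 (N : ℕ) : ∑ d ∈ range N, (d : ℝ) ^ 4 / 2 ^ d =
    150 - (2 * (N : ℝ) ^ 4 + 8 * (N : ℝ) ^ 3 + 36 * (N : ℝ) ^ 2 + 104 * N + 150) / 2 ^ N := by
  induction N with
  | zero => norm_num
  | succ N ih => rw [sum_range_succ, ih]; push_cast; field_simp; ring

theorem ser24 (N : ℕ) : ∑ d ∈ range N, (d : ℝ) ^ 2 / 4 ^ d =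
    20 / 27 - (4 / 3 * (N : ℝ) ^ 2 + 8 / 9 * N + 20 / 27) / 4 ^ N := by
  induction N with
  | zero => norm_num
  | succ N ih => rw [sum_range_succ, ih]; push_cast; field_simp; ring

theorem ser2_le (N : ℕ) : ∑ d ∈ range N, (d : ℝ) ^ 2 / 2 ^ d ≤ 6 := by
  rw [ser2]
  have : 0 ≤ (2 * (N : ℝ) ^ 2 + 4 * N + 6) / 2 ^ N := by positivity
  linarith

theorem ser4_le (N : ℕ) : ∑ d ∈ range N, (d : ℝ) ^ 4 / 2 ^ d ≤ 150 := by
  rw [ser4]
  have : 0 ≤ (2 * (N : ℝ) ^ 4 + 8 * (N : ℝ) ^ 3 + 36 * (N : ℝ) ^ 2 + 104 * N + 150) / 2 ^ N := by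
    positivity
  linarith

theorem ser24_le (N : ℕ) : ∑ d ∈ range N, (d : ℝ) ^ 2 / 4 ^ d ≤ 1 := by
  rw [ser24]
  have : 0 ≤ (4 / 3 * (N : ℝ) ^ 2 + 8 / 9 * N + 20 / 27) / 4 ^ N := by positivity
  linarith

/-! ### The double sum over scales -/

theorem diag_lt (n : ℕ) (c : ℕ → ℕ → ℝ) :
    ∑ k ∈ range (n + 1), ∑ i ∈ range k, c k i =
      ∑ r ∈ range n, ∑ i ∈ range (n - r), c (i + 1 + r) i := by
  rw [sum_sigma', sum_sigma']
  refine sum_nbij' (fun p => ⟨p.1 - p.2 - 1, p.2⟩) (fun p => ⟨p.2 + 1 + p.1, p.2⟩) ?_ ?_ ?_ ?_ ?_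
  · rintro ⟨k, i⟩ h
    simp only [mem_sigma, mem_range] at h ⊢
    omega
  · rintro ⟨r, i⟩ h
    simp only [mem_sigma, mem_range] at h ⊢
    omega
  · rintro ⟨k, i⟩ h
    simp only [mem_sigma, mem_range] at h
    have e : i + 1 + (k - i - 1) = k := by omega
    simp only [e]
  · rintro ⟨r, i⟩ h
    simp only [mem_sigma, mem_range] at h
    have e : i + 1 + r - i - 1 = r := by omega
    simp only [e]
  · rintro ⟨k, i⟩ h
    simp only [mem_sigma, mem_range] at h
    have e : i + 1 + (k - i - 1) = k := by omega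
    simp only [e]

theorem diag_ge (n L : ℕ) (c : ℕ → ℕ → ℝ) :
    ∑ k ∈ range (n + 1), ∑ i ∈ Ico k n, (if i + 1 ≤ k + L then c k i else 0) =
      ∑ d ∈ Icc 1 L, ∑ k ∈ range (n + 1 - d), c k (k + d - 1) := by
  have e1 : ∀ k ∈ range (n + 1), ∑ i ∈ Ico k n, (if i + 1 ≤ k + L then c k i else 0) =
      ∑ i ∈ (Ico k n).filter (fun i => i + 1 ≤ k + L), c k i := fun k _ => (sum_filter _ _).symm
  rw [sum_congr rfl e1, sum_sigma', sum_sigma']
  refine sum_nbij' (fun p => ⟨p.2 + 1 - p.1, p.1⟩) (fun p => ⟨p.2, p.2 + p.1 - 1⟩) ?_ ?_ ?_ ?_ ?_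
  · rintro ⟨k, i⟩ h
    simp only [mem_sigma, mem_range, mem_filter, mem_Ico, mem_Icc] at h ⊢
    omega
  · rintro ⟨d, k⟩ h
    simp only [mem_sigma, mem_range, mem_filter, mem_Ico, mem_Icc] at h ⊢
    omega
  · rintro ⟨k, i⟩ h
    simp only [mem_sigma, mem_range, mem_filter, mem_Ico] at h
    have e : k + (i + 1 - k) - 1 = i := by omega
    simp only [e]
  · rintro ⟨d, k⟩ h
    simp only [mem_sigma, mem_range, mem_Icc] at h
    have e : k + d - 1 + 1 - k = d := by omega
    simp only [e]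
  · rintro ⟨k, i⟩ h
    simp only [mem_sigma, mem_range, mem_filter, mem_Ico] at h
    have e : k + (i + 1 - k) - 1 = i := by omega
    simp only [e]

/-- **A double sum over scales by the difference of the scales.** -/
theorem diag_split (n L : ℕ) (c : ℕ → ℕ → ℝ) :
    ∑ k ∈ range (n + 1), ∑ i ∈ range n, (if i + 1 ≤ k + L then c k i else 0) =
      ∑ r ∈ range n, ∑ i ∈ range (n - r), c (i + 1 + r) i +
        ∑ d ∈ Icc 1 L, ∑ k ∈ range (n + 1 - d), c k (k + d - 1) := by
  rw [← diag_lt, ← diag_ge, ← sum_add_distrib]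
  refine sum_congr rfl fun k hk => ?_
  rw [mem_range] at hk
  have hkn : k ≤ n := by omega
  rw [range_eq_Ico, ← sum_Ico_consecutive _ (Nat.zero_le k) hkn, ← range_eq_Ico]
  congr 1
  refine sum_congr rfl fun i hi => ?_
  rw [mem_range] at hi
  rw [if_pos (by omega)]

theorem om_lt {sh : ℤ} {k i : ℕ} (h : i < k) (y : ℤ) :
    om sh k i y = 8 * ((k - i : ℕ) : ℝ) ^ 2 * ((4 : ℝ) ^ (k - i))⁻¹ := by
  unfold om
  rw [if_pos h]

theorem om_ge {sh : ℤ} {k i : ℕ} (h : k ≤ i) (y : ℤ) :
    om sh k i y ≤ 8 * ((i + 1 - k : ℕ) : ℝ) ^ 2 := by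
  unfold om
  rw [if_neg (by omega)]
  split_ifs
  · positivity
  · exact le_rfl

theorem om_diag (sh : ℤ) (i r : ℕ) (y : ℤ) :
    om sh (i + 1 + r) i y = 8 * ((r : ℝ) + 1) ^ 2 * ((4 : ℝ) ^ (r + 1))⁻¹ := by
  rw [om_lt (by omega)]
  have e : i + 1 + r - i = r + 1 := by omega
  rw [e]
  push_cast
  ring

theorem om_diag' (sh : ℤ) (k d : ℕ) (hd : 1 ≤ d) (y : ℤ) :
    om sh k (k + d - 1) y ≤ 8 * (d : ℝ) ^ 2 := by
  have h := om_ge (sh := sh) (k := k) (i := k + d - 1) (by omega) y
  have e : k + d - 1 + 1 - k = d := by omega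
  rwa [e] at h

/-- sums of powers -/
theorem pow_sum (L p : ℕ) : ∑ d ∈ Icc 1 L, (d : ℝ) ^ p ≤ (L : ℝ) ^ (p + 1) := by
  calc ∑ d ∈ Icc 1 L, (d : ℝ) ^ p ≤ ∑ _d ∈ Icc 1 L, (L : ℝ) ^ p := by
        refine sum_le_sum fun d hd => ?_
        rw [mem_Icc] at hd
        exact pow_le_pow_left₀ (by positivity) (by exact_mod_cast hd.2) p
    _ = (L : ℝ) ^ (p + 1) := by
        rw [sum_const, Nat.card_Icc, nsmul_eq_mul]
        have : L + 1 - 1 = L := by omega
        rw [this, pow_succ]
        ring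

theorem shift_sum {n : ℕ} (f : ℕ → ℝ) (hf : ∀ d, 0 ≤ f d) :
    ∑ r ∈ range n, f (r + 1) ≤ ∑ d ∈ range (n + 1), f d := by
  rw [sum_range_succ' f n]
  linarith [hf 0]

/-- **(Q4)** -/
theorem near_om (n L : ℕ) (sh y : ℤ) {k : ℕ} (hk : k ≤ n) :
    ∑ i ∈ range n, (if i + 1 ≤ k + L then om sh k i y else 0) ≤ 8 + 8 * (L : ℝ) ^ 3 := by
  rw [range_eq_Ico, ← sum_Ico_consecutive _ (Nat.zero_le k) hk, ← range_eq_Ico]
  refine add_le_add ?_ ?_
  · calc ∑ i ∈ range k, (if i + 1 ≤ k + L then om sh k i y else 0)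
        = ∑ i ∈ range k, 8 * (((k - i : ℕ) : ℝ) ^ 2 / 4 ^ (k - i)) := by
          refine sum_congr rfl fun i hi => ?_
          rw [mem_range] at hi
          rw [if_pos (by omega), om_lt hi]
          ring
      _ = ∑ j ∈ range k, 8 * ((((j + 1 : ℕ)) : ℝ) ^ 2 / 4 ^ (j + 1)) := by
          rw [← sum_range_reflect]
          refine sum_congr rfl fun j hj => ?_
          rw [mem_range] at hj
          have e : k - (k - 1 - j) = j + 1 := by omega
          rw [e]
      _ ≤ ∑ d ∈ range (k + 1), 8 * ((d : ℝ) ^ 2 / 4 ^ d) :=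
          shift_sum (n := k) (fun d => 8 * ((d : ℝ) ^ 2 / 4 ^ d)) fun d => by positivity
      _ ≤ 8 := by
          rw [← mul_sum]
          linarith [ser24_le (k + 1)]
  · calc ∑ i ∈ Ico k n, (if i + 1 ≤ k + L then om sh k i y else 0)
        ≤ ∑ i ∈ Ico k n, (if i + 1 ≤ k + L then 8 * ((i + 1 - k : ℕ) : ℝ) ^ 2 else 0) := by
          refine sum_le_sum fun i hi => ?_
          rw [mem_Ico] at hi
          split_ifs
          · exact om_ge hi.1 y
          · exact le_rfl
      _ = ∑ i ∈ (Ico k n).filter (fun i => i + 1 ≤ k + L), 8 * ((i + 1 - k : ℕ) : ℝ) ^ 2 :=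
          (sum_filter _ _).symm
      _ ≤ ∑ d ∈ Icc 1 L, 8 * (d : ℝ) ^ 2 := by
          rw [← sum_image (s := (Ico k n).filter (fun i => i + 1 ≤ k + L))
            (g := fun i : ℕ => i + 1 - k) (f := fun d : ℕ => 8 * ((d : ℕ) : ℝ) ^ 2)]
          · refine sum_le_sum_of_subset_of_nonneg ?_ fun _ _ _ => by positivity
            intro d hd
            rw [mem_image] at hd
            obtain ⟨i, hi, rfl⟩ := hd
            rw [mem_filter, mem_Ico] at hi
            rw [mem_Icc]
            omega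
          · intro a ha b hb hab
            simp only [coe_filter, mem_Ico, Set.mem_ofPred_eq] at ha hb
            simp only at hab
            omega
      _ ≤ 8 * (L : ℝ) ^ 3 := by
          rw [← mul_sum]
          exact mul_le_mul_of_nonneg_left (pow_sum L 2) (by norm_num)

/-- **(Q3)** -/
theorem near_diag (n L : ℕ) (sh y : ℤ) {F : ℕ → ℕ → ℝ} {Z : ℝ} (hF : ∀ k i, 0 ≤ F k i) (hZ : 0 ≤ Z)
    (h1 : ∀ r < n, ∑ i ∈ range (n - r), F (i + 1 + r) i ≤ (1 + (r : ℝ)) ^ 2 * Z)
    (h2 : ∀ d, 1 ≤ d → d ≤ L → ∑ k ∈ range (n + 1 - d), F k (k + d - 1) ≤ Z) :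
    ∑ k ∈ range (n + 1), ∑ i ∈ range n,
      (if i + 1 ≤ k + L then om sh k i y * 2 ^ (k - (i + 1)) * F k i else 0) ≤
      (600 + 8 * (L : ℝ) ^ 3) * Z := by
  rw [diag_split n L (fun k i => om sh k i y * 2 ^ (k - (i + 1)) * F k i), add_mul]
  refine add_le_add ?_ ?_
  · calc ∑ r ∈ range n, ∑ i ∈ range (n - r),
          om sh (i + 1 + r) i y * 2 ^ (i + 1 + r - (i + 1)) * F (i + 1 + r) i
        = ∑ r ∈ range n, 4 * (((r : ℝ) + 1) ^ 2 / 2 ^ (r + 1)) *
            ∑ i ∈ range (n - r), F (i + 1 + r) i := by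
          refine sum_congr rfl fun r _ => ?_
          rw [mul_sum]
          refine sum_congr rfl fun i _ => ?_
          have e : i + 1 + r - (i + 1) = r := by omega
          rw [om_diag, e]
          have e4 : (4 : ℝ) ^ (r + 1) = 2 ^ (r + 1) * 2 ^ (r + 1) := by
            rw [← mul_pow]; norm_num
          rw [e4]
          field_simp
          ring
      _ ≤ ∑ r ∈ range n, 4 * (((r + 1 : ℕ) : ℝ) ^ 4 / 2 ^ (r + 1)) * Z := by
          refine sum_le_sum fun r hr => ?_
          rw [mem_range] at hr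
          have h := mul_le_mul_of_nonneg_left (h1 r hr)
            (show (0 : ℝ) ≤ 4 * (((r : ℝ) + 1) ^ 2 / 2 ^ (r + 1)) by positivity)
          refine h.trans (le_of_eq ?_)
          push_cast
          ring
      _ ≤ 600 * Z := by
          rw [← sum_mul, ← mul_sum]
          have h := shift_sum (n := n) (fun d => (d : ℝ) ^ 4 / 2 ^ d) fun d => by positivity
          have h' := ser4_le (n + 1)
          nlinarith
  · calc ∑ d ∈ Icc 1 L, ∑ k ∈ range (n + 1 - d),
          om sh k (k + d - 1) y * 2 ^ (k - (k + d - 1 + 1)) * F k (k + d - 1)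
        ≤ ∑ d ∈ Icc 1 L, 8 * (d : ℝ) ^ 2 * Z := by
          refine sum_le_sum fun d hd => ?_
          rw [mem_Icc] at hd
          calc ∑ k ∈ range (n + 1 - d),
              om sh k (k + d - 1) y * 2 ^ (k - (k + d - 1 + 1)) * F k (k + d - 1)
              ≤ ∑ k ∈ range (n + 1 - d), 8 * (d : ℝ) ^ 2 * F k (k + d - 1) := by
                refine sum_le_sum fun k _ => ?_
                have e : k - (k + d - 1 + 1) = 0 := by omega
                rw [e, pow_zero, mul_one]
                exact mul_le_mul_of_nonneg_right (om_diag' sh k d hd.1 y) (hF _ _)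
            _ ≤ 8 * (d : ℝ) ^ 2 * Z := by
                rw [← mul_sum]
                exact mul_le_mul_of_nonneg_left (h2 d hd.1 hd.2) (by positivity)
      _ ≤ 8 * (L : ℝ) ^ 3 * Z := by
          rw [← sum_mul, ← mul_sum]
          refine mul_le_mul_of_nonneg_right ?_ hZ
          exact mul_le_mul_of_nonneg_left (pow_sum L 2) (by norm_num)

/-- **(Q1)** -/
theorem near_E (n L : ℕ) (sh y : ℤ) {E : ℕ → ℝ} (hE : ∀ i, 0 ≤ E i) :
    ∑ k ∈ range (n + 1), ∑ i ∈ range n,
      (if i + 1 ≤ k + L then om sh k i y * 2 ^ (k - (i + 1)) * E i else 0) ≤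
      (24 + 8 * (L : ℝ) ^ 3) * ∑ i ∈ range n, E i := by
  set Z := ∑ i ∈ range n, E i with hZd
  have hZ : 0 ≤ Z := sum_nonneg fun i _ => hE i
  rw [diag_split n L (fun k i => om sh k i y * 2 ^ (k - (i + 1)) * E i), add_mul]
  refine add_le_add ?_ ?_
  · calc ∑ r ∈ range n, ∑ i ∈ range (n - r),
          om sh (i + 1 + r) i y * 2 ^ (i + 1 + r - (i + 1)) * E i
        = ∑ r ∈ range n, 4 * (((r + 1 : ℕ) : ℝ) ^ 2 / 2 ^ (r + 1)) *
            ∑ i ∈ range (n - r), E i := by
          refine sum_congr rfl fun r _ => ?_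
          rw [mul_sum]
          refine sum_congr rfl fun i _ => ?_
          have e : i + 1 + r - (i + 1) = r := by omega
          rw [om_diag, e]
          have e4 : (4 : ℝ) ^ (r + 1) = 2 ^ (r + 1) * 2 ^ (r + 1) := by
            rw [← mul_pow]; norm_num
          rw [e4]
          push_cast
          field_simp
          ring
      _ ≤ ∑ r ∈ range n, 4 * (((r + 1 : ℕ) : ℝ) ^ 2 / 2 ^ (r + 1)) * Z := by
          refine sum_le_sum fun r _ => ?_
          refine mul_le_mul_of_nonneg_left ?_ (by positivity)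
          exact sum_le_sum_of_subset_of_nonneg
            (fun i hi => mem_range.2 (by rw [mem_range] at hi; omega)) fun i _ _ => hE i
      _ ≤ 24 * Z := by
          rw [← sum_mul, ← mul_sum]
          have h := shift_sum (n := n) (fun d => (d : ℝ) ^ 2 / 2 ^ d) fun d => by positivity
          have h' := ser2_le (n + 1)
          nlinarith
  · calc ∑ d ∈ Icc 1 L, ∑ k ∈ range (n + 1 - d),
          om sh k (k + d - 1) y * 2 ^ (k - (k + d - 1 + 1)) * E (k + d - 1)
        ≤ ∑ d ∈ Icc 1 L, 8 * (d : ℝ) ^ 2 * Z := by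
          refine sum_le_sum fun d hd => ?_
          rw [mem_Icc] at hd
          calc ∑ k ∈ range (n + 1 - d),
              om sh k (k + d - 1) y * 2 ^ (k - (k + d - 1 + 1)) * E (k + d - 1)
              ≤ ∑ k ∈ range (n + 1 - d), 8 * (d : ℝ) ^ 2 * E (k + d - 1) := by
                refine sum_le_sum fun k _ => ?_
                have e : k - (k + d - 1 + 1) = 0 := by omega
                rw [e, pow_zero, mul_one]
                exact mul_le_mul_of_nonneg_right (om_diag' sh k d hd.1 y) (hE _)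
            _ ≤ 8 * (d : ℝ) ^ 2 * Z := by
                rw [← mul_sum]
                refine mul_le_mul_of_nonneg_left ?_ (by positivity)
                rw [← sum_image (s := range (n + 1 - d)) (g := fun k => k + d - 1) (f := E)]
                · refine sum_le_sum_of_subset_of_nonneg ?_ fun i _ _ => hE i
                  intro i hi
                  rw [mem_image] at hi
                  obtain ⟨k, hk, rfl⟩ := hi
                  rw [mem_range] at hk ⊢
                  omega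
                · intro a _ b _ hab
                  simp only at hab
                  omega
      _ ≤ 8 * (L : ℝ) ^ 3 * Z := by
          rw [← sum_mul, ← mul_sum]
          refine mul_le_mul_of_nonneg_right ?_ hZ
          exact mul_le_mul_of_nonneg_left (pow_sum L 2) (by norm_num)

/-- sums over bands -/
theorem band_le {n m a r : ℕ} (h : m + a + r ≤ n + 1) {E : ℕ → ℝ} (hE : ∀ i, 0 ≤ E i) :
    ∑ i ∈ range m, ∑ j ∈ Ico (i + a) (i + a + r), E j ≤ r * ∑ j ∈ range n, E j := by
  have e : ∀ i ∈ range m, ∑ j ∈ Ico (i + a) (i + a + r), E j = ∑ t ∈ range r, E (i + a + t) := by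
    intro i _
    rw [sum_Ico_eq_sum_range]
    have : i + a + r - (i + a) = r := by omega
    rw [this]
  rw [sum_congr rfl e, sum_comm]
  calc ∑ t ∈ range r, ∑ i ∈ range m, E (i + a + t)
      ≤ ∑ _t ∈ range r, ∑ j ∈ range n, E j := by
        refine sum_le_sum fun t ht => ?_
        rw [mem_range] at ht
        rw [← sum_image (s := range m) (g := fun i : ℕ => i + a + t) (f := E)]
        · refine sum_le_sum_of_subset_of_nonneg ?_ fun i _ _ => hE i
          intro i hi
          rw [mem_image] at hi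
          obtain ⟨k, hk, rfl⟩ := hi
          rw [mem_range] at hk ⊢
          omega
        · intro x _ z _ hxz
          simp only at hxz
          omega
    _ = r * ∑ j ∈ range n, E j := by
        rw [sum_const, card_range, nsmul_eq_mul]

/-- **(Q2)** -/
theorem near_lay (n L : ℕ) (sh y : ℤ) {E : ℕ → ℝ} (hE : ∀ i, 0 ≤ E i) :
    ∑ k ∈ range (n + 1), ∑ i ∈ range n, (if i + 1 ≤ k + L then om sh k i y *
      (if i < k then ((k - i - 1 : ℕ) : ℝ) * 2 ^ (k - i - 1) * ∑ j ∈ Ico (i + 1) k, E j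
        else ((i + 1 - k : ℕ) : ℝ) * ∑ j ∈ Ico k (i + 1), E j) else 0) ≤
      (600 + 8 * (L : ℝ) ^ 5) * ∑ j ∈ range n, E j := by
  set Z := ∑ i ∈ range n, E i with hZd
  have hZ : 0 ≤ Z := sum_nonneg fun i _ => hE i
  rw [diag_split n L (fun k i => om sh k i y *
    (if i < k then ((k - i - 1 : ℕ) : ℝ) * 2 ^ (k - i - 1) * ∑ j ∈ Ico (i + 1) k, E j
      else ((i + 1 - k : ℕ) : ℝ) * ∑ j ∈ Ico k (i + 1), E j)), add_mul]
  refine add_le_add ?_ ?_
  · calc ∑ r ∈ range n, ∑ i ∈ range (n - r), om sh (i + 1 + r) i y *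
          (if i < i + 1 + r then ((i + 1 + r - i - 1 : ℕ) : ℝ) * 2 ^ (i + 1 + r - i - 1) *
            ∑ j ∈ Ico (i + 1) (i + 1 + r), E j
          else ((i + 1 - (i + 1 + r) : ℕ) : ℝ) * ∑ j ∈ Ico (i + 1 + r) (i + 1), E j)
        = ∑ r ∈ range n, 4 * (((r : ℝ) + 1) ^ 2 * r / 2 ^ (r + 1)) *
            ∑ i ∈ range (n - r), ∑ j ∈ Ico (i + 1) (i + 1 + r), E j := by
          refine sum_congr rfl fun r _ => ?_
          rw [mul_sum]
          refine sum_congr rfl fun i _ => ?_
          have e : i + 1 + r - i - 1 = r := by omega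
          rw [om_diag, if_pos (by omega), e]
          have e4 : (4 : ℝ) ^ (r + 1) = 2 ^ (r + 1) * 2 ^ (r + 1) := by
            rw [← mul_pow]; norm_num
          rw [e4]
          field_simp
          ring
      _ ≤ ∑ r ∈ range n, 4 * (((r + 1 : ℕ) : ℝ) ^ 4 / 2 ^ (r + 1)) * Z := by
          refine sum_le_sum fun r hr => ?_
          rw [mem_range] at hr
          have h1 := band_le (n := n) (m := n - r) (a := 1) (r := r) (by omega) hE
          have h2 : (0 : ℝ) ≤ 4 * (((r : ℝ) + 1) ^ 2 * r / 2 ^ (r + 1)) := by positivity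
          have h := mul_le_mul_of_nonneg_left h1 h2
          refine h.trans ?_
          rw [← mul_assoc]
          refine mul_le_mul_of_nonneg_right ?_ hZ
          rw [mul_assoc, div_mul_eq_mul_div]
          refine mul_le_mul_of_nonneg_left ?_ (by norm_num)
          refine div_le_div_of_nonneg_right ?_ (by positivity)
          push_cast
          have hr0 : (0 : ℝ) ≤ r := by positivity
          have h3 : (r : ℝ) * r ≤ ((r : ℝ) + 1) ^ 2 := by nlinarith
          calc ((r : ℝ) + 1) ^ 2 * r * r = ((r : ℝ) + 1) ^ 2 * (r * r) := by ring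
            _ ≤ ((r : ℝ) + 1) ^ 2 * ((r : ℝ) + 1) ^ 2 :=
                mul_le_mul_of_nonneg_left h3 (by positivity)
            _ = _ := by ring
      _ ≤ 600 * Z := by
          rw [← sum_mul, ← mul_sum]
          have h := shift_sum (n := n) (fun d => (d : ℝ) ^ 4 / 2 ^ d) fun d => by positivity
          have h' := ser4_le (n + 1)
          nlinarith
  · calc ∑ d ∈ Icc 1 L, ∑ k ∈ range (n + 1 - d), om sh k (k + d - 1) y *
          (if k + d - 1 < k then ((k - (k + d - 1) - 1 : ℕ) : ℝ) * 2 ^ (k - (k + d - 1) - 1) *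
            ∑ j ∈ Ico (k + d - 1 + 1) k, E j
          else ((k + d - 1 + 1 - k : ℕ) : ℝ) * ∑ j ∈ Ico k (k + d - 1 + 1), E j)
        ≤ ∑ d ∈ Icc 1 L, 8 * (d : ℝ) ^ 4 * Z := by
          refine sum_le_sum fun d hd => ?_
          rw [mem_Icc] at hd
          calc _ ≤ ∑ k ∈ range (n + 1 - d), 8 * (d : ℝ) ^ 2 *
                (d * ∑ j ∈ Ico (k + 0) (k + 0 + d), E j) := by
                refine sum_le_sum fun k _ => ?_
                have e : k + d - 1 + 1 - k = d := by omega
                have e' : k + d - 1 + 1 = k + 0 + d := by omega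
                rw [if_neg (by omega), e, e', Nat.add_zero]
                exact mul_le_mul_of_nonneg_right (om_diag' sh k d hd.1 y)
                  (mul_nonneg (by positivity) (sum_nonneg fun _ _ => hE _))
            _ ≤ 8 * (d : ℝ) ^ 4 * Z := by
                rw [← mul_sum, ← mul_sum]
                rcases le_or_gt d (n + 1) with hdn | hdn
                · have h1 := band_le (n := n) (m := n + 1 - d) (a := 0) (r := d) (by omega) hE
                  have h2 := mul_le_mul_of_nonneg_left h1 (show (0 : ℝ) ≤ 8 * (d : ℝ) ^ 3 by positivity)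
                  calc _ = 8 * (d : ℝ) ^ 3 * ∑ i ∈ range (n + 1 - d),
                        ∑ j ∈ Ico (i + 0) (i + 0 + d), E j := by ring
                    _ ≤ _ := h2
                    _ = _ := by ring
                · have e : n + 1 - d = 0 := by omega
                  rw [e, range_zero, sum_empty, mul_zero, mul_zero]
                  positivity
      _ ≤ 8 * (L : ℝ) ^ 5 * Z := by
          rw [← sum_mul, ← mul_sum]
          refine mul_le_mul_of_nonneg_right ?_ hZ
          exact mul_le_mul_of_nonneg_left (pow_sum L 4) (by norm_num)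

/-! ### The far part -/

theorem ser2' (N : ℕ) : ∑ m ∈ range N, ((m : ℝ) + 1) ^ 2 / 2 ^ m =
    12 - (2 * (N : ℝ) ^ 2 + 8 * N + 12) / 2 ^ N := by
  induction N with
  | zero => norm_num
  | succ N ih => rw [sum_range_succ, ih]; push_cast; field_simp; ring

theorem ser2_Ico (L M : ℕ) : ∑ m ∈ Ico L M, ((m : ℝ) + 1) ^ 2 / 2 ^ m ≤
    2 * (((L : ℝ) + 2) ^ 2 + 2) / 2 ^ L := by
  rcases le_total L M with h | h
  · rw [sum_Ico_eq_sub _ h, ser2', ser2']
    have h1 : 0 ≤ (2 * (M : ℝ) ^ 2 + 8 * M + 12) / 2 ^ M := by positivity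
    have e : 2 * (((L : ℝ) + 2) ^ 2 + 2) / 2 ^ L = (2 * (L : ℝ) ^ 2 + 8 * L + 12) / 2 ^ L := by
      congr 1; ring
    rw [e]
    linarith
  · rw [Ico_eq_empty (by omega), sum_empty]
    positivity

/-- the shifted cell of scale `k` of `y` meets two cells of scale `i` -/
def stg (sh : ℤ) (k i : ℕ) (y : ℤ) : ℝ :=
  if ix i (st sh k y) = ix i (st sh k y + 2 ^ k) then 0 else 1

theorem stg_nonneg (sh : ℤ) (k i : ℕ) (y : ℤ) : 0 ≤ stg sh k i y := by
  unfold stg; split_ifs <;> norm_num

theorem om_stg {sh : ℤ} {k i : ℕ} (h : k ≤ i) (y : ℤ) :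
    om sh k i y = 8 * ((i + 1 - k : ℕ) : ℝ) ^ 2 * stg sh k i y := by
  unfold om stg
  rw [if_neg (by omega)]
  split_ifs <;> simp

/-- `y` is within `2 ^ k` of the border of its cell of scale `i` -/
theorem stg_near {sh : ℤ} {k i : ℕ} {y : ℤ} (h : ix i (st sh k y) ≠ ix i (st sh k y + 2 ^ k)) :
    y < 2 ^ i * ix i y + 2 ^ k ∨ 2 ^ i * ix i y + 2 ^ i - 2 ^ k ≤ y := by
  by_contra hc
  push Not at hc
  obtain ⟨h1, h2⟩ := hc
  obtain ⟨b1, b2⟩ := H841.st_bd sh k y
  have hp : (0 : ℤ) < 2 ^ k := by positivity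
  apply h
  exact (H841.ix_of (m := ix i y) (by linarith) (by linarith)).trans
    (H841.ix_of (m := ix i y) (by linarith) (by linarith)).symm

theorem stg_cell (sh : ℤ) (k i : ℕ) (c : ℤ) : ∑ y ∈ iv i c, stg sh k i y ≤ 2 * 2 ^ k := by
  classical
  set A := Ico (2 ^ i * c) (2 ^ i * c + 2 ^ k) with hA
  set B := Ico (2 ^ i * c + 2 ^ i - 2 ^ k) (2 ^ i * c + 2 ^ i) with hB
  have cA : (A.card : ℝ) = 2 ^ k := by
    rw [hA, Int.card_Ico]
    have : (2 ^ i * c + 2 ^ k - 2 ^ i * c : ℤ) = ((2 ^ k : ℕ) : ℤ) := by push_cast; ring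
    rw [this, Int.toNat_natCast]
    push_cast
    rfl
  have cB : (B.card : ℝ) = 2 ^ k := by
    rw [hB, Int.card_Ico]
    have : (2 ^ i * c + 2 ^ i - (2 ^ i * c + 2 ^ i - 2 ^ k) : ℤ) = ((2 ^ k : ℕ) : ℤ) := by
      push_cast; ring
    rw [this, Int.toNat_natCast]
    push_cast
    rfl
  calc ∑ y ∈ iv i c, stg sh k i y
      ≤ ∑ y ∈ iv i c, ((if y ∈ A then (1 : ℝ) else 0) + (if y ∈ B then (1 : ℝ) else 0)) := by
        refine sum_le_sum fun y hy => ?_
        have hyc := mem_iv.1 hy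
        obtain ⟨b1, b2⟩ := H841.ix_bd i y
        rw [hyc] at b1 b2
        by_cases h : ix i (st sh k y) = ix i (st sh k y + 2 ^ k)
        · unfold stg
          rw [if_pos h]
          split_ifs <;> norm_num
        · have h2 := stg_near h
          rw [hyc] at h2
          unfold stg
          rw [if_neg h]
          rcases h2 with h2 | h2
          · have : y ∈ A := by rw [hA, mem_Ico]; exact ⟨b1, h2⟩
            rw [if_pos this]
            split_ifs <;> norm_num
          · have : y ∈ B := by rw [hB, mem_Ico]; exact ⟨h2, b2⟩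
            rw [if_pos this]
            split_ifs <;> norm_num
    _ = (((iv i c).filter (· ∈ A)).card : ℝ) + (((iv i c).filter (· ∈ B)).card : ℝ) := by
        rw [sum_add_distrib, sum_boole, sum_boole]
    _ ≤ (A.card : ℝ) + (B.card : ℝ) := by
        have h1 : ((iv i c).filter (· ∈ A)).card ≤ A.card :=
          card_le_card fun y hy => (mem_filter.1 hy).2
        have h2 : ((iv i c).filter (· ∈ B)).card ≤ B.card :=
          card_le_card fun y hy => (mem_filter.1 hy).2
        exact add_le_add (by exact_mod_cast h1) (by exact_mod_cast h2)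
    _ = 2 * 2 ^ k := by rw [cA, cB]; ring

/-- **the number of the points whose shifted cell meets two cells of scale `i`** -/
theorem stg_sum (sh : ℤ) (k : ℕ) {i n : ℕ} (hin : i ≤ n) (M : ℤ) :
    ∑ y ∈ iv n M, stg sh k i y ≤ 2 * 2 ^ (n - i) * 2 ^ k := by
  rw [← H922.iv_iv hin]
  calc ∑ c ∈ iv (n - i) M, ∑ y ∈ iv i c, stg sh k i y
      ≤ ∑ _c ∈ iv (n - i) M, (2 * 2 ^ k : ℝ) := sum_le_sum fun c _ => stg_cell sh k i c
    _ = 2 * 2 ^ (n - i) * 2 ^ k := by
        rw [sum_const, card_iv, nsmul_eq_mul]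
        push_cast
        ring

/-- **(F)** -/
theorem om_far (n L : ℕ) (sh M3 : ℤ) {b : ℕ → ℝ} (hb : ∀ i, 0 ≤ b i) :
    ∑ y ∈ iv n M3, ∑ k ∈ range (n + 1), ∑ i ∈ range n,
      (if k + L ≤ i then om sh k i y * b i else 0) ≤
      128 * 2 ^ n * (((L : ℝ) + 2) ^ 2 + 2) / 2 ^ L * ∑ i ∈ range n, b i := by
  have e1 : ∑ y ∈ iv n M3, ∑ k ∈ range (n + 1), ∑ i ∈ range n,
      (if k + L ≤ i then om sh k i y * b i else 0) =
      ∑ i ∈ range n, ∑ k ∈ range (n + 1), ∑ y ∈ iv n M3,
        (if k + L ≤ i then om sh k i y * b i else 0) := by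
    rw [sum_comm]
    calc _ = ∑ k ∈ range (n + 1), ∑ i ∈ range n, ∑ y ∈ iv n M3,
          (if k + L ≤ i then om sh k i y * b i else 0) :=
          sum_congr rfl fun k _ => sum_comm
      _ = _ := sum_comm
  rw [e1, mul_sum]
  refine sum_le_sum fun i hi => ?_
  rw [mem_range] at hi
  calc ∑ k ∈ range (n + 1), ∑ y ∈ iv n M3, (if k + L ≤ i then om sh k i y * b i else 0)
      ≤ ∑ k ∈ range (n + 1), (if k + L ≤ i then
          16 * 2 ^ n * b i * ((((i - k : ℕ) : ℝ) + 1) ^ 2 / 2 ^ (i - k)) else 0) := by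
        refine sum_le_sum fun k _ => ?_
        by_cases h : k + L ≤ i
        · simp only [if_pos h]
          have hki : k ≤ i := by omega
          have h1 := stg_sum sh k hi.le M3
          calc ∑ y ∈ iv n M3, om sh k i y * b i
              = 8 * ((i + 1 - k : ℕ) : ℝ) ^ 2 * b i * ∑ y ∈ iv n M3, stg sh k i y := by
                rw [mul_sum]
                refine sum_congr rfl fun y _ => ?_
                rw [om_stg hki]
                ring
            _ ≤ 8 * ((i + 1 - k : ℕ) : ℝ) ^ 2 * b i * (2 * 2 ^ (n - i) * 2 ^ k) :=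
                mul_le_mul_of_nonneg_left h1 (mul_nonneg (by positivity) (hb i))
            _ = _ := by
                have e2 : i + 1 - k = i - k + 1 := by omega
                have e3 : (2 : ℝ) ^ n = 2 ^ (n - i) * 2 ^ k * 2 ^ (i - k) := by
                  rw [← pow_add, ← pow_add]
                  congr 1
                  omega
                rw [e2, e3]
                push_cast
                field_simp
                ring
        · simp only [if_neg h, sum_const_zero, le_refl]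
    _ = ∑ k ∈ (range (n + 1)).filter (fun k => k + L ≤ i),
          16 * 2 ^ n * b i * ((((i - k : ℕ) : ℝ) + 1) ^ 2 / 2 ^ (i - k)) := (sum_filter _ _).symm
    _ ≤ ∑ m ∈ Ico L (i + 1), 16 * 2 ^ n * b i * (((m : ℝ) + 1) ^ 2 / 2 ^ m) := by
        rw [← sum_image (s := (range (n + 1)).filter (fun k => k + L ≤ i))
          (g := fun k : ℕ => i - k)
          (f := fun m : ℕ => 16 * 2 ^ n * b i * ((((m : ℕ) : ℝ) + 1) ^ 2 / 2 ^ m))]
        · refine sum_le_sum_of_subset_of_nonneg ?_ fun m _ _ =>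
            mul_nonneg (mul_nonneg (by positivity) (hb i)) (by positivity)
          intro m hm
          rw [mem_image] at hm
          obtain ⟨k, hk, rfl⟩ := hm
          rw [mem_filter, mem_range] at hk
          rw [mem_Ico]
          omega
        · intro x hx z hz hxz
          simp only [coe_filter, mem_range, Set.mem_ofPred_eq] at hx hz
          simp only at hxz
          omega
    _ ≤ 16 * 2 ^ n * b i * (2 * (((L : ℝ) + 2) ^ 2 + 2) / 2 ^ L) := by
        rw [← mul_sum]
        exact mul_le_mul_of_nonneg_left (ser2_Ico L (i + 1)) (mul_nonneg (by positivity) (hb i))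
    _ ≤ 128 * 2 ^ n * (((L : ℝ) + 2) ^ 2 + 2) / 2 ^ L * b i := by
        have h0 : 0 ≤ 2 ^ n * (((L : ℝ) + 2) ^ 2 + 2) / 2 ^ L * b i :=
          mul_nonneg (by positivity) (hb i)
        have e4 : 16 * 2 ^ n * b i * (2 * (((L : ℝ) + 2) ^ 2 + 2) / 2 ^ L) =
            32 * (2 ^ n * (((L : ℝ) + 2) ^ 2 + 2) / 2 ^ L * b i) := by ring
        have e5 : 128 * 2 ^ n * (((L : ℝ) + 2) ^ 2 + 2) / 2 ^ L * b i =
            128 * (2 ^ n * (((L : ℝ) + 2) ^ 2 + 2) / 2 ^ L * b i) := by ring
        rw [e4, e5]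
        linarith

end

end Vale.Agent.P141.H690
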