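import Vale.Agent.P141.H690.Tie6

/-!
# P141, line (A): the frozen path, sixth power

`Frz κ n X R`: along the dyadic tree `R (child) = R ± X` while `tr R⁶ ≤ κ⁶`, frozen afterwards;
`X` any symmetric family (signs, thresholds and ties inside `X`).

* `Frz.dead_le` : the mean of the dead leaves is at most `280000 κ₀² tr Q / κ⁶`, `Qs X ≤ κ₀`;
* `Frz.dead_tie` : for the flow matrices at fixed `x₁, x₃`, real ties: `≤ 3780000 g / (l κ⁶)`;
* `Frz.op_le` : `|R v| ≤ (κ + 1) |v|` at every cell if `|X v| ≤ |v|`;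
* `exists_frz`.
-/

namespace Vale.Agent.P141.H690

open Matrix Finset

set_option linter.unusedSectionVars false

variable {ι : Type*} [Fintype ι] [DecidableEq ι]

/-- `tr R⁶` -/
noncomputable def tr6 (R : Matrix ι ι ℝ) : ℝ := (R * (R * (R * (R * (R * R))))).trace

theorem tr6_zero : tr6 (0 : Matrix ι ι ℝ) = 0 := by simp [tr6]

/-- The frozen path. -/
structure Frz (κ : ℝ) (n : ℕ) (X R : ℕ → ℤ → Matrix ι ι ℝ) : Prop where
  symm : ∀ k m, (R k m)ᵀ = R k m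
  live : ∀ k < n, ∀ m, tr6 (R (k + 1) m) ≤ κ ^ 6 →
    R k (2 * m) = R (k + 1) m + X (k + 1) m ∧ R k (2 * m + 1) = R (k + 1) m - X (k + 1) m
  dead : ∀ k < n, ∀ m, κ ^ 6 < tr6 (R (k + 1) m) →
    R k (2 * m) = R (k + 1) m ∧ R k (2 * m + 1) = R (k + 1) m

namespace Frz

variable {κ : ℝ} {n : ℕ} {X R : ℕ → ℤ → Matrix ι ι ℝ}

open Classical in
/-- indicator of the dead cells -/
noncomputable def dd (κ : ℝ) (R : ℕ → ℤ → Matrix ι ι ℝ) (k : ℕ) (m : ℤ) : ℝ :=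
  if κ ^ 6 < tr6 (R k m) then 1 else 0

theorem dd_nonneg (κ : ℝ) (R : ℕ → ℤ → Matrix ι ι ℝ) (k : ℕ) (m : ℤ) : 0 ≤ dd κ R k m := by
  rw [dd]; split_ifs <;> norm_num

theorem dd_le_one (κ : ℝ) (R : ℕ → ℤ → Matrix ι ι ℝ) (k : ℕ) (m : ℤ) : dd κ R k m ≤ 1 := by
  rw [dd]; split_ifs <;> norm_num

/-- dead cells have dead children. -/
theorem dd_child (h : Frz κ n X R) {k : ℕ} (hk : k < n) (m : ℤ)
    (hd : κ ^ 6 < tr6 (R (k + 1) m)) :
    κ ^ 6 < tr6 (R k (2 * m)) ∧ κ ^ 6 < tr6 (R k (2 * m + 1)) := by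
  obtain ⟨h1, h2⟩ := h.dead k hk m hd
  rw [h1, h2]
  exact ⟨hd, hd⟩

/-- the mean of the dead leaves is at most the stopping probability. -/
theorem dead_le_Pst (h : Frz κ n X R) (k : ℕ) : k ≤ n → ∀ m,
    H483.tmean (fun i => dd κ R 0 i) k m ≤ Pst6 X (κ ^ 6) k m (R k m) := by
  have one : ∀ k m, H483.tmean (fun i => dd κ R 0 i) k m ≤ 1 := fun k m => by
    have := H483.tmean_mono (f := fun i => dd κ R 0 i) (g := fun _ => (1 : ℝ))
      (fun i => dd_le_one κ R 0 i) k m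
    rwa [H483.tmean_const] at this
  induction k with
  | zero =>
    intro _ m
    rw [Pst6]
    split_ifs with hs
    · exact one 0 m
    · have h1 : ¬ κ ^ 6 < tr6 (R 0 m) := fun h2 => hs h2.le
      simp only [H483.tmean, dd, if_neg h1, le_refl]
  | succ k ih =>
    intro hk m
    rw [Pst6]
    split_ifs with hs
    · exact one _ m
    · have h1 : tr6 (R (k + 1) m) ≤ κ ^ 6 := (not_le.1 hs).le
      obtain ⟨h2, h3⟩ := h.live k (by omega) m h1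
      have i1 := ih (by omega) (2 * m)
      have i2 := ih (by omega) (2 * m + 1)
      rw [h2] at i1
      rw [h3] at i2
      rw [H483.tmean]
      linarith

/-- **The dead leaves.** -/
theorem dead_le (h : Frz κ n X R) (hκ : 0 < κ) {κ₀ : ℝ} (hκ₀ : 0 < κ₀)
    (hX : ∀ k m, (X k m)ᵀ = X k m)
    (hQ : ∀ k m, (κ₀ • (1 : Matrix ι ι ℝ) - Qs X k m).PosSemidef) {k : ℕ} (hk : k ≤ n)
    (m : ℤ) (h0 : R k m = 0) :
    H483.tmean (fun i => dd κ R 0 i) k m ≤ 280000 * κ₀ ^ 2 * (Qs X k m).trace / κ ^ 6 := by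
  have h1 := h.dead_le_Pst k hk m
  rw [h0] at h1
  exact h1.trans (prob_stop6 hκ₀ (by positivity) hX hQ k m)

/-- **The dead leaves, flow matrices, real ties.** -/
theorem dead_tie {l : ℝ} {G K : ℕ → ℤ → Matrix ι ι ℝ} {th : ℕ → ℤ → ℝ} {c x1 x3 : ℤ}
    (hG : H420.Tr l n G K) (hth : ∀ j i, |th j i| ≤ 1) (hc : -3 ≤ c) (hc' : c ≤ -1)
    (h : Frz κ n (fun j i => th j i • MX l K j (c - i - x1 / 2 ^ j - x3 / 2 ^ j)) R)
    (hκ : 0 < κ) {k : ℕ} (hk : k ≤ n) {g : ℝ} (hg : ∀ m, (G k m).trace ≤ g) (m : ℤ)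
    (h0 : R k m = 0) :
    H483.tmean (fun i => dd κ R 0 i) k m ≤ 3780000 * g / (l * κ ^ 6) := by
  have h1 := h.dead_le_Pst k hk m
  rw [h0] at h1
  exact h1.trans (flow_stop6 hG hth hc hc' hk hg (by positivity) m)

/-- from `tr R⁶ ≤ κ⁶` to the operator norm. -/
theorem op_live (h : Frz κ n X R) {k : ℕ} {m : ℤ} (hl : tr6 (R k m) ≤ κ ^ 6)
    (v : ι → ℝ) : (R k m *ᵥ v) ⬝ᵥ (R k m *ᵥ v) ≤ κ ^ 2 * (v ⬝ᵥ v) := by
  have h1 := op_of_tr6 (h.symm k m) v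
  have v0 : 0 ≤ v ⬝ᵥ v := H186.dot_self_nonneg v
  have w0 : 0 ≤ (R k m *ᵥ v) ⬝ᵥ (R k m *ᵥ v) := H186.dot_self_nonneg _
  have h2 : ((R k m *ᵥ v) ⬝ᵥ (R k m *ᵥ v)) ^ 3 ≤ (κ ^ 2 * (v ⬝ᵥ v)) ^ 3 := by
    refine h1.trans ?_
    have := mul_le_mul_of_nonneg_right hl (pow_nonneg v0 3)
    rw [tr6] at this
    refine this.trans (le_of_eq (by ring))
  exact le_of_pow_le_pow_left₀ (by norm_num) (by positivity) h2

/-- **The cap at every cell.** -/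
theorem op_le (h : Frz κ n X R) (hκ : 0 ≤ κ)
    (hX1 : ∀ k m v, (X k m *ᵥ v) ⬝ᵥ (X k m *ᵥ v) ≤ v ⬝ᵥ v)
    (htop : ∀ m, tr6 (R n m) ≤ κ ^ 6) (v : ι → ℝ) : ∀ d ≤ n, ∀ m,
    (R (n - d) m *ᵥ v) ⬝ᵥ (R (n - d) m *ᵥ v) ≤ (κ + 1) ^ 2 * (v ⬝ᵥ v) := by
  have v0 : 0 ≤ v ⬝ᵥ v := H186.dot_self_nonneg v
  have mono : κ ^ 2 * (v ⬝ᵥ v) ≤ (κ + 1) ^ 2 * (v ⬝ᵥ v) :=
    mul_le_mul_of_nonneg_right (by nlinarith) v0
  -- `|a + b|² ≤ (κ + 1)² |v|²` if `|a|² ≤ κ² |v|²`, `|b|² ≤ |v|²`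
  have tri : ∀ a b : ι → ℝ, a ⬝ᵥ a ≤ κ ^ 2 * (v ⬝ᵥ v) → b ⬝ᵥ b ≤ v ⬝ᵥ v →
      (a + b) ⬝ᵥ (a + b) ≤ (κ + 1) ^ 2 * (v ⬝ᵥ v) := by
    intro a b ha hb
    have hcs := H186.dot_sq_le a b
    have a0 : 0 ≤ a ⬝ᵥ a := H186.dot_self_nonneg a
    have b0 : 0 ≤ b ⬝ᵥ b := H186.dot_self_nonneg b
    have e : (a + b) ⬝ᵥ (a + b) = a ⬝ᵥ a + 2 * (a ⬝ᵥ b) + b ⬝ᵥ b := by
      simp only [dotProduct_add, add_dotProduct]
      rw [dotProduct_comm b a]
      ring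
    have h1 : (a ⬝ᵥ b) ^ 2 ≤ (κ * (v ⬝ᵥ v)) ^ 2 := by
      refine hcs.trans ?_
      calc (a ⬝ᵥ a) * (b ⬝ᵥ b) ≤ (κ ^ 2 * (v ⬝ᵥ v)) * (v ⬝ᵥ v) :=
            mul_le_mul ha hb b0 (by positivity)
        _ = _ := by ring
    have h2 : a ⬝ᵥ b ≤ κ * (v ⬝ᵥ v) := by
      have := abs_le_of_sq_le_sq' h1 (by positivity)
      exact this.2
    rw [e]
    nlinarith
  intro d
  induction d with
  | zero =>
    intro _ m
    rw [Nat.sub_zero]
    exact (h.op_live (htop m) v).trans mono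
  | succ d ih =>
    intro hd m
    have hk : n - (d + 1) < n := by omega
    have e1 : n - d = (n - (d + 1)) + 1 := by omega
    set k := n - (d + 1) with hkk
    have ih' := ih (by omega)
    rw [e1] at ih'
    rcases Int.even_or_odd' m with ⟨i, rfl | rfl⟩
    · rcases le_or_gt (tr6 (R (k + 1) i)) (κ ^ 6) with hl | hl
      · rw [(h.live k hk i hl).1, add_mulVec]
        exact tri _ _ (h.op_live hl v) (hX1 _ _ v)
      · rw [(h.dead k hk i hl).1]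
        exact ih' i
    · rcases le_or_gt (tr6 (R (k + 1) i)) (κ ^ 6) with hl | hl
      · rw [(h.live k hk i hl).2, sub_mulVec, sub_eq_add_neg]
        refine tri _ _ (h.op_live hl v) ?_
        have : (-(X (k + 1) i *ᵥ v)) ⬝ᵥ (-(X (k + 1) i *ᵥ v)) =
            (X (k + 1) i *ᵥ v) ⬝ᵥ (X (k + 1) i *ᵥ v) := by
          rw [neg_dotProduct, dotProduct_neg, neg_neg]
        rw [this]
        exact hX1 _ _ v
      · rw [(h.dead k hk i hl).2]
        exact ih' i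

end Frz

/-! ### existence -/

open Classical in
/-- the frozen path, `d` steps below the top scale `n`. -/
noncomputable def fp (κ : ℝ) (n : ℕ) (X : ℕ → ℤ → Matrix ι ι ℝ) : ℕ → ℤ → Matrix ι ι ℝ
  | 0, _ => 0
  | d + 1, i =>
    if tr6 (fp κ n X d (i / 2)) ≤ κ ^ 6 then
      (if i % 2 = 0 then fp κ n X d (i / 2) + X (n - d) (i / 2)
        else fp κ n X d (i / 2) - X (n - d) (i / 2))
    else fp κ n X d (i / 2)

theorem fp_symm {κ : ℝ} {n : ℕ} {X : ℕ → ℤ → Matrix ι ι ℝ} (hX : ∀ k m, (X k m)ᵀ = X k m)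
    (d : ℕ) : ∀ m, (fp κ n X d m)ᵀ = fp κ n X d m := by
  induction d with
  | zero => intro m; exact transpose_zero
  | succ d ih =>
    intro m
    rw [fp]
    split_ifs
    · rw [transpose_add, ih, hX]
    · rw [transpose_sub, ih, hX]
    · rw [ih]

/-- **Existence of the frozen path**, started at `0` at the scale `n`. -/
theorem exists_frz (κ : ℝ) (n : ℕ) {X : ℕ → ℤ → Matrix ι ι ℝ} (hX : ∀ k m, (X k m)ᵀ = X k m) :
    ∃ R, Frz κ n X R ∧ ∀ m, R n m = 0 := by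
  refine ⟨fun k m => fp κ n X (n - k) m, ⟨fun k m => fp_symm hX _ m, ?_, ?_⟩, fun m => ?_⟩
  · intro k hk m hl
    have e : n - k = (n - (k + 1)) + 1 := by omega
    have e2 : n - (n - (k + 1)) = k + 1 := by omega
    have d1 : (2 * m) / 2 = m := by omega
    have d2 : (2 * m + 1) / 2 = m := by omega
    have d3 : (2 * m) % 2 = 0 := by omega
    have d4 : ¬ (2 * m + 1) % 2 = 0 := by omega
    simp only [e, fp, d1, d2, d3, if_true, if_neg d4, e2, if_pos hl, and_self]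
  · intro k hk m hl
    have e : n - k = (n - (k + 1)) + 1 := by omega
    have d1 : (2 * m) / 2 = m := by omega
    have d2 : (2 * m + 1) / 2 = m := by omega
    simp only [e, fp, d1, d2, if_neg (not_le.2 hl), and_self]
  · simp only [Nat.sub_self, fp]

end Vale.Agent.P141.H690
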