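import Mathlib

/-!
# P141, line (A): the blind and the signed bound of a number together

* `mix_le` : `N ≤ a ^ (1 - lam) * b ^ lam`;
* `mix_num` : the price of a slot number from the two bounds;
* `log_absE` : powers of the logarithms.
-/

namespace Vale.Agent.P141.H690

open Real

/-- a number below `a` and below `b` -/
theorem mix_le {N a b lam : ℝ} (hN : 0 ≤ N) (ha : N ≤ a) (hb : N ≤ b) (h0 : 0 ≤ lam)
    (h1 : lam ≤ 1) : N ≤ a ^ (1 - lam) * b ^ lam := by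
  rcases hN.eq_or_lt with h | h
  · rw [← h]
    exact mul_nonneg (rpow_nonneg (hN.trans ha) _) (rpow_nonneg (hN.trans hb) _)
  · calc N = N ^ (1 - lam) * N ^ lam := by
          rw [← rpow_add h, sub_add_cancel, rpow_one]
      _ ≤ a ^ (1 - lam) * b ^ lam :=
          mul_le_mul (rpow_le_rpow hN ha (by linarith)) (rpow_le_rpow hN hb h0)
            (rpow_nonneg hN _) (rpow_nonneg (hN.trans ha) _)

/-- **The price of a slot number from the blind and the signed bound.** -/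
theorem mix_num {N M A B y t c e0 C E γ lam : ℝ} (hN : 0 ≤ N) (hM : 0 ≤ M) (hA : 0 ≤ A)
    (hB : 0 ≤ B) (hy : 0 < y) (hy1 : y ≤ 1) (ht : 0 < t) (ht1 : t ≤ 1) (hc : 0 ≤ c)
    (hE : 0 ≤ E) (hl0 : 0 ≤ lam) (hl1 : lam ≤ 1) (hlam : lam * (e0 + C) ≤ e0 / 2)
    (h1 : N ≤ M * (A * (t ^ (-c) * y ^ e0))) (h2 : N ≤ M * (B * (y ^ (-C) * E ^ γ))) :
    N ≤ M * (A ^ (1 - lam) * B ^ lam) * (t ^ (-c) * (y ^ (e0 / 2) * E ^ (γ * lam))) := by
  have h := mix_le hN h1 h2 hl0 hl1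
  refine h.trans ?_
  have l1 : 0 ≤ 1 - lam := by linarith
  have yc : 0 ≤ y ^ (-C) := rpow_nonneg hy.le _
  have ye : 0 ≤ y ^ e0 := rpow_nonneg hy.le _
  have tc : 0 ≤ t ^ (-c) := rpow_nonneg ht.le _
  have Eg : 0 ≤ E ^ γ := rpow_nonneg hE _
  rw [mul_rpow hM (mul_nonneg hA (mul_nonneg tc ye)), mul_rpow hA (mul_nonneg tc ye),
    mul_rpow tc ye, mul_rpow hM (mul_nonneg hB (mul_nonneg yc Eg)),
    mul_rpow hB (mul_nonneg yc Eg), mul_rpow yc Eg]
  have eM : M ^ (1 - lam) * M ^ lam = M := by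
    rcases hM.eq_or_lt with h0 | h0
    · rw [← h0]
      rcases hl0.eq_or_lt with h3 | h3
      · rw [← h3, sub_zero, rpow_one, zero_mul]
      · rw [zero_rpow h3.ne', mul_zero]
    · rw [← rpow_add h0, sub_add_cancel, rpow_one]
  have eE : (E ^ γ) ^ lam = E ^ (γ * lam) := (rpow_mul hE γ lam).symm
  have et : (t ^ (-c)) ^ (1 - lam) ≤ t ^ (-c) := by
    rw [← rpow_mul ht.le]
    refine rpow_le_rpow_of_exponent_ge ht ht1 ?_
    nlinarith
  have ey : (y ^ e0) ^ (1 - lam) * (y ^ (-C)) ^ lam ≤ y ^ (e0 / 2) := by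
    rw [← rpow_mul hy.le, ← rpow_mul hy.le, ← rpow_add hy]
    refine rpow_le_rpow_of_exponent_ge hy hy1 ?_
    linarith
  rw [eE]
  have a0 : 0 ≤ A ^ (1 - lam) := rpow_nonneg hA _
  have b0 : 0 ≤ B ^ lam := rpow_nonneg hB _
  have g0 : 0 ≤ E ^ (γ * lam) := rpow_nonneg hE _
  have y0 : 0 ≤ (y ^ e0) ^ (1 - lam) * (y ^ (-C)) ^ lam :=
    mul_nonneg (rpow_nonneg ye _) (rpow_nonneg yc _)
  calc M ^ (1 - lam) * (A ^ (1 - lam) * ((t ^ (-c)) ^ (1 - lam) * (y ^ e0) ^ (1 - lam))) *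
        (M ^ lam * (B ^ lam * ((y ^ (-C)) ^ lam * E ^ (γ * lam))))
      = (M ^ (1 - lam) * M ^ lam) * (A ^ (1 - lam) * B ^ lam) * ((t ^ (-c)) ^ (1 - lam) *
          (((y ^ e0) ^ (1 - lam) * (y ^ (-C)) ^ lam) * E ^ (γ * lam))) := by ring
    _ = M * (A ^ (1 - lam) * B ^ lam) * ((t ^ (-c)) ^ (1 - lam) *
          (((y ^ e0) ^ (1 - lam) * (y ^ (-C)) ^ lam) * E ^ (γ * lam))) := by rw [eM]
    _ ≤ M * (A ^ (1 - lam) * B ^ lam) * (t ^ (-c) * (y ^ (e0 / 2) * E ^ (γ * lam))) := by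
        refine mul_le_mul_of_nonneg_left ?_ (mul_nonneg hM (mul_nonneg a0 b0))
        exact mul_le_mul et (mul_le_mul_of_nonneg_right ey g0) (mul_nonneg y0 g0) tc

/-- powers of a logarithm -/
theorem log_pow_le (m : ℕ) {δ : ℝ} (hδ : 0 < δ) : ∃ C : ℝ, 0 ≤ C ∧ ∀ x : ℝ, 1 ≤ x →
    (1 + log x) ^ m ≤ C * x ^ δ := by
  rcases Nat.eq_zero_or_pos m with hm | hm
  · refine ⟨1, zero_le_one, fun x hx => ?_⟩
    rw [hm, pow_zero, one_mul]
    exact one_le_rpow hx hδ.le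
  · have hm' : (0 : ℝ) < m := by exact_mod_cast hm
    set a : ℝ := δ / m with ha
    have ha0 : 0 < a := div_pos hδ hm'
    refine ⟨(1 + 1 / a) ^ m, by positivity, fun x hx => ?_⟩
    have hx0 : 0 < x := by linarith
    have h1 : log x ≤ x ^ a / a := log_le_rpow_div hx0.le ha0
    have h2 : 1 ≤ x ^ a := one_le_rpow hx ha0.le
    have h3 : 1 + log x ≤ (1 + 1 / a) * x ^ a := by
      rw [add_mul, one_mul, one_div, ← div_eq_inv_mul]
      linarith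
    have h0 : 0 ≤ 1 + log x := by
      have := log_nonneg hx
      linarith
    calc (1 + log x) ^ m ≤ ((1 + 1 / a) * x ^ a) ^ m := pow_le_pow_left₀ h0 h3 m
      _ = (1 + 1 / a) ^ m * x ^ δ := by
        rw [mul_pow, ← rpow_natCast (x ^ a) m, ← rpow_mul hx0.le, ha, div_mul_cancel₀ _ hm'.ne']

/-- **Powers of the logarithms of a generation.** -/
theorem log_absE (m : ℕ) {δ E1 : ℝ} (hδ : 0 < δ) (hE1 : 0 ≤ E1) : ∃ C : ℝ, 0 ≤ C ∧
    ∀ y E : ℝ, 0 < y → y ≤ 1 → 0 < E → E ≤ E1 →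
      (1 + log (1 / y) + log (1 + 1 / E)) ^ m ≤ C * (y ^ (-δ) * E ^ (-δ)) := by
  obtain ⟨C, hC, h⟩ := log_pow_le m hδ
  refine ⟨C * (1 + E1) ^ δ, mul_nonneg hC (rpow_nonneg (by linarith) _), ?_⟩
  intro y E hy hy1 hE hEE
  have hx1 : 1 ≤ 1 / y := by rw [le_div_iff₀ hy]; linarith
  have hx2 : 1 ≤ 1 + 1 / E := by
    have : 0 < 1 / E := by positivity
    linarith
  have hx : 1 ≤ 1 / y * (1 + 1 / E) := one_le_mul_of_one_le_of_one_le hx1 hx2
  have h1 := h _ hx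
  rw [log_mul (by positivity) (by positivity), ← add_assoc] at h1
  refine h1.trans ?_
  have e1 : 1 / y * (1 + 1 / E) ≤ (1 + E1) * (y⁻¹ * E⁻¹) := by
    have : 1 + 1 / E ≤ (1 + E1) * E⁻¹ := by
      rw [one_div, add_mul, one_mul]
      have : 1 ≤ E1 * E⁻¹ := by
        rw [← div_eq_mul_inv, le_div_iff₀ hE]
        linarith
      linarith
    calc 1 / y * (1 + 1 / E) ≤ 1 / y * ((1 + E1) * E⁻¹) :=
          mul_le_mul_of_nonneg_left this (by positivity)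
      _ = _ := by rw [one_div]; ring
  have e2 : (1 / y * (1 + 1 / E)) ^ δ ≤ (1 + E1) ^ δ * (y ^ (-δ) * E ^ (-δ)) := by
    refine (rpow_le_rpow (by positivity) e1 hδ.le).trans (le_of_eq ?_)
    rw [mul_rpow (by linarith) (by positivity), mul_rpow (by positivity) (by positivity),
      inv_rpow hy.le, inv_rpow hE.le, rpow_neg hy.le, rpow_neg hE.le]
  calc C * (1 / y * (1 + 1 / E)) ^ δ ≤ C * ((1 + E1) ^ δ * (y ^ (-δ) * E ^ (-δ))) :=
        mul_le_mul_of_nonneg_left e2 hC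
    _ = _ := by ring

end Vale.Agent.P141.H690
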