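import Vale.Agent.P141.H420.FlowM

/-!
# P141, line (A): the fourth moment of a matrix martingale with bounded square function

`R` is a sum of `± X` along the branches of a dyadic tree, `X` symmetric, `Q` the conditional
square function, `Q (k + 1) m = X ^ 2 + mean of the two children`.

* `psi_step` : the function `Ψ R Q = tr R⁴ + 12 tr R²Q - 24 tr Q² + 60 κ tr Q` decreases in the mean
  at every node with `Q ≤ κ`;
* `mom4` : `E tr R⁴ ≤ Ψ`, so `≤ 60 κ tr Q` when one starts at `R = 0`;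
* `prob_stop` : the probability that `tr R⁴` reaches the level `M` is at most `60 κ tr Q / M`.
-/

namespace Vale.Agent.P141.H690

open Matrix Finset

variable {ι : Type*} [Fintype ι]

/-- squared Hilbert–Schmidt norm is nonnegative, in the form used below. -/
theorem tr_sq_nonneg (A : Matrix ι ι ℝ) : 0 ≤ (Aᵀ * A).trace := by
  rw [trace]
  refine Finset.sum_nonneg fun i _ => ?_
  simp only [diag_apply, mul_apply, transpose_apply]
  exact Finset.sum_nonneg fun j _ => mul_self_nonneg _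

/-- The Bellman function. -/
def Psi (κ : ℝ) (R Q : Matrix ι ι ℝ) : ℝ :=
  (R * R * (R * R)).trace + 12 * (R * R * Q).trace - 24 * (Q * Q).trace + 60 * κ * Q.trace

section cyc

variable (R X : Matrix ι ι ℝ)

theorem c1 : (R * X * (X * R)).trace = (R * R * (X * X)).trace := by
  rw [trace_mul_comm, Matrix.mul_assoc, ← Matrix.mul_assoc R, trace_mul_comm,
    Matrix.mul_assoc, Matrix.mul_assoc]

theorem c2 : (X * R * (R * X)).trace = (R * R * (X * X)).trace := by
  rw [Matrix.mul_assoc, trace_mul_comm, Matrix.mul_assoc, Matrix.mul_assoc, Matrix.mul_assoc]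

theorem c4 : (X * R * (X * R)).trace = (R * X * (R * X)).trace := by
  rw [Matrix.mul_assoc, trace_mul_comm, Matrix.mul_assoc, Matrix.mul_assoc, Matrix.mul_assoc]

/-- `tr (R + X)⁴ + tr (R - X)⁴` for symmetric matrices. -/
theorem quartic :
    ((R + X) * (R + X) * ((R + X) * (R + X))).trace +
      ((R - X) * (R - X) * ((R - X) * (R - X))).trace =
    2 * (R * R * (R * R)).trace + 8 * (R * R * (X * X)).trace + 4 * (R * X * (R * X)).trace
      + 2 * (X * X * (X * X)).trace := by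
  have c3 : (X * X * (R * R)).trace = (R * R * (X * X)).trace := trace_mul_comm _ _
  have e : (R + X) * (R + X) * ((R + X) * (R + X)) + (R - X) * (R - X) * ((R - X) * (R - X)) =
      (2 : ℝ) • (R * R * (R * R)) + (2 : ℝ) • (R * R * (X * X)) + (2 : ℝ) • (X * X * (R * R)) +
      (2 : ℝ) • (R * X * (R * X)) + (2 : ℝ) • (X * R * (X * R)) + (2 : ℝ) • (R * X * (X * R)) +
      (2 : ℝ) • (X * R * (R * X)) + (2 : ℝ) • (X * X * (X * X)) := by
    simp only [two_smul]
    noncomm_ring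
  rw [← trace_add, e]
  simp only [trace_add, trace_smul, smul_eq_mul, c1, c2, c3, c4]
  ring

variable (P D : Matrix ι ι ℝ)

theorem cross : ((R + X) * (R + X) * (P + D)).trace + ((R - X) * (R - X) * (P - D)).trace =
    2 * (R * R * P).trace + 2 * (X * X * P).trace + 2 * (R * X * D).trace
      + 2 * (X * R * D).trace := by
  have e : (R + X) * (R + X) * (P + D) + (R - X) * (R - X) * (P - D) =
      (2 : ℝ) • (R * R * P) + (2 : ℝ) • (X * X * P) + (2 : ℝ) • (R * X * D) +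
      (2 : ℝ) • (X * R * D) := by
    simp only [two_smul]
    noncomm_ring
  rw [← trace_add, e]
  simp only [trace_add, trace_smul, smul_eq_mul]

theorem squares : ((P + D) * (P + D)).trace + ((P - D) * (P - D)).trace =
    2 * (P * P).trace + 2 * (D * D).trace := by
  have e : (P + D) * (P + D) + (P - D) * (P - D) =
      (2 : ℝ) • (P * P) + (2 : ℝ) • (D * D) := by
    simp only [two_smul]
    noncomm_ring
  rw [← trace_add, e]
  simp only [trace_add, trace_smul, smul_eq_mul]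

end cyc

/-- **One node.** -/
theorem psi_step [DecidableEq ι] {κ : ℝ} {R X P D : Matrix ι ι ℝ} (hR : Rᵀ = R) (hX : Xᵀ = X)
    (hD : Dᵀ = D) (hQ : (κ • (1 : Matrix ι ι ℝ) - (X * X + P)).PosSemidef) :
    (Psi κ (R + X) (P + D) + Psi κ (R - X) (P - D)) / 2 ≤ Psi κ R (X * X + P) := by
  have hXX : (X * X).PosSemidef := by
    have := posSemidef_conjTranspose_mul_self X
    rwa [conjTranspose_eq_transpose_of_trivial, hX] at this
  have h1 : 0 ≤ ((X * X) * (κ • (1 : Matrix ι ι ℝ) - (X * X + P))).trace :=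
    H420.trace_mul_nonneg hXX hQ
  have h2 := tr_sq_nonneg (X * R - (2 : ℝ) • D)
  have h3 := tr_sq_nonneg (R * X - X * R)
  have h4 := tr_sq_nonneg (X * X)
  have e1 : ((X * X) * (κ • (1 : Matrix ι ι ℝ) - (X * X + P))).trace =
      κ * (X * X).trace - (X * X * (X * X)).trace - (X * X * P).trace := by
    simp only [Matrix.mul_sub, Matrix.mul_add, Matrix.mul_smul, Matrix.mul_one, trace_sub,
      trace_add, trace_smul, smul_eq_mul]
    ring
  have e2 : ((X * R - (2 : ℝ) • D)ᵀ * (X * R - (2 : ℝ) • D)).trace =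
      (R * R * (X * X)).trace - 2 * (R * X * D).trace - 2 * (X * R * D).trace
        + 4 * (D * D).trace := by
    have hc : (D * (X * R)).trace = (X * R * D).trace := trace_mul_comm _ _
    simp only [transpose_sub, transpose_mul, transpose_smul, hR, hX, hD, Matrix.sub_mul,
      Matrix.mul_sub, Matrix.mul_smul, Matrix.smul_mul, trace_sub, trace_smul, smul_eq_mul, c1,
      hc]
    ring
  have e3 : ((R * X - X * R)ᵀ * (R * X - X * R)).trace =
      2 * (R * R * (X * X)).trace - 2 * (R * X * (R * X)).trace := by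
    simp only [transpose_sub, transpose_mul, hR, hX, Matrix.sub_mul, Matrix.mul_sub, trace_sub,
      c1, c2, c4]
    ring
  have e4 : ((X * X)ᵀ * (X * X)).trace = (X * X * (X * X)).trace := by
    rw [transpose_mul, hX]
  have e5 := quartic R X
  have e6 := cross R X P D
  have e7 := squares P D
  have e8 : (R * R * (X * X + P)).trace = (R * R * (X * X)).trace + (R * R * P).trace := by
    rw [Matrix.mul_add, trace_add]
  have e9 : ((X * X + P) * (X * X + P)).trace = (X * X * (X * X)).trace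
      + 2 * (X * X * P).trace + (P * P).trace := by
    have hc : (P * (X * X)).trace = (X * X * P).trace := trace_mul_comm _ _
    simp only [Matrix.mul_add, Matrix.add_mul, trace_add, hc]
    ring
  rw [e1] at h1
  rw [e2] at h2
  rw [e3] at h3
  rw [e4] at h4
  simp only [Psi, e8, e9, trace_add, trace_sub]
  nlinarith [h1, h2, h3, h4, e5, e6, e7]

/-- `Ψ` dominates `tr R⁴`. -/
theorem psi_ge [DecidableEq ι] {κ : ℝ} {R Q : Matrix ι ι ℝ} (hR : Rᵀ = R) (hQ0 : Q.PosSemidef)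
    (hQ : (κ • (1 : Matrix ι ι ℝ) - Q).PosSemidef) : (R * R * (R * R)).trace ≤ Psi κ R Q := by
  have hRR : (R * R).PosSemidef := by
    have := posSemidef_conjTranspose_mul_self R
    rwa [conjTranspose_eq_transpose_of_trivial, hR] at this
  have h1 : 0 ≤ (R * R * Q).trace := H420.trace_mul_nonneg hRR hQ0
  have h2 : 0 ≤ (Q * (κ • (1 : Matrix ι ι ℝ) - Q)).trace := H420.trace_mul_nonneg hQ0 hQ
  have h3 : 0 ≤ (Q * Q).trace := H420.trace_mul_nonneg hQ0 hQ0
  have e : (Q * (κ • (1 : Matrix ι ι ℝ) - Q)).trace = κ * Q.trace - (Q * Q).trace := by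
    simp only [Matrix.mul_sub, Matrix.mul_smul, Matrix.mul_one, trace_sub, trace_smul,
      smul_eq_mul]
  rw [e] at h2
  rw [Psi]
  linarith

/-- operator norm from the fourth trace: `|R v|⁴ ≤ tr R⁴ |v|⁴`. -/
theorem op_of_tr4 {R : Matrix ι ι ℝ} (hR : Rᵀ = R) (v : ι → ℝ) :
    ((R *ᵥ v) ⬝ᵥ (R *ᵥ v)) ^ 2 ≤ (R * R * (R * R)).trace * (v ⬝ᵥ v) ^ 2 := by
  have cs : ∀ a b : ι → ℝ, (a ⬝ᵥ b) ^ 2 ≤ (a ⬝ᵥ a) * (b ⬝ᵥ b) := by
    intro a b
    have := Finset.sum_mul_sq_le_sq_mul_sq univ a b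
    simpa [dotProduct, sq] using this
  have vv : 0 ≤ v ⬝ᵥ v := by
    simp only [dotProduct]
    exact Finset.sum_nonneg fun i _ => mul_self_nonneg _
  have h1 : (R *ᵥ v) ⬝ᵥ (R *ᵥ v) = v ⬝ᵥ ((R * R) *ᵥ v) := by
    rw [← mulVec_mulVec, dotProduct_mulVec v, ← mulVec_transpose, hR]
  have hs : (R * R)ᵀ = R * R := by rw [transpose_mul, hR]
  -- `|S v|² ≤ tr (Sᵀ S) |v|²`
  have h2 : ((R * R) *ᵥ v) ⬝ᵥ ((R * R) *ᵥ v) ≤ (R * R * (R * R)).trace * (v ⬝ᵥ v) := by
    have h3 : (R * R * (R * R)).trace = ∑ i, ((fun j => (R * R) i j) ⬝ᵥ fun j => (R * R) i j) := by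
      rw [trace]
      refine Finset.sum_congr rfl fun i _ => ?_
      rw [diag_apply, mul_apply, dotProduct]
      refine Finset.sum_congr rfl fun j _ => ?_
      rw [show (R * R) j i = (R * R)ᵀ i j from rfl, hs]
    rw [h3, Finset.sum_mul]
    have h4 : ((R * R) *ᵥ v) ⬝ᵥ ((R * R) *ᵥ v) =
        ∑ i, ((fun j => (R * R) i j) ⬝ᵥ v) ^ 2 := by
      rw [dotProduct]
      exact Finset.sum_congr rfl fun i _ => by rw [mulVec, sq]
    rw [h4]
    exact Finset.sum_le_sum fun i _ => cs _ _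
  calc ((R *ᵥ v) ⬝ᵥ (R *ᵥ v)) ^ 2 = (v ⬝ᵥ ((R * R) *ᵥ v)) ^ 2 := by rw [h1]
    _ ≤ (v ⬝ᵥ v) * (((R * R) *ᵥ v) ⬝ᵥ ((R * R) *ᵥ v)) := cs _ _
    _ ≤ (v ⬝ᵥ v) * ((R * R * (R * R)).trace * (v ⬝ᵥ v)) := mul_le_mul_of_nonneg_left h2 vv
    _ = _ := by ring

section tree

/-- Conditional square function below the cell `(k, m)`; children of `(k + 1, m)` are
`(k, 2 m)` and `(k, 2 m + 1)`. -/
noncomputable def Qs (X : ℕ → ℤ → Matrix ι ι ℝ) : ℕ → ℤ → Matrix ι ι ℝ
  | 0, _ => 0
  | k + 1, m => X (k + 1) m * X (k + 1) m + (1 / 2 : ℝ) • (Qs X k (2 * m) + Qs X k (2 * m + 1))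

/-- Mean of `tr R⁴` at the bottom, when one starts with `R` at the cell `(k, m)`. -/
noncomputable def E4 (X : ℕ → ℤ → Matrix ι ι ℝ) : ℕ → ℤ → Matrix ι ι ℝ → ℝ
  | 0, _, R => (R * R * (R * R)).trace
  | k + 1, m, R => (E4 X k (2 * m) (R + X (k + 1) m) + E4 X k (2 * m + 1) (R - X (k + 1) m)) / 2

open Classical in
/-- Probability that `tr R⁴` reaches the level `M` on the way to the bottom. -/
noncomputable def Pst (X : ℕ → ℤ → Matrix ι ι ℝ) (M : ℝ) : ℕ → ℤ → Matrix ι ι ℝ → ℝ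
  | 0, _, R => if M ≤ (R * R * (R * R)).trace then 1 else 0
  | k + 1, m, R => if M ≤ (R * R * (R * R)).trace then 1 else
      (Pst X M k (2 * m) (R + X (k + 1) m) + Pst X M k (2 * m + 1) (R - X (k + 1) m)) / 2

variable {X : ℕ → ℤ → Matrix ι ι ℝ}

theorem Qs_symm (hX : ∀ k m, (X k m)ᵀ = X k m) (k : ℕ) : ∀ m, (Qs X k m)ᵀ = Qs X k m := by
  induction k with
  | zero => intro m; simp [Qs]
  | succ k ih =>
    intro m
    rw [Qs, transpose_add, transpose_mul, hX, transpose_smul, transpose_add, ih, ih]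

theorem Qs_psd (hX : ∀ k m, (X k m)ᵀ = X k m) (k : ℕ) : ∀ m, (Qs X k m).PosSemidef := by
  induction k with
  | zero => intro m; simpa [Qs] using PosSemidef.zero
  | succ k ih =>
    intro m
    have h : (X (k + 1) m * X (k + 1) m).PosSemidef := by
      have := posSemidef_conjTranspose_mul_self (X (k + 1) m)
      rwa [conjTranspose_eq_transpose_of_trivial, hX] at this
    exact h.add (((ih _).add (ih _)).smul (by norm_num))

/-- One step of the recursion in the form of `psi_step`. -/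
theorem psi_node [DecidableEq ι] {κ : ℝ} (hX : ∀ k m, (X k m)ᵀ = X k m) {k : ℕ} {m : ℤ}
    (hQ : (κ • (1 : Matrix ι ι ℝ) - Qs X (k + 1) m).PosSemidef) {R : Matrix ι ι ℝ}
    (hR : Rᵀ = R) :
    (Psi κ (R + X (k + 1) m) (Qs X k (2 * m)) + Psi κ (R - X (k + 1) m) (Qs X k (2 * m + 1))) / 2 ≤
      Psi κ R (Qs X (k + 1) m) := by
  have ea : Qs X k (2 * m) = (1 / 2 : ℝ) • (Qs X k (2 * m) + Qs X k (2 * m + 1)) +
      (1 / 2 : ℝ) • (Qs X k (2 * m) - Qs X k (2 * m + 1)) := by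
    module
  have eb : Qs X k (2 * m + 1) = (1 / 2 : ℝ) • (Qs X k (2 * m) + Qs X k (2 * m + 1)) -
      (1 / 2 : ℝ) • (Qs X k (2 * m) - Qs X k (2 * m + 1)) := by
    module
  have := psi_step (P := (1 / 2 : ℝ) • (Qs X k (2 * m) + Qs X k (2 * m + 1)))
    (D := (1 / 2 : ℝ) • (Qs X k (2 * m) - Qs X k (2 * m + 1))) hR (hX (k + 1) m)
    (by rw [transpose_smul, transpose_sub, Qs_symm hX, Qs_symm hX]) hQ
  rw [← ea, ← eb] at this
  exact this

/-- **The fourth moment.** -/
theorem mom4 [DecidableEq ι] {κ : ℝ} (hX : ∀ k m, (X k m)ᵀ = X k m)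
    (hQ : ∀ k m, (κ • (1 : Matrix ι ι ℝ) - Qs X k m).PosSemidef) (k : ℕ) :
    ∀ (m : ℤ) (R : Matrix ι ι ℝ), Rᵀ = R → E4 X k m R ≤ Psi κ R (Qs X k m) := by
  induction k with
  | zero =>
    intro m R _
    simp [E4, Qs, Psi]
  | succ k ih =>
    intro m R hR
    have h1 := ih (2 * m) (R + X (k + 1) m) (by rw [transpose_add, hR, hX])
    have h2 := ih (2 * m + 1) (R - X (k + 1) m) (by rw [transpose_sub, hR, hX])
    have h3 := psi_node hX (hQ (k + 1) m) hR
    rw [E4]
    linarith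

/-- **Started at zero**: `E tr R⁴ ≤ 60 κ tr Q`. -/
theorem mom4_zero [DecidableEq ι] {κ : ℝ} (hX : ∀ k m, (X k m)ᵀ = X k m)
    (hQ : ∀ k m, (κ • (1 : Matrix ι ι ℝ) - Qs X k m).PosSemidef) (k : ℕ) (m : ℤ) :
    E4 X k m 0 ≤ 60 * κ * (Qs X k m).trace := by
  have h := mom4 hX hQ k m 0 transpose_zero
  have h2 : 0 ≤ (Qs X k m * Qs X k m).trace :=
    H420.trace_mul_nonneg (Qs_psd hX k m) (Qs_psd hX k m)
  simp only [Psi, Matrix.zero_mul, Matrix.mul_zero, trace_zero] at h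
  linarith

/-- **The stopping probability.** -/
theorem mul_Pst_le [DecidableEq ι] {κ M : ℝ} (hX : ∀ k m, (X k m)ᵀ = X k m)
    (hQ : ∀ k m, (κ • (1 : Matrix ι ι ℝ) - Qs X k m).PosSemidef) (k : ℕ) :
    ∀ (m : ℤ) (R : Matrix ι ι ℝ), Rᵀ = R → M * Pst X M k m R ≤ Psi κ R (Qs X k m) := by
  have key : ∀ (k : ℕ) (m : ℤ) (R : Matrix ι ι ℝ), Rᵀ = R → M ≤ (R * R * (R * R)).trace →
      M * 1 ≤ Psi κ R (Qs X k m) := fun k m R hR h => by
    rw [mul_one]
    exact h.trans (psi_ge hR (Qs_psd hX k m) (hQ k m))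
  induction k with
  | zero =>
    intro m R hR
    rw [Pst]
    split_ifs with h
    · exact key 0 m R hR h
    · rw [mul_zero]
      have h0 := psi_ge hR (Qs_psd hX 0 m) (hQ 0 m)
      have h1 := tr_sq_nonneg (R * R)
      rw [transpose_mul, hR] at h1
      exact h1.trans h0
  | succ k ih =>
    intro m R hR
    rw [Pst]
    split_ifs with h
    · exact key (k + 1) m R hR h
    · have h1 := ih (2 * m) (R + X (k + 1) m) (by rw [transpose_add, hR, hX])
      have h2 := ih (2 * m + 1) (R - X (k + 1) m) (by rw [transpose_sub, hR, hX])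
      have h3 := psi_node hX (hQ (k + 1) m) hR
      linarith

/-- **Started at zero**: `P (stop) ≤ 60 κ tr Q / M`. -/
theorem prob_stop [DecidableEq ι] {κ M : ℝ} (hM : 0 < M) (hX : ∀ k m, (X k m)ᵀ = X k m)
    (hQ : ∀ k m, (κ • (1 : Matrix ι ι ℝ) - Qs X k m).PosSemidef) (k : ℕ) (m : ℤ) :
    Pst X M k m 0 ≤ 60 * κ * (Qs X k m).trace / M := by
  have h := mul_Pst_le (M := M) hX hQ k m 0 transpose_zero
  have h2 : 0 ≤ (Qs X k m * Qs X k m).trace :=
    H420.trace_mul_nonneg (Qs_psd hX k m) (Qs_psd hX k m)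
  simp only [Psi, Matrix.zero_mul, Matrix.mul_zero, trace_zero] at h
  rw [le_div_iff₀ hM]
  linarith

/-- **The hypothesis `Q ≤ 1` from a potential**: if `X² ≤ mean W' - W` at every node and `W ≤ 1` at
the bottom, then `Q ≤ 1 - W`. With `W = √l K⁻¹` this is `H483.xi_energy`. -/
theorem Qs_le_of [DecidableEq ι] {W : ℕ → ℤ → Matrix ι ι ℝ}
    (h0 : ∀ m, ((1 : Matrix ι ι ℝ) - W 0 m).PosSemidef)
    (h : ∀ k m, ((1 / 2 : ℝ) • (W k (2 * m) + W k (2 * m + 1)) - W (k + 1) m
      - X (k + 1) m * X (k + 1) m).PosSemidef) (k : ℕ) :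
    ∀ m, ((1 : Matrix ι ι ℝ) - W k m - Qs X k m).PosSemidef := by
  induction k with
  | zero => intro m; simpa [Qs] using h0 m
  | succ k ih =>
    intro m
    have e : (1 : Matrix ι ι ℝ) - W (k + 1) m - Qs X (k + 1) m =
        ((1 / 2 : ℝ) • (W k (2 * m) + W k (2 * m + 1)) - W (k + 1) m
          - X (k + 1) m * X (k + 1) m) +
        (1 / 2 : ℝ) • (((1 : Matrix ι ι ℝ) - W k (2 * m) - Qs X k (2 * m)) +
          ((1 : Matrix ι ι ℝ) - W k (2 * m + 1) - Qs X k (2 * m + 1))) := by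
      rw [Qs]
      module
    rw [e]
    exact (h k m).add (((ih _).add (ih _)).smul (by norm_num))

end tree

end Vale.Agent.P141.H690
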