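import Vale.Agent.P141.H690.QTie

/-!
# P141, line (A): the sixth moment of a matrix martingale with bounded square function

Normalisation `Q ≤ 1` (scale `X` otherwise). `Psi6 R Q` decreases in the mean at every node.
-/

namespace Vale.Agent.P141.H690

open Matrix Finset

set_option linter.unusedSectionVars false
set_option linter.unusedSimpArgs false

variable {ι : Type*} [Fintype ι]

/-- The Bellman function of the sixth moment. -/
def Psi6 (R Q : Matrix ι ι ℝ) : ℝ :=
  (R * (R * (R * (R * (R * R))))).trace + 36 * (R * (R * (R * (R * Q)))).trace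
    - 864 * (R * (R * (Q * Q))).trace
    + 1400 * ((R * (R * (R * R))).trace + 10 * (R * (R * Q)).trace - 41 * (Q * Q).trace)
    + 280000 * Q.trace

theorem psd_sq (U : Matrix ι ι ℝ) : (Uᵀ * U).PosSemidef := by
  have := posSemidef_conjTranspose_mul_self U
  rwa [conjTranspose_eq_transpose_of_trivial] at this

theorem tr_of_psd {A : Matrix ι ι ℝ} (hA : A.PosSemidef) : Aᵀ = A := by
  have h := hA.isHermitian.eq
  rwa [conjTranspose_eq_transpose_of_trivial] at h

/-- `P - P² ≥ 0` for `0 ≤ P ≤ 1`. -/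
theorem sub_sq_psd [DecidableEq ι] {P : Matrix ι ι ℝ} (h0 : P.PosSemidef)
    (h1 : ((1 : Matrix ι ι ℝ) - P).PosSemidef) : (P - P * P).PosSemidef := by
  have hP := tr_of_psd h0
  have hQ := tr_of_psd h1
  have a1 : (P * (1 - P) * P).PosSemidef := by
    have := h1.conjTranspose_mul_mul_same P
    rwa [conjTranspose_eq_transpose_of_trivial, hP] at this
  have a2 : ((1 - P) * P * (1 - P)).PosSemidef := by
    have := h0.conjTranspose_mul_mul_same (1 - P)
    rwa [conjTranspose_eq_transpose_of_trivial, hQ] at this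
  have e : P - P * P = P * (1 - P) * P + (1 - P) * P * (1 - P) := by noncomm_ring
  rw [e]
  exact a1.add a2

/-- the four order facts used at a node. -/
theorem bounds [DecidableEq ι] {X P : Matrix ι ι ℝ} (hX : Xᵀ = X) (hP0 : P.PosSemidef)
    (hQ : ((1 : Matrix ι ι ℝ) - (X * X + P)).PosSemidef) :
    ((1 : Matrix ι ι ℝ) - X * X).PosSemidef ∧ ((1 : Matrix ι ι ℝ) - P).PosSemidef ∧
      ((1 : Matrix ι ι ℝ) - P * P).PosSemidef ∧
      ((1 : Matrix ι ι ℝ) - X * (X * (X * X))).PosSemidef := by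
  have hXX : (X * X).PosSemidef := by
    have := psd_sq X
    rwa [hX] at this
  have k1 : ((1 : Matrix ι ι ℝ) - X * X).PosSemidef := by
    have e : (1 : Matrix ι ι ℝ) - X * X = (1 - (X * X + P)) + P := by abel
    rw [e]; exact hQ.add hP0
  have kP : ((1 : Matrix ι ι ℝ) - P).PosSemidef := by
    have e : (1 : Matrix ι ι ℝ) - P = (1 - (X * X + P)) + X * X := by abel
    rw [e]; exact hQ.add hXX
  refine ⟨k1, kP, ?_, ?_⟩
  · have e : (1 : Matrix ι ι ℝ) - P * P = (1 - P) + (P - P * P) := by abel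
    rw [e]; exact kP.add (sub_sq_psd hP0 kP)
  · have e : (1 : Matrix ι ι ℝ) - X * (X * (X * X)) =
        (1 - X * X) + (X * X - (X * X) * (X * X)) := by
      rw [Matrix.mul_assoc X X (X * X)]; abel
    rw [e]; exact k1.add (sub_sq_psd hXX k1)

set_option maxHeartbeats 1000000 in
/-- **One node, sixth moment.** -/
theorem psi6_step [DecidableEq ι] {R X P D : Matrix ι ι ℝ} (hR : Rᵀ = R) (hX : Xᵀ = X)
    (hP : Pᵀ = P) (hD : Dᵀ = D) (hP0 : P.PosSemidef)
    (hQ : ((1 : Matrix ι ι ℝ) - (X * X + P)).PosSemidef) :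
    (Psi6 (R + X) (P + D) + Psi6 (R - X) (P - D)) / 2 ≤ Psi6 R (X * X + P) := by
  obtain ⟨k1, kP, kPP, kX4⟩ := bounds hX hP0 hQ
  have w_RRRXXR : (R * (R * (R * (X * (X * R))))).trace = (R * (R * (R * (R * (X * X))))).trace := by
    simpa only [Matrix.mul_assoc] using Matrix.trace_mul_comm (R * (R * (R * (X * X)))) (R)
  have w_RRXRXR : (R * (R * (X * (R * (X * R))))).trace = (R * (R * (R * (X * (R * X))))).trace := by
    simpa only [Matrix.mul_assoc] using Matrix.trace_mul_comm (R * (R * (X * (R * X)))) (R)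
  have w_RRXXRR : (R * (R * (X * (X * (R * R))))).trace = (R * (R * (R * (R * (X * X))))).trace := by
    simpa only [Matrix.mul_assoc] using Matrix.trace_mul_comm (R * (R * (X * X))) (R * R)
  have w_RXRRRX : (R * (X * (R * (R * (R * X))))).trace = (R * (R * (R * (X * (R * X))))).trace := by
    simpa only [Matrix.mul_assoc] using Matrix.trace_mul_comm (R * X) (R * (R * (R * X)))
  have w_RXRRXR : (R * (X * (R * (R * (X * R))))).trace = (R * (R * (X * (R * (R * X))))).trace := by
    simpa only [Matrix.mul_assoc] using Matrix.trace_mul_comm (R * X) (R * (R * (X * R)))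
  have w_RXRXRR : (R * (X * (R * (X * (R * R))))).trace = (R * (R * (R * (X * (R * X))))).trace := by
    simpa only [Matrix.mul_assoc] using Matrix.trace_mul_comm (R * (X * (R * X))) (R * R)
  have w_RXXRRR : (R * (X * (X * (R * (R * R))))).trace = (R * (R * (R * (R * (X * X))))).trace := by
    simpa only [Matrix.mul_assoc] using Matrix.trace_mul_comm (R * (X * X)) (R * (R * R))
  have w_RXXXRX : (R * (X * (X * (X * (R * X))))).trace = (R * (X * (R * (X * (X * X))))).trace := by
    simpa only [Matrix.mul_assoc] using Matrix.trace_mul_comm (R * (X * (X * X))) (R * X)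
  have w_RXXXXR : (R * (X * (X * (X * (X * R))))).trace = (R * (R * (X * (X * (X * X))))).trace := by
    simpa only [Matrix.mul_assoc] using Matrix.trace_mul_comm (R * (X * (X * (X * X)))) (R)
  have w_XRRRRX : (X * (R * (R * (R * (R * X))))).trace = (R * (R * (R * (R * (X * X))))).trace := by
    simpa only [Matrix.mul_assoc] using Matrix.trace_mul_comm (X) (R * (R * (R * (R * X))))
  have w_XRRRXR : (X * (R * (R * (R * (X * R))))).trace = (R * (R * (R * (X * (R * X))))).trace := by
    simpa only [Matrix.mul_assoc] using Matrix.trace_mul_comm (X) (R * (R * (R * (X * R))))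
  have w_XRRXRR : (X * (R * (R * (X * (R * R))))).trace = (R * (R * (X * (R * (R * X))))).trace := by
    simpa only [Matrix.mul_assoc] using Matrix.trace_mul_comm (X) (R * (R * (X * (R * R))))
  have w_XRRXXX : (X * (R * (R * (X * (X * X))))).trace = (R * (R * (X * (X * (X * X))))).trace := by
    simpa only [Matrix.mul_assoc] using Matrix.trace_mul_comm (X) (R * (R * (X * (X * X))))
  have w_XRXRRR : (X * (R * (X * (R * (R * R))))).trace = (R * (R * (R * (X * (R * X))))).trace := by
    simpa only [Matrix.mul_assoc] using Matrix.trace_mul_comm (X * (R * X)) (R * (R * R))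
  have w_XRXRXX : (X * (R * (X * (R * (X * X))))).trace = (R * (X * (R * (X * (X * X))))).trace := by
    simpa only [Matrix.mul_assoc] using Matrix.trace_mul_comm (X) (R * (X * (R * (X * X))))
  have w_XRXXRX : (X * (R * (X * (X * (R * X))))).trace = (R * (X * (X * (R * (X * X))))).trace := by
    simpa only [Matrix.mul_assoc] using Matrix.trace_mul_comm (X) (R * (X * (X * (R * X))))
  have w_XRXXXR : (X * (R * (X * (X * (X * R))))).trace = (R * (X * (R * (X * (X * X))))).trace := by
    simpa only [Matrix.mul_assoc] using Matrix.trace_mul_comm (X * (R * (X * (X * X)))) (R)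
  have w_XXRRRR : (X * (X * (R * (R * (R * R))))).trace = (R * (R * (R * (R * (X * X))))).trace := by
    simpa only [Matrix.mul_assoc] using Matrix.trace_mul_comm (X * X) (R * (R * (R * R)))
  have w_XXRRXX : (X * (X * (R * (R * (X * X))))).trace = (R * (R * (X * (X * (X * X))))).trace := by
    simpa only [Matrix.mul_assoc] using Matrix.trace_mul_comm (X * X) (R * (R * (X * X)))
  have w_XXRXRX : (X * (X * (R * (X * (R * X))))).trace = (R * (X * (R * (X * (X * X))))).trace := by
    simpa only [Matrix.mul_assoc] using Matrix.trace_mul_comm (X * X) (R * (X * (R * X)))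
  have w_XXRXXR : (X * (X * (R * (X * (X * R))))).trace = (R * (X * (X * (R * (X * X))))).trace := by
    simpa only [Matrix.mul_assoc] using Matrix.trace_mul_comm (X * X) (R * (X * (X * R)))
  have w_XXXRRX : (X * (X * (X * (R * (R * X))))).trace = (R * (R * (X * (X * (X * X))))).trace := by
    simpa only [Matrix.mul_assoc] using Matrix.trace_mul_comm (X * (X * X)) (R * (R * X))
  have w_XXXRXR : (X * (X * (X * (R * (X * R))))).trace = (R * (X * (R * (X * (X * X))))).trace := by
    simpa only [Matrix.mul_assoc] using Matrix.trace_mul_comm (X * (X * X)) (R * (X * R))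
  have w_XXXXRR : (X * (X * (X * (X * (R * R))))).trace = (R * (R * (X * (X * (X * X))))).trace := by
    simpa only [Matrix.mul_assoc] using Matrix.trace_mul_comm (X * (X * (X * X))) (R * R)
  have w_RXRRD : (R * (X * (R * (R * D)))).trace = (R * (R * (X * (R * D)))).trace := by
    have h := Matrix.trace_transpose (R * (X * (R * (R * D))))
    simp only [transpose_mul, hR, hX, hP, hD, Matrix.mul_assoc] at h
    rw [← h]
    simpa only [Matrix.mul_assoc] using Matrix.trace_mul_comm (D) (R * (R * (X * R)))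
  have w_XRRRD : (X * (R * (R * (R * D)))).trace = (R * (R * (R * (X * D)))).trace := by
    have h := Matrix.trace_transpose (X * (R * (R * (R * D))))
    simp only [transpose_mul, hR, hX, hP, hD, Matrix.mul_assoc] at h
    rw [← h]
    simpa only [Matrix.mul_assoc] using Matrix.trace_mul_comm (D) (R * (R * (R * X)))
  have w_XRRXP : (X * (R * (R * (X * P)))).trace = (R * (R * (X * (P * X)))).trace := by
    simpa only [Matrix.mul_assoc] using Matrix.trace_mul_comm (X) (R * (R * (X * P)))
  have w_XRXRP : (X * (R * (X * (R * P)))).trace = (R * (X * (R * (X * P)))).trace := by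
    have h := Matrix.trace_transpose (X * (R * (X * (R * P))))
    simp only [transpose_mul, hR, hX, hP, hD, Matrix.mul_assoc] at h
    rw [← h]
    simpa only [Matrix.mul_assoc] using Matrix.trace_mul_comm (P) (R * (X * (R * X)))
  have w_XRXXD : (X * (R * (X * (X * D)))).trace = (R * (X * (X * (D * X)))).trace := by
    simpa only [Matrix.mul_assoc] using Matrix.trace_mul_comm (X) (R * (X * (X * D)))
  have w_XXRRP : (X * (X * (R * (R * P)))).trace = (R * (R * (X * (X * P)))).trace := by
    have h := Matrix.trace_transpose (X * (X * (R * (R * P))))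
    simp only [transpose_mul, hR, hX, hP, hD, Matrix.mul_assoc] at h
    rw [← h]
    simpa only [Matrix.mul_assoc] using Matrix.trace_mul_comm (P) (R * (R * (X * X)))
  have w_XXRXD : (X * (X * (R * (X * D)))).trace = (R * (X * (X * (D * X)))).trace := by
    have h := Matrix.trace_transpose (X * (X * (R * (X * D))))
    simp only [transpose_mul, hR, hX, hP, hD, Matrix.mul_assoc] at h
    rw [← h]
    simpa only [Matrix.mul_assoc] using Matrix.trace_mul_comm (D * X) (R * (X * X))
  have w_XXXRD : (X * (X * (X * (R * D)))).trace = (R * (X * (X * (X * D)))).trace := by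
    have h := Matrix.trace_transpose (X * (X * (X * (R * D))))
    simp only [transpose_mul, hR, hX, hP, hD, Matrix.mul_assoc] at h
    rw [← h]
    simpa only [Matrix.mul_assoc] using Matrix.trace_mul_comm (D) (R * (X * (X * X)))
  have w_XRPD : (X * (R * (P * D))).trace = (R * (X * (D * P))).trace := by
    have h := Matrix.trace_transpose (X * (R * (P * D)))
    simp only [transpose_mul, hR, hX, hP, hD, Matrix.mul_assoc] at h
    rw [← h]
    simpa only [Matrix.mul_assoc] using Matrix.trace_mul_comm (D * P) (R * X)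
  have w_XRDP : (X * (R * (D * P))).trace = (R * (X * (P * D))).trace := by
    have h := Matrix.trace_transpose (X * (R * (D * P)))
    simp only [transpose_mul, hR, hX, hP, hD, Matrix.mul_assoc] at h
    rw [← h]
    simpa only [Matrix.mul_assoc] using Matrix.trace_mul_comm (P * D) (R * X)
  have w_RXXR : (R * (X * (X * R))).trace = (R * (R * (X * X))).trace := by
    simpa only [Matrix.mul_assoc] using Matrix.trace_mul_comm (R * (X * X)) (R)
  have w_XRRX : (X * (R * (R * X))).trace = (R * (R * (X * X))).trace := by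
    simpa only [Matrix.mul_assoc] using Matrix.trace_mul_comm (X) (R * (R * X))
  have w_XRXR : (X * (R * (X * R))).trace = (R * (X * (R * X))).trace := by
    simpa only [Matrix.mul_assoc] using Matrix.trace_mul_comm (X) (R * (X * R))
  have w_XXRR : (X * (X * (R * R))).trace = (R * (R * (X * X))).trace := by
    simpa only [Matrix.mul_assoc] using Matrix.trace_mul_comm (X * X) (R * R)
  have w_XRD : (X * (R * D)).trace = (R * (X * D)).trace := by
    have h := Matrix.trace_transpose (X * (R * D))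
    simp only [transpose_mul, hR, hX, hP, hD, Matrix.mul_assoc] at h
    rw [← h]
    simpa only [Matrix.mul_assoc] using Matrix.trace_mul_comm (D) (R * X)
  have w_RRPXX : (R * (R * (P * (X * X)))).trace = (R * (R * (X * (X * P)))).trace := by
    have h := Matrix.trace_transpose (R * (R * (P * (X * X))))
    simp only [transpose_mul, hR, hX, hP, hD, Matrix.mul_assoc] at h
    rw [← h]
    simpa only [Matrix.mul_assoc] using Matrix.trace_mul_comm (X * (X * P)) (R * R)
  have w_PXX : (P * (X * X)).trace = (X * (X * P)).trace := by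
    simpa only [Matrix.mul_assoc] using Matrix.trace_mul_comm (P) (X * X)
  have w_DXXD : (D * (X * (X * D))).trace = (X * (X * (D * D))).trace := by
    simpa only [Matrix.mul_assoc] using Matrix.trace_mul_comm (D) (X * (X * D))
  have w_XRRXPP : (X * (R * (R * (X * (P * P))))).trace = (R * (R * (X * (P * (P * X))))).trace := by
    simpa only [Matrix.mul_assoc] using Matrix.trace_mul_comm (X) (R * (R * (X * (P * P))))
  have w_DDXXXX : (D * (D * (X * (X * (X * X))))).trace = (X * (X * (X * (X * (D * D))))).trace := by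
    simpa only [Matrix.mul_assoc] using Matrix.trace_mul_comm (D * D) (X * (X * (X * X)))
  have w_PXXRR : (P * (X * (X * (R * R)))).trace = (R * (R * (X * (X * P)))).trace := by
    have h := Matrix.trace_transpose (P * (X * (X * (R * R))))
    simp only [transpose_mul, hR, hX, hP, hD, Matrix.mul_assoc] at h
    exact h.symm
  have w_PXXP : (P * (X * (X * P))).trace = (X * (X * (P * P))).trace := by
    simpa only [Matrix.mul_assoc] using Matrix.trace_mul_comm (P) (X * (X * P))
  have w_PXRXR : (P * (X * (R * (X * R)))).trace = (R * (X * (R * (X * P)))).trace := by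
    have h := Matrix.trace_transpose (P * (X * (R * (X * R))))
    simp only [transpose_mul, hR, hX, hP, hD, Matrix.mul_assoc] at h
    exact h.symm
  have w_PXRRXP : (P * (X * (R * (R * (X * P))))).trace = (R * (R * (X * (P * (P * X))))).trace := by
    simpa only [Matrix.mul_assoc] using Matrix.trace_mul_comm (P * X) (R * (R * (X * P)))
  have w_DRRRX : (D * (R * (R * (R * X)))).trace = (R * (R * (R * (X * D)))).trace := by
    simpa only [Matrix.mul_assoc] using Matrix.trace_mul_comm (D) (R * (R * (R * X)))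
  have w_DRRD : (D * (R * (R * D))).trace = (R * (R * (D * D))).trace := by
    simpa only [Matrix.mul_assoc] using Matrix.trace_mul_comm (D) (R * (R * D))
  have w_XRRDR : (X * (R * (R * (D * R)))).trace = (R * (R * (X * (R * D)))).trace := by
    have h := Matrix.trace_transpose (X * (R * (R * (D * R))))
    simp only [transpose_mul, hR, hX, hP, hD, Matrix.mul_assoc] at h
    rw [← h]
    simpa only [Matrix.mul_assoc] using Matrix.trace_mul_comm (R * D) (R * (R * X))
  have w_RDRRX : (R * (D * (R * (R * X)))).trace = (R * (R * (X * (R * D)))).trace := by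
    simpa only [Matrix.mul_assoc] using Matrix.trace_mul_comm (R * D) (R * (R * X))
  have w_RDDR : (R * (D * (D * R))).trace = (R * (R * (D * D))).trace := by
    simpa only [Matrix.mul_assoc] using Matrix.trace_mul_comm (R * (D * D)) (R)
  have w_DXXXR : (D * (X * (X * (X * R)))).trace = (R * (X * (X * (X * D)))).trace := by
    have h := Matrix.trace_transpose (D * (X * (X * (X * R))))
    simp only [transpose_mul, hR, hX, hP, hD, Matrix.mul_assoc] at h
    exact h.symm
  have w_DXXXXD : (D * (X * (X * (X * (X * D))))).trace = (X * (X * (X * (X * (D * D))))).trace := by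
    simpa only [Matrix.mul_assoc] using Matrix.trace_mul_comm (D) (X * (X * (X * (X * D))))
  have w_DXXRX : (D * (X * (X * (R * X)))).trace = (R * (X * (X * (D * X)))).trace := by
    have h := Matrix.trace_transpose (D * (X * (X * (R * X))))
    simp only [transpose_mul, hR, hX, hP, hD, Matrix.mul_assoc] at h
    rw [← h]
    simpa only [Matrix.mul_assoc] using Matrix.trace_mul_comm (X) (R * (X * (X * D)))
  have w_DRXP : (D * (R * (X * P))).trace = (R * (X * (P * D))).trace := by
    simpa only [Matrix.mul_assoc] using Matrix.trace_mul_comm (D) (R * (X * P))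
  have w_PXRD : (P * (X * (R * D))).trace = (R * (X * (P * D))).trace := by
    have h := Matrix.trace_transpose (P * (X * (R * D)))
    simp only [transpose_mul, hR, hX, hP, hD, Matrix.mul_assoc] at h
    rw [← h]
    simpa only [Matrix.mul_assoc] using Matrix.trace_mul_comm (D) (R * (X * P))
  have w_PRXXRP : (P * (R * (X * (X * (R * P))))).trace = (R * (X * (X * (R * (P * P))))).trace := by
    simpa only [Matrix.mul_assoc] using Matrix.trace_mul_comm (P) (R * (X * (X * (R * P))))
  have w_PRXD : (P * (R * (X * D))).trace = (R * (X * (D * P))).trace := by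
    simpa only [Matrix.mul_assoc] using Matrix.trace_mul_comm (P) (R * (X * D))
  have w_DXRP : (D * (X * (R * P))).trace = (R * (X * (D * P))).trace := by
    have h := Matrix.trace_transpose (D * (X * (R * P)))
    simp only [transpose_mul, hR, hX, hP, hD, Matrix.mul_assoc] at h
    rw [← h]
    simpa only [Matrix.mul_assoc] using Matrix.trace_mul_comm (P) (R * (X * D))
  have w_DXR : (D * (X * R)).trace = (R * (X * D)).trace := by
    have h := Matrix.trace_transpose (D * (X * R))
    simp only [transpose_mul, hR, hX, hP, hD, Matrix.mul_assoc] at h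
    exact h.symm
  have e6 : ((R + X) * ((R + X) * ((R + X) * ((R + X) * ((R + X) * (R + X)))))).trace +
      ((R - X) * ((R - X) * ((R - X) * ((R - X) * ((R - X) * (R - X)))))).trace =
      2 * (R * (R * (R * (R * (R * R))))).trace + 12 * (R * (R * (R * (R * (X * X))))).trace + 12 * (R * (R * (R * (X * (R * X))))).trace + 6 * (R * (R * (X * (R * (R * X))))).trace + 12 * (R * (R * (X * (X * (X * X))))).trace + 12 * (R * (X * (R * (X * (X * X))))).trace + 6 * (R * (X * (X * (R * (X * X))))).trace + 2 * (X * (X * (X * (X * (X * X))))).trace := by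
    simp only [Matrix.add_mul, Matrix.sub_mul, Matrix.mul_add, Matrix.mul_sub, trace_add,
      trace_sub]
    linarith [w_RRRXXR, w_RRXRXR, w_RRXXRR, w_RXRRRX, w_RXRRXR, w_RXRXRR, w_RXXRRR, w_RXXXRX, w_RXXXXR, w_XRRRRX, w_XRRRXR, w_XRRXRR, w_XRRXXX, w_XRXRRR, w_XRXRXX, w_XRXXRX, w_XRXXXR, w_XXRRRR, w_XXRRXX, w_XXRXRX, w_XXRXXR, w_XXXRRX, w_XXXRXR, w_XXXXRR]
  have e4Q : ((R + X) * ((R + X) * ((R + X) * ((R + X) * (P + D))))).trace +
      ((R - X) * ((R - X) * ((R - X) * ((R - X) * (P - D))))).trace =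
      2 * (R * (R * (R * (R * P)))).trace + 4 * (R * (R * (R * (X * D)))).trace + 4 * (R * (R * (X * (R * D)))).trace + 4 * (R * (R * (X * (X * P)))).trace + 4 * (R * (X * (R * (X * P)))).trace + 2 * (R * (X * (X * (R * P)))).trace + 4 * (R * (X * (X * (X * D)))).trace + 2 * (R * (R * (X * (P * X)))).trace + 4 * (R * (X * (X * (D * X)))).trace + 2 * (X * (X * (X * (X * P)))).trace := by
    simp only [Matrix.add_mul, Matrix.sub_mul, Matrix.mul_add, Matrix.mul_sub, trace_add,
      trace_sub]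
    linarith [w_RXRRD, w_XRRRD, w_XRRXP, w_XRXRP, w_XRXXD, w_XXRRP, w_XXRXD, w_XXXRD]
  have e2QQ : ((R + X) * ((R + X) * ((P + D) * (P + D)))).trace +
      ((R - X) * ((R - X) * ((P - D) * (P - D)))).trace =
      2 * (R * (R * (P * P))).trace + 2 * (R * (R * (D * D))).trace + 4 * (R * (X * (P * D))).trace + 4 * (R * (X * (D * P))).trace + 2 * (X * (X * (P * P))).trace + 2 * (X * (X * (D * D))).trace := by
    simp only [Matrix.add_mul, Matrix.sub_mul, Matrix.mul_add, Matrix.mul_sub, trace_add,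
      trace_sub]
    linarith [w_XRPD, w_XRDP]
  have e4 : ((R + X) * ((R + X) * ((R + X) * (R + X)))).trace +
      ((R - X) * ((R - X) * ((R - X) * (R - X)))).trace =
      2 * (R * (R * (R * R))).trace + 8 * (R * (R * (X * X))).trace + 4 * (R * (X * (R * X))).trace + 2 * (X * (X * (X * X))).trace := by
    simp only [Matrix.add_mul, Matrix.sub_mul, Matrix.mul_add, Matrix.mul_sub, trace_add,
      trace_sub]
    linarith [w_RXXR, w_XRRX, w_XRXR, w_XXRR]
  have e2Q : ((R + X) * ((R + X) * (P + D))).trace +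
      ((R - X) * ((R - X) * (P - D))).trace =
      2 * (R * (R * P)).trace + 4 * (R * (X * D)).trace + 2 * (X * (X * P)).trace := by
    simp only [Matrix.add_mul, Matrix.sub_mul, Matrix.mul_add, Matrix.mul_sub, trace_add,
      trace_sub]
    linarith [w_XRD]
  have eQQ : ((P + D) * (P + D)).trace +
      ((P - D) * (P - D)).trace =
      2 * (P * P).trace + 2 * (D * D).trace := by
    simp only [Matrix.add_mul, Matrix.sub_mul, Matrix.mul_add, Matrix.mul_sub, trace_add,
      trace_sub]
    linarith []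
  have p4Q : (R * (R * (R * (R * (X * X + P))))).trace =
      1 * (R * (R * (R * (R * (X * X))))).trace + 1 * (R * (R * (R * (R * P)))).trace := by
    simp only [Matrix.add_mul, Matrix.mul_add, Matrix.mul_assoc, trace_add]
    linarith []
  have p2QQ : (R * (R * ((X * X + P) * (X * X + P)))).trace =
      1 * (R * (R * (X * (X * (X * X))))).trace + 2 * (R * (R * (X * (X * P)))).trace + 1 * (R * (R * (P * P))).trace := by
    simp only [Matrix.add_mul, Matrix.mul_add, Matrix.mul_assoc, trace_add]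
    linarith [w_RRPXX]
  have p2Q : (R * (R * (X * X + P))).trace =
      1 * (R * (R * (X * X))).trace + 1 * (R * (R * P)).trace := by
    simp only [Matrix.add_mul, Matrix.mul_add, Matrix.mul_assoc, trace_add]
    linarith []
  have pQQ : ((X * X + P) * (X * X + P)).trace =
      1 * (X * (X * (X * X))).trace + 2 * (X * (X * P)).trace + 1 * (P * P).trace := by
    simp only [Matrix.add_mul, Matrix.mul_add, Matrix.mul_assoc, trace_add]
    linarith [w_PXX]
  have n1 : 0 ≤ (1) * (X * X).trace := by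
    have h := tr_sq_nonneg (X)
    simp only [transpose_mul, hR, hX, hP, hD, Matrix.mul_assoc] at h
    linarith [h]
  have n2 : 0 ≤ (1) * (D * D).trace := by
    have h := tr_sq_nonneg (D)
    simp only [transpose_mul, hR, hX, hP, hD, Matrix.mul_assoc] at h
    linarith [h]
  have n3 : 0 ≤ (1) * (R * (R * (X * X))).trace := by
    have h := tr_sq_nonneg (X * R)
    simp only [transpose_mul, hR, hX, hP, hD, Matrix.mul_assoc] at h
    linarith [w_RXXR, h]
  have n4 : 0 ≤ (1) * (X * (X * (D * D))).trace := by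
    have h := tr_sq_nonneg (X * D)
    simp only [transpose_mul, hR, hX, hP, hD, Matrix.mul_assoc] at h
    linarith [w_DXXD, h]
  have i1 : 0 ≤ (2) * (R * (R * (R * (R * (X * X))))).trace + (-2) * (R * (R * (X * (R * (R * X))))).trace := by
    have h := tr_sq_nonneg ((1 : ℝ) • (R * (R * X)) - (1 : ℝ) • (X * (R * R)))
    simp only [transpose_sub, transpose_smul, transpose_mul, hR, hX, hP, hD, Matrix.sub_mul,
      Matrix.mul_sub, Matrix.smul_mul, Matrix.mul_smul, trace_sub, trace_smul, smul_eq_mul,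
      Matrix.mul_assoc] at h
    linarith [w_XRRRRX, w_XRRXRR, w_RRXXRR, h]
  have i2 : 0 ≤ (1) * (R * (R * (R * (R * (X * X))))).trace + (-2) * (R * (R * (R * (X * (R * X))))).trace + (1) * (R * (R * (X * (R * (R * X))))).trace := by
    have h := tr_sq_nonneg ((1 : ℝ) • (X * (R * R)) - (1 : ℝ) • (R * (X * R)))
    simp only [transpose_sub, transpose_smul, transpose_mul, hR, hX, hP, hD, Matrix.sub_mul,
      Matrix.mul_sub, Matrix.smul_mul, Matrix.mul_smul, trace_sub, trace_smul, smul_eq_mul,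
      Matrix.mul_assoc] at h
    linarith [w_RRXXRR, w_RRXRXR, w_RXRXRR, w_RXRRXR, h]
  have i3 : 0 ≤ (2) * (R * (R * (X * (X * (X * X))))).trace + (-2) * (R * (X * (X * (R * (X * X))))).trace := by
    have h := tr_sq_nonneg ((1 : ℝ) • (X * (X * R)) - (1 : ℝ) • (R * (X * X)))
    simp only [transpose_sub, transpose_smul, transpose_mul, hR, hX, hP, hD, Matrix.sub_mul,
      Matrix.mul_sub, Matrix.smul_mul, Matrix.mul_smul, trace_sub, trace_smul, smul_eq_mul,
      Matrix.mul_assoc] at h
    linarith [w_RXXXXR, w_XXRXXR, w_XXRRXX, h]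
  have i4 : 0 ≤ (1) * (R * (R * (X * (X * (X * X))))).trace + (-2) * (R * (X * (R * (X * (X * X))))).trace + (1) * (R * (X * (X * (R * (X * X))))).trace := by
    have h := tr_sq_nonneg ((1 : ℝ) • (X * (X * R)) - (1 : ℝ) • (X * (R * X)))
    simp only [transpose_sub, transpose_smul, transpose_mul, hR, hX, hP, hD, Matrix.sub_mul,
      Matrix.mul_sub, Matrix.smul_mul, Matrix.mul_smul, trace_sub, trace_smul, smul_eq_mul,
      Matrix.mul_assoc] at h
    linarith [w_RXXXXR, w_RXXXRX, w_XRXXXR, w_XRXXRX, h]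
  have i0 : 0 ≤ (2) * (R * (R * (X * X))).trace + (-2) * (R * (X * (R * X))).trace := by
    have h := tr_sq_nonneg ((1 : ℝ) • (R * X) - (1 : ℝ) • (X * R))
    simp only [transpose_sub, transpose_smul, transpose_mul, hR, hX, hP, hD, Matrix.sub_mul,
      Matrix.mul_sub, Matrix.smul_mul, Matrix.mul_smul, trace_sub, trace_smul, smul_eq_mul,
      Matrix.mul_assoc] at h
    linarith [w_XRRX, w_XRXR, w_RXXR, h]
  have j1 : 0 ≤ (1) * (R * (R * (X * X))).trace + (-1) * (R * (R * (X * (X * (X * X))))).trace := by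
    have h0 := psd_sq (R * X)
    simp only [transpose_mul, hR, hX, hP, hD, Matrix.mul_assoc] at h0
    have h := H420.trace_mul_nonneg h0 k1
    simp only [Matrix.mul_sub, Matrix.mul_one, trace_sub, Matrix.mul_assoc] at h
    linarith [w_XRRX, w_XRRXXX, h]
  have j2 : 0 ≤ (1) * (X * (X * (X * X))).trace + (-1) * (X * (X * (X * (X * (X * X))))).trace := by
    have h0 := psd_sq (X * X)
    simp only [transpose_mul, hR, hX, hP, hD, Matrix.mul_assoc] at h0
    have h := H420.trace_mul_nonneg h0 k1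
    simp only [Matrix.mul_sub, Matrix.mul_one, trace_sub, Matrix.mul_assoc] at h
    linarith [h]
  have j3 : 0 ≤ (1) * (X * X).trace + (-1) * (X * (X * (X * X))).trace := by
    have h0 := psd_sq (X)
    simp only [transpose_mul, hR, hX, hP, hD, Matrix.mul_assoc] at h0
    have h := H420.trace_mul_nonneg h0 k1
    simp only [Matrix.mul_sub, Matrix.mul_one, trace_sub, Matrix.mul_assoc] at h
    linarith [h]
  have j4 : 0 ≤ (1) * (X * (X * (X * X))).trace + (-1) * (X * (X * (X * (X * P)))).trace := by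
    have h0 := psd_sq (X * X)
    simp only [transpose_mul, hR, hX, hP, hD, Matrix.mul_assoc] at h0
    have h := H420.trace_mul_nonneg h0 kP
    simp only [Matrix.mul_sub, Matrix.mul_one, trace_sub, Matrix.mul_assoc] at h
    linarith [h]
  have j5 : 0 ≤ (1) * (X * X).trace + (-1) * (X * (X * (P * P))).trace := by
    have h0 := psd_sq (X)
    simp only [transpose_mul, hR, hX, hP, hD, Matrix.mul_assoc] at h0
    have h := H420.trace_mul_nonneg h0 kPP
    simp only [Matrix.mul_sub, Matrix.mul_one, trace_sub, Matrix.mul_assoc] at h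
    linarith [h]
  have j5b : 0 ≤ (1) * (X * X).trace + (-1) * (X * (X * P)).trace := by
    have h0 := psd_sq (X)
    simp only [transpose_mul, hR, hX, hP, hD, Matrix.mul_assoc] at h0
    have h := H420.trace_mul_nonneg h0 kP
    simp only [Matrix.mul_sub, Matrix.mul_one, trace_sub, Matrix.mul_assoc] at h
    linarith [h]
  have j6 : 0 ≤ (1) * (R * (R * (X * X))).trace + (-1) * (R * (R * (X * (P * (P * X))))).trace := by
    have h0 := psd_sq (R * X)
    simp only [transpose_mul, hR, hX, hP, hD, Matrix.mul_assoc] at h0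
    have h := H420.trace_mul_nonneg h0 kPP
    simp only [Matrix.mul_sub, Matrix.mul_one, trace_sub, Matrix.mul_assoc] at h
    linarith [w_XRRX, w_XRRXPP, h]
  have j7 : 0 ≤ (1) * (R * (R * (X * X))).trace + (-1) * (R * (X * (X * (R * (P * P))))).trace := by
    have h0 := psd_sq (X * R)
    simp only [transpose_mul, hR, hX, hP, hD, Matrix.mul_assoc] at h0
    have h := H420.trace_mul_nonneg h0 kPP
    simp only [Matrix.mul_sub, Matrix.mul_one, trace_sub, Matrix.mul_assoc] at h
    linarith [w_RXXR, h]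
  have j8 : 0 ≤ (1) * (R * (R * (X * X))).trace + (-1) * (R * (X * (X * (R * P)))).trace := by
    have h0 := psd_sq (X * R)
    simp only [transpose_mul, hR, hX, hP, hD, Matrix.mul_assoc] at h0
    have h := H420.trace_mul_nonneg h0 kP
    simp only [Matrix.mul_sub, Matrix.mul_one, trace_sub, Matrix.mul_assoc] at h
    linarith [w_RXXR, h]
  have j9 : 0 ≤ (1) * (R * (R * (X * X))).trace + (-1) * (R * (R * (X * (P * X)))).trace := by
    have h0 := psd_sq (R * X)
    simp only [transpose_mul, hR, hX, hP, hD, Matrix.mul_assoc] at h0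
    have h := H420.trace_mul_nonneg h0 kP
    simp only [Matrix.mul_sub, Matrix.mul_one, trace_sub, Matrix.mul_assoc] at h
    linarith [w_XRRX, w_XRRXP, h]
  have j10 : 0 ≤ (1) * (D * D).trace + (-1) * (X * (X * (X * (X * (D * D))))).trace := by
    have h0 := psd_sq (D)
    simp only [transpose_mul, hR, hX, hP, hD, Matrix.mul_assoc] at h0
    have h := H420.trace_mul_nonneg h0 kX4
    simp only [Matrix.mul_sub, Matrix.mul_one, trace_sub, Matrix.mul_assoc] at h
    linarith [w_DDXXXX, h]
  have h1 : 0 ≤ (1/9) * (R * (R * (R * (R * (X * X))))).trace + (-2) * (R * (R * (X * (X * P)))).trace + (9) * (X * (X * (P * P))).trace := by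
    have h := tr_sq_nonneg ((1/3 : ℝ) • (X * (R * R)) - (3 : ℝ) • (X * P))
    simp only [transpose_sub, transpose_smul, transpose_mul, hR, hX, hP, hD, Matrix.sub_mul,
      Matrix.mul_sub, Matrix.smul_mul, Matrix.mul_smul, trace_sub, trace_smul, smul_eq_mul,
      Matrix.mul_assoc] at h
    linarith [w_RRXXRR, w_PXXRR, w_PXXP, h]
  have h2 : 0 ≤ (1) * (R * (R * (X * X))).trace + (-2) * (R * (X * (R * (X * P)))).trace + (1) * (R * (R * (X * (P * (P * X))))).trace := by
    have h := tr_sq_nonneg ((1 : ℝ) • (X * R) - (1 : ℝ) • (R * (X * P)))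
    simp only [transpose_sub, transpose_smul, transpose_mul, hR, hX, hP, hD, Matrix.sub_mul,
      Matrix.mul_sub, Matrix.smul_mul, Matrix.mul_smul, trace_sub, trace_smul, smul_eq_mul,
      Matrix.mul_assoc] at h
    linarith [w_RXXR, w_PXRXR, w_PXRRXP, h]
  have h3 : 0 ≤ (1/9) * (R * (R * (R * (R * (X * X))))).trace + (-2) * (R * (R * (R * (X * D)))).trace + (9) * (R * (R * (D * D))).trace := by
    have h := tr_sq_nonneg ((1/3 : ℝ) • (R * (R * X)) - (3 : ℝ) • (R * D))
    simp only [transpose_sub, transpose_smul, transpose_mul, hR, hX, hP, hD, Matrix.sub_mul,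
      Matrix.mul_sub, Matrix.smul_mul, Matrix.mul_smul, trace_sub, trace_smul, smul_eq_mul,
      Matrix.mul_assoc] at h
    linarith [w_XRRRRX, w_XRRRD, w_DRRRX, w_DRRD, h]
  have h4 : 0 ≤ (1/9) * (R * (R * (R * (R * (X * X))))).trace + (-2) * (R * (R * (X * (R * D)))).trace + (9) * (R * (R * (D * D))).trace := by
    have h := tr_sq_nonneg ((1/3 : ℝ) • (R * (R * X)) - (3 : ℝ) • (D * R))
    simp only [transpose_sub, transpose_smul, transpose_mul, hR, hX, hP, hD, Matrix.sub_mul,
      Matrix.mul_sub, Matrix.smul_mul, Matrix.mul_smul, trace_sub, trace_smul, smul_eq_mul,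
      Matrix.mul_assoc] at h
    linarith [w_XRRRRX, w_XRRDR, w_RDRRX, w_RDDR, h]
  have h5 : 0 ≤ (1) * (R * (R * (X * X))).trace + (-2) * (R * (X * (X * (X * D)))).trace + (1) * (X * (X * (X * (X * (D * D))))).trace := by
    have h := tr_sq_nonneg ((1 : ℝ) • (X * R) - (1 : ℝ) • (X * (X * D)))
    simp only [transpose_sub, transpose_smul, transpose_mul, hR, hX, hP, hD, Matrix.sub_mul,
      Matrix.mul_sub, Matrix.smul_mul, Matrix.mul_smul, trace_sub, trace_smul, smul_eq_mul,
      Matrix.mul_assoc] at h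
    linarith [w_RXXR, w_DXXXR, w_DXXXXD, h]
  have h6 : 0 ≤ (1) * (R * (R * (X * X))).trace + (-2) * (R * (X * (X * (D * X)))).trace + (1) * (X * (X * (X * (X * (D * D))))).trace := by
    have h := tr_sq_nonneg ((1 : ℝ) • (R * X) - (1 : ℝ) • (X * (X * D)))
    simp only [transpose_sub, transpose_smul, transpose_mul, hR, hX, hP, hD, Matrix.sub_mul,
      Matrix.mul_sub, Matrix.smul_mul, Matrix.mul_smul, trace_sub, trace_smul, smul_eq_mul,
      Matrix.mul_assoc] at h
    linarith [w_XRRX, w_XRXXD, w_DXXRX, w_DXXXXD, h]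
  have h7 : 0 ≤ (1/100) * (R * (R * (R * (R * (X * X))))).trace + (-2) * (R * (R * (X * (X * P)))).trace + (100) * (X * (X * (P * P))).trace := by
    have h := tr_sq_nonneg ((1/10 : ℝ) • (X * (R * R)) - (10 : ℝ) • (X * P))
    simp only [transpose_sub, transpose_smul, transpose_mul, hR, hX, hP, hD, Matrix.sub_mul,
      Matrix.mul_sub, Matrix.smul_mul, Matrix.mul_smul, trace_sub, trace_smul, smul_eq_mul,
      Matrix.mul_assoc] at h
    linarith [w_RRXXRR, w_PXXRR, w_PXXP, h]
  have h8 : 0 ≤ (1/4) * (R * (R * (D * D))).trace + (2) * (R * (X * (P * D))).trace + (4) * (X * (X * (P * P))).trace := by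
    have h := tr_sq_nonneg ((1/2 : ℝ) • (R * D) - (-2 : ℝ) • (X * P))
    simp only [transpose_sub, transpose_smul, transpose_mul, hR, hX, hP, hD, Matrix.sub_mul,
      Matrix.mul_sub, Matrix.smul_mul, Matrix.mul_smul, trace_sub, trace_smul, smul_eq_mul,
      Matrix.mul_assoc] at h
    linarith [w_DRRD, w_DRXP, w_PXRD, w_PXXP, h]
  have h9 : 0 ≤ (1) * (R * (X * (X * (R * (P * P))))).trace + (2) * (R * (X * (D * P))).trace + (1) * (D * D).trace := by
    have h := tr_sq_nonneg ((1 : ℝ) • (X * (R * P)) - (-1 : ℝ) • (D))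
    simp only [transpose_sub, transpose_smul, transpose_mul, hR, hX, hP, hD, Matrix.sub_mul,
      Matrix.mul_sub, Matrix.smul_mul, Matrix.mul_smul, trace_sub, trace_smul, smul_eq_mul,
      Matrix.mul_assoc] at h
    linarith [w_PRXXRP, w_PRXD, w_DXRP, h]
  have h10 : 0 ≤ (1/4) * (R * (R * (X * X))).trace + (-2) * (R * (X * D)).trace + (4) * (D * D).trace := by
    have h := tr_sq_nonneg ((1/2 : ℝ) • (X * R) - (2 : ℝ) • (D))
    simp only [transpose_sub, transpose_smul, transpose_mul, hR, hX, hP, hD, Matrix.sub_mul,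
      Matrix.mul_sub, Matrix.smul_mul, Matrix.mul_smul, trace_sub, trace_smul, smul_eq_mul,
      Matrix.mul_assoc] at h
    linarith [w_RXXR, w_DXR, h]
  have pQ : (X * X + P).trace = (X * X).trace + P.trace := trace_add _ _
  have p1 : (P + D).trace + (P - D).trace = 2 * P.trace := by
    rw [trace_add, trace_sub]; ring
  simp only [Psi6]
  linarith [n1, n2, n3, n4, i1, i2, i3, i4, i0, j1, j2, j3, j4, j5, j5b, j6, j7, j8, j9, j10, h1, h2, h3, h4, h5, h6, h7, h8, h9, h10]

/-- `Psi6` dominates `tr R⁶`. -/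
theorem psi6_ge [DecidableEq ι] {R Q : Matrix ι ι ℝ} (hR : Rᵀ = R) (hQ0 : Q.PosSemidef)
    (hQ : ((1 : Matrix ι ι ℝ) - Q).PosSemidef) :
    (R * (R * (R * (R * (R * R))))).trace ≤ Psi6 R Q := by
  have hRR : (R * R).PosSemidef := by
    have := psd_sq R
    rwa [hR] at this
  have hR4 : ((R * R) * (R * R)).PosSemidef := by
    have := psd_sq (R * R)
    rwa [transpose_mul, hR] at this
  have hQs := sub_sq_psd hQ0 hQ
  have h1 : 0 ≤ ((R * R) * (R * R) * Q).trace := H420.trace_mul_nonneg hR4 hQ0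
  have h2 : 0 ≤ ((R * R) * (Q - Q * Q)).trace := H420.trace_mul_nonneg hRR hQs
  have h3 : 0 ≤ ((R * R) * Q).trace := H420.trace_mul_nonneg hRR hQ0
  have h4 : 0 ≤ (Q - Q * Q).trace := hQs.trace_nonneg
  have h5 : 0 ≤ Q.trace := hQ0.trace_nonneg
  have h6 : 0 ≤ ((R * R) * (R * R)).trace := hR4.trace_nonneg
  simp only [Matrix.mul_assoc, Matrix.mul_sub, trace_sub] at h1 h2 h3 h4 h6
  rw [Psi6]
  linarith

/-- operator norm from the sixth trace: `|R v|⁶ ≤ tr R⁶ |v|⁶`. -/
theorem op_of_tr6 {R : Matrix ι ι ℝ} (hR : Rᵀ = R) (v : ι → ℝ) :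
    ((R *ᵥ v) ⬝ᵥ (R *ᵥ v)) ^ 3 ≤ (R * (R * (R * (R * (R * R))))).trace * (v ⬝ᵥ v) ^ 3 := by
  have cs : ∀ a b : ι → ℝ, (a ⬝ᵥ b) ^ 2 ≤ (a ⬝ᵥ a) * (b ⬝ᵥ b) := by
    intro a b
    have := Finset.sum_mul_sq_le_sq_mul_sq univ a b
    simpa [dotProduct, sq] using this
  have nn : ∀ a : ι → ℝ, 0 ≤ a ⬝ᵥ a := fun a => by
    simp only [dotProduct]
    exact Finset.sum_nonneg fun i _ => mul_self_nonneg _
  have mv : ∀ a b : ι → ℝ, (R *ᵥ a) ⬝ᵥ b = a ⬝ᵥ (R *ᵥ b) := by
    intro a b
    rw [dotProduct_mulVec a, ← mulVec_transpose, hR]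
  set w1 := R *ᵥ v with hw1
  set w2 := R *ᵥ w1 with hw2
  set w3 := R *ᵥ w2 with hw3
  have h1 : w1 ⬝ᵥ w1 = v ⬝ᵥ w2 := by rw [hw1, mv]
  have h2 : w2 ⬝ᵥ w2 = w1 ⬝ᵥ w3 := by rw [hw2, mv]
  have a1 : (w1 ⬝ᵥ w1) ^ 2 ≤ (v ⬝ᵥ v) * (w2 ⬝ᵥ w2) := by rw [h1]; exact cs v w2
  have a2 : (w2 ⬝ᵥ w2) ^ 2 ≤ (w1 ⬝ᵥ w1) * (w3 ⬝ᵥ w3) := by rw [h2]; exact cs w1 w3
  -- `|R³ v|² ≤ tr R⁶ |v|²`
  have a3 : w3 ⬝ᵥ w3 ≤ (R * (R * (R * (R * (R * R))))).trace * (v ⬝ᵥ v) := by
    set S := R * (R * R) with hS
    have hSt : Sᵀ = S := by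
      rw [hS, transpose_mul, transpose_mul, hR, Matrix.mul_assoc]
    have e1 : w3 = S *ᵥ v := by
      rw [hw3, hw2, hw1, hS, mulVec_mulVec, mulVec_mulVec, Matrix.mul_assoc]
    have e2 : (R * (R * (R * (R * (R * R))))).trace =
        ∑ i, ((fun j => S i j) ⬝ᵥ fun j => S i j) := by
      have e3 : R * (R * (R * (R * (R * R)))) = S * S := by
        rw [hS]; simp only [Matrix.mul_assoc]
      rw [e3, trace]
      refine Finset.sum_congr rfl fun i _ => ?_
      rw [diag_apply, mul_apply, dotProduct]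
      refine Finset.sum_congr rfl fun j _ => ?_
      rw [show S j i = Sᵀ i j from rfl, hSt]
    rw [e2, Finset.sum_mul, e1]
    have h4 : (S *ᵥ v) ⬝ᵥ (S *ᵥ v) = ∑ i, ((fun j => S i j) ⬝ᵥ v) ^ 2 := by
      rw [dotProduct]
      exact Finset.sum_congr rfl fun i _ => by rw [mulVec, sq]
    rw [h4]
    exact Finset.sum_le_sum fun i _ => cs _ _
  have n0 := nn v
  have n1 := nn w1
  have n2 := nn w2
  have n3 := nn w3
  generalize v ⬝ᵥ v = b0 at *
  generalize w1 ⬝ᵥ w1 = b1 at *
  generalize w2 ⬝ᵥ w2 = b2 at *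
  generalize w3 ⬝ᵥ w3 = b3 at *
  generalize (R * (R * (R * (R * (R * R))))).trace = T at *
  -- `b1 ^ 3 ≤ b0 ^ 2 * b3`
  have key : b1 ^ 3 ≤ b0 ^ 2 * b3 := by
    rcases n1.eq_or_lt with h0 | h0
    · rw [← h0]
      have : 0 ≤ b0 ^ 2 * b3 := by positivity
      simpa using this
    · have h4 : (b1 ^ 2) ^ 2 ≤ (b0 * b2) ^ 2 := pow_le_pow_left₀ (by positivity) a1 2
      have h5 : (b0 * b2) ^ 2 ≤ b0 ^ 2 * (b1 * b3) := by
        rw [mul_pow]; exact mul_le_mul_of_nonneg_left a2 (by positivity)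
      have h6 : b1 * b1 ^ 3 ≤ b1 * (b0 ^ 2 * b3) := by nlinarith
      exact le_of_mul_le_mul_left h6 h0
  calc b1 ^ 3 ≤ b0 ^ 2 * b3 := key
    _ ≤ b0 ^ 2 * (T * b0) := mul_le_mul_of_nonneg_left a3 (by positivity)
    _ = T * b0 ^ 3 := by ring

section tree6

/-- Mean of `tr R⁶` at the bottom, when one starts with `R` at the cell `(k, m)`. -/
noncomputable def E6 (X : ℕ → ℤ → Matrix ι ι ℝ) : ℕ → ℤ → Matrix ι ι ℝ → ℝ
  | 0, _, R => (R * (R * (R * (R * (R * R))))).trace
  | k + 1, m, R => (E6 X k (2 * m) (R + X (k + 1) m) + E6 X k (2 * m + 1) (R - X (k + 1) m)) / 2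

open Classical in
/-- Probability that `tr R⁶` reaches the level `M` on the way to the bottom. -/
noncomputable def Pst6 (X : ℕ → ℤ → Matrix ι ι ℝ) (M : ℝ) : ℕ → ℤ → Matrix ι ι ℝ → ℝ
  | 0, _, R => if M ≤ (R * (R * (R * (R * (R * R))))).trace then 1 else 0
  | k + 1, m, R => if M ≤ (R * (R * (R * (R * (R * R))))).trace then 1 else
      (Pst6 X M k (2 * m) (R + X (k + 1) m) + Pst6 X M k (2 * m + 1) (R - X (k + 1) m)) / 2

variable {X : ℕ → ℤ → Matrix ι ι ℝ}

theorem psi6_node [DecidableEq ι] (hX : ∀ k m, (X k m)ᵀ = X k m) {k : ℕ} {m : ℤ}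
    (hQ : ((1 : Matrix ι ι ℝ) - Qs X (k + 1) m).PosSemidef) {R : Matrix ι ι ℝ}
    (hR : Rᵀ = R) :
    (Psi6 (R + X (k + 1) m) (Qs X k (2 * m)) + Psi6 (R - X (k + 1) m) (Qs X k (2 * m + 1))) / 2 ≤
      Psi6 R (Qs X (k + 1) m) := by
  have ea : Qs X k (2 * m) = (1 / 2 : ℝ) • (Qs X k (2 * m) + Qs X k (2 * m + 1)) +
      (1 / 2 : ℝ) • (Qs X k (2 * m) - Qs X k (2 * m + 1)) := by
    module
  have eb : Qs X k (2 * m + 1) = (1 / 2 : ℝ) • (Qs X k (2 * m) + Qs X k (2 * m + 1)) -
      (1 / 2 : ℝ) • (Qs X k (2 * m) - Qs X k (2 * m + 1)) := by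
    module
  have := psi6_step (P := (1 / 2 : ℝ) • (Qs X k (2 * m) + Qs X k (2 * m + 1)))
    (D := (1 / 2 : ℝ) • (Qs X k (2 * m) - Qs X k (2 * m + 1))) hR (hX (k + 1) m)
    (by rw [transpose_smul, transpose_add, Qs_symm hX, Qs_symm hX])
    (by rw [transpose_smul, transpose_sub, Qs_symm hX, Qs_symm hX])
    (((Qs_psd hX _ _).add (Qs_psd hX _ _)).smul (by norm_num)) hQ
  rw [← ea, ← eb] at this
  exact this

/-- **The sixth moment**, `Q ≤ 1`. -/
theorem mom6 [DecidableEq ι] (hX : ∀ k m, (X k m)ᵀ = X k m)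
    (hQ : ∀ k m, ((1 : Matrix ι ι ℝ) - Qs X k m).PosSemidef) (k : ℕ) :
    ∀ (m : ℤ) (R : Matrix ι ι ℝ), Rᵀ = R → E6 X k m R ≤ Psi6 R (Qs X k m) := by
  induction k with
  | zero =>
    intro m R hR
    exact psi6_ge hR (Qs_psd hX 0 m) (hQ 0 m)
  | succ k ih =>
    intro m R hR
    have h1 := ih (2 * m) (R + X (k + 1) m) (by rw [transpose_add, hR, hX])
    have h2 := ih (2 * m + 1) (R - X (k + 1) m) (by rw [transpose_sub, hR, hX])
    have h3 := psi6_node hX (hQ (k + 1) m) hR
    rw [E6]
    linarith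

theorem psi6_zero_le [DecidableEq ι] (hX : ∀ k m, (X k m)ᵀ = X k m) (k : ℕ) (m : ℤ) :
    Psi6 0 (Qs X k m) ≤ 280000 * (Qs X k m).trace := by
  have h2 : 0 ≤ (Qs X k m * Qs X k m).trace :=
    H420.trace_mul_nonneg (Qs_psd hX k m) (Qs_psd hX k m)
  simp only [Psi6, Matrix.zero_mul, trace_zero]
  linarith

theorem mul_Pst6_le [DecidableEq ι] {M : ℝ} (hX : ∀ k m, (X k m)ᵀ = X k m)
    (hQ : ∀ k m, ((1 : Matrix ι ι ℝ) - Qs X k m).PosSemidef) (k : ℕ) :
    ∀ (m : ℤ) (R : Matrix ι ι ℝ), Rᵀ = R → M * Pst6 X M k m R ≤ Psi6 R (Qs X k m) := by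
  have key : ∀ (k : ℕ) (m : ℤ) (R : Matrix ι ι ℝ), Rᵀ = R →
      M ≤ (R * (R * (R * (R * (R * R))))).trace →
      M * 1 ≤ Psi6 R (Qs X k m) := fun k m R hR h => by
    rw [mul_one]
    exact h.trans (psi6_ge hR (Qs_psd hX k m) (hQ k m))
  induction k with
  | zero =>
    intro m R hR
    rw [Pst6]
    split_ifs with h
    · exact key 0 m R hR h
    · rw [mul_zero]
      have h0 := psi6_ge hR (Qs_psd hX 0 m) (hQ 0 m)
      have h1 := tr_sq_nonneg (R * (R * R))
      simp only [transpose_mul, hR, Matrix.mul_assoc] at h1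
      exact h1.trans h0
  | succ k ih =>
    intro m R hR
    rw [Pst6]
    split_ifs with h
    · exact key (k + 1) m R hR h
    · have h1 := ih (2 * m) (R + X (k + 1) m) (by rw [transpose_add, hR, hX])
      have h2 := ih (2 * m + 1) (R - X (k + 1) m) (by rw [transpose_sub, hR, hX])
      have h3 := psi6_node hX (hQ (k + 1) m) hR
      linarith

/-! ### scaling -/

theorem Qs_smul (c : ℝ) (k : ℕ) : ∀ m, Qs (fun j i => c • X j i) k m = c ^ 2 • Qs X k m := by
  induction k with
  | zero => intro m; simp [Qs]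
  | succ k ih =>
    intro m
    rw [Qs, Qs, ih, ih, Matrix.smul_mul, Matrix.mul_smul, smul_smul, ← sq]
    module

theorem E6_smul (c : ℝ) (k : ℕ) :
    ∀ m R, E6 (fun j i => c • X j i) k m (c • R) = c ^ 6 * E6 X k m R := by
  induction k with
  | zero =>
    intro m R
    simp only [E6, Matrix.smul_mul, Matrix.mul_smul, trace_smul, smul_eq_mul]
    ring
  | succ k ih =>
    intro m R
    rw [E6, E6, ← smul_add, ← smul_sub, ih, ih]
    ring

theorem Pst6_smul {c : ℝ} (hc : 0 < c) (M : ℝ) (k : ℕ) :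
    ∀ m R, Pst6 (fun j i => c • X j i) (c ^ 6 * M) k m (c • R) = Pst6 X M k m R := by
  have key : ∀ R : Matrix ι ι ℝ, c ^ 6 * M ≤
      ((c • R) * ((c • R) * ((c • R) * ((c • R) * ((c • R) * (c • R)))))).trace ↔
      M ≤ (R * (R * (R * (R * (R * R))))).trace := by
    intro R
    have e : ((c • R) * ((c • R) * ((c • R) * ((c • R) * ((c • R) * (c • R)))))).trace =
        c ^ 6 * (R * (R * (R * (R * (R * R))))).trace := by
      simp only [Matrix.smul_mul, Matrix.mul_smul, trace_smul, smul_eq_mul]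
      ring
    rw [e]
    exact mul_le_mul_iff_of_pos_left (by positivity)
  induction k with
  | zero =>
    intro m R
    simp only [Pst6, key]
  | succ k ih =>
    intro m R
    simp only [Pst6, key, ← smul_add, ← smul_sub, ih]

/-- **Sixth moment, `Q ≤ κ`, started at zero.** -/
theorem mom6_zero [DecidableEq ι] {κ : ℝ} (hκ : 0 < κ) (hX : ∀ k m, (X k m)ᵀ = X k m)
    (hQ : ∀ k m, (κ • (1 : Matrix ι ι ℝ) - Qs X k m).PosSemidef) (k : ℕ) (m : ℤ) :
    E6 X k m 0 ≤ 280000 * κ ^ 2 * (Qs X k m).trace := by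
  set c := (√κ)⁻¹ with hc
  have hs : 0 < √κ := Real.sqrt_pos.2 hκ
  have hc0 : 0 < c := inv_pos.2 hs
  have hc2 : c ^ 2 = κ⁻¹ := by rw [hc, inv_pow, Real.sq_sqrt hκ.le]
  have hX' : ∀ k m, (c • X k m)ᵀ = c • X k m := fun k m => by rw [transpose_smul, hX]
  have hQ' : ∀ k m, ((1 : Matrix ι ι ℝ) - Qs (fun j i => c • X j i) k m).PosSemidef := by
    intro k m
    have e : (1 : Matrix ι ι ℝ) - Qs (fun j i => c • X j i) k m =
        c ^ 2 • (κ • (1 : Matrix ι ι ℝ) - Qs X k m) := by
      rw [Qs_smul, smul_sub, smul_smul, hc2, inv_mul_cancel₀ hκ.ne', one_smul]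
    rw [e]
    exact (hQ k m).smul (by positivity)
  have h1 := mom6 hX' hQ' k m 0 transpose_zero
  have h2 := psi6_zero_le hX' k m
  have h3 := E6_smul (X := X) c k m 0
  rw [smul_zero] at h3
  rw [Qs_smul, trace_smul, smul_eq_mul] at h2
  rw [show (fun k m => c • X k m) = fun j i => c • X j i from rfl, Qs_smul] at h1
  have h4 : c ^ 6 = c ^ 2 * (κ⁻¹) ^ 2 := by rw [← hc2]; ring
  rw [h3, h4] at h1
  have h5 : c ^ 2 * ((κ⁻¹) ^ 2 * E6 X k m 0) ≤ c ^ 2 * (280000 * (Qs X k m).trace) := by
    linarith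
  have h6 := le_of_mul_le_mul_left h5 (by positivity)
  have h7 : κ ^ 2 * ((κ⁻¹) ^ 2 * E6 X k m 0) = E6 X k m 0 := by
    field_simp
  calc E6 X k m 0 = κ ^ 2 * ((κ⁻¹) ^ 2 * E6 X k m 0) := h7.symm
    _ ≤ κ ^ 2 * (280000 * (Qs X k m).trace) := mul_le_mul_of_nonneg_left h6 (by positivity)
    _ = _ := by ring

/-- **Stopping probability, `Q ≤ κ`, started at zero.** -/
theorem prob_stop6 [DecidableEq ι] {κ M : ℝ} (hκ : 0 < κ) (hM : 0 < M)
    (hX : ∀ k m, (X k m)ᵀ = X k m)
    (hQ : ∀ k m, (κ • (1 : Matrix ι ι ℝ) - Qs X k m).PosSemidef) (k : ℕ) (m : ℤ) :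
    Pst6 X M k m 0 ≤ 280000 * κ ^ 2 * (Qs X k m).trace / M := by
  set c := (√κ)⁻¹ with hc
  have hs : 0 < √κ := Real.sqrt_pos.2 hκ
  have hc0 : 0 < c := inv_pos.2 hs
  have hc2 : c ^ 2 = κ⁻¹ := by rw [hc, inv_pow, Real.sq_sqrt hκ.le]
  have hX' : ∀ k m, (c • X k m)ᵀ = c • X k m := fun k m => by rw [transpose_smul, hX]
  have hQ' : ∀ k m, ((1 : Matrix ι ι ℝ) - Qs (fun j i => c • X j i) k m).PosSemidef := by
    intro k m
    have e : (1 : Matrix ι ι ℝ) - Qs (fun j i => c • X j i) k m =
        c ^ 2 • (κ • (1 : Matrix ι ι ℝ) - Qs X k m) := by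
      rw [Qs_smul, smul_sub, smul_smul, hc2, inv_mul_cancel₀ hκ.ne', one_smul]
    rw [e]
    exact (hQ k m).smul (by positivity)
  have h1 := mul_Pst6_le (M := c ^ 6 * M) hX' hQ' k m 0 transpose_zero
  have h2 := psi6_zero_le hX' k m
  have h3 := Pst6_smul (X := X) hc0 M k m 0
  rw [smul_zero] at h3
  rw [Qs_smul, trace_smul, smul_eq_mul] at h2
  rw [show (fun k m => c • X k m) = fun j i => c • X j i from rfl, Qs_smul] at h1
  have h4 : c ^ 6 = c ^ 2 * (κ⁻¹) ^ 2 := by rw [← hc2]; ring
  rw [h3, h4] at h1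
  have h5 : c ^ 2 * ((κ⁻¹) ^ 2 * (M * Pst6 X M k m 0)) ≤
      c ^ 2 * (280000 * (Qs X k m).trace) := by
    linarith
  have h6 := le_of_mul_le_mul_left h5 (by positivity)
  rw [le_div_iff₀ hM]
  have h7 : κ ^ 2 * ((κ⁻¹) ^ 2 * (M * Pst6 X M k m 0)) = M * Pst6 X M k m 0 := by
    field_simp
  calc Pst6 X M k m 0 * M = κ ^ 2 * ((κ⁻¹) ^ 2 * (M * Pst6 X M k m 0)) := by rw [h7]; ring
    _ ≤ κ ^ 2 * (280000 * (Qs X k m).trace) := mul_le_mul_of_nonneg_left h6 (by positivity)
    _ = _ := by ring

end tree6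

end Vale.Agent.P141.H690
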