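import Vale.Agent.P141.H841.SlotB
import Vale.Agent.P141.H677.SlotR
import Vale.Agent.P141.H415.S3n

/-!
# P141, line (A): the field `q2` of the numbers of a slot, raw form

* `Wt` : weights with lines `e 2 ^ k`, live scales with small fibres;
* `q2_signed`, `q2_blind` : the products of the slot, any weights, summed over the label points of
  the root and over the three roots of `x₀`;
* `raw_of` : constants are absorbed by a shift of the truncation and a change of `δ`;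
* `q2_raw` : the raw bounds, any weights.
-/

namespace Vale.Agent.P141.H690.Q2R

open Finset Matrix
open Vale.Agent.P141.PL (Pt iv ix mem_iv ix_ix cx cb)
open Vale.Agent.P141.H43 (nsq nsq_nonneg)
open Vale.Agent.P141.H677 (KT GT MT rt)
open Vale.Agent.P141.H677.Sk (av Slt SlotN)
open Vale.Agent.P141.H841
open Vale.Agent.P141.H64 (Qf NB)

noncomputable section

open scoped Classical

set_option linter.unusedSectionVars false

variable {ι : Type} [Fintype ι] [DecidableEq ι]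

/-- the data of a root do not depend on the instance -/
theorem tr_inst {ι : Type} [Fintype ι] (d d' : DecidableEq ι) {l : ℝ} {n : ℕ}
    {G K : ℕ → ℤ → Matrix ι ι ℝ} (h : @H420.Tr ι _ d l n G K) : @H420.Tr ι _ d' l n G K := by
  have h1 : d = d' := Subsingleton.elim _ _
  subst h1
  exact h

theorem mT_inst {ι : Type} [Fintype ι] (d d' : DecidableEq ι) (l : ℝ)
    (K : ℕ → ℤ → Matrix ι ι ℝ) (k : ℕ) (m : ℤ) (a : ι → ℝ) :
    @H483.mT ι _ d l K k m a = @H483.mT ι _ d' l K k m a := by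
  have h1 : d = d' := Subsingleton.elim _ _
  subst h1
  rfl

/-- Weights at the points of the root, live scales. -/
structure Wt (K : ℕ) (M : Pt) (v' : ℤ → ℤ → ι → ℝ) (W : ℤ → ℕ → ℤ → ℤ → ℝ)
    (al : ℤ → ℕ → ℤ → Prop) (e V : ℝ) : Prop where
  e0 : 0 ≤ e
  W0 : ∀ x1 k x0 y, 0 ≤ W x1 k x0 y
  line : ∀ x1 ∈ iv K M.1, ∀ k < K, ∀ j y, ∑ x0 ∈ iv k j, W x1 k x0 y ≤ e * 2 ^ k
  V0 : 0 ≤ V
  fib : ∀ x1 ∈ iv K M.1, ∀ k ≤ K, ∀ y, al x1 k y →
    ∑ y' ∈ iv k (ix k y), nsq (v' x1 y') ≤ V * 2 ^ k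
  up : ∀ x1 ∈ iv K M.1, ∀ y ∈ iv K M.2.2, ∀ k < K, al x1 k y → al x1 (k + 1) y
  dead : ∀ x1 ∈ iv K M.1, ∀ y ∈ iv K M.2.2, ∀ k < K, ¬ al x1 k y → ∀ x0, W x1 k x0 y = 0

section sums

variable {Al : ℕ → Pt → Prop} {o : ℤ} {K : ℕ} {x : Pt} {l : ℝ} {g : ℤ → ℤ → ℝ}
  {u v v' : ℤ → ℤ → ι → ℝ} {R : Slt ι} {κ E e V s r P : ℝ} {U : PL.H315.Tri}
  {W : ℤ → ℕ → ℤ → ℤ → ℝ} {al : ℤ → ℕ → ℤ → Prop}

/-- the left side -/
def X2 (K : ℕ) (M : Pt) (R : Slt ι) (h : ℤ) (W : ℤ → ℕ → ℤ → ℤ → ℝ) (v' : ℤ → ℤ → ι → ℝ) : ℝ :=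
  ∑ t ∈ rt M, ∑ x0 ∈ iv K t, ∑ k ∈ range K, ∑ x1 ∈ iv K M.1, ∑ z ∈ iv K M.2.2,
    W x1 k x0 z * nsq ((av R h x0 k z x1 - av R h x0 (k + 1) z x1) *ᵥ
      (av R h x0 (k + 1) z x1 *ᵥ v' x1 z))

theorem sum_rt_le {M : Pt} {f : ℤ → ℝ} {B : ℝ} (h : ∀ t, f t ≤ B) : ∑ t ∈ rt M, f t ≤ 3 * B := by
  have h1 : ∑ t ∈ rt M, f t ≤ ∑ _t ∈ rt M, B := sum_le_sum fun t _ => h t
  rw [sum_const, nsmul_eq_mul, H58.card_rt] at h1
  exact h1

/-- **The products of the slot, signed.** -/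
theorem q2_signed (C : H305.Cls K x s r P U g u v) (hl : 0 < l) (ho : o = 1 ∨ o = -1)
    (hv : ∀ x' z, v' x' z ⬝ᵥ v' x' z ≤ v x' z ⬝ᵥ v x' z) (hs : 0 ≤ s)
    (HW : Wt K (cx K x) v' W al e V) (hE : 0 ≤ E)
    (S : SlotN Al o K (cx K x) l u R κ E) {Θ : ℝ} (hΘ0 : 0 ≤ Θ)
    (hΘ : ∀ x1 ∈ iv K (cx K x).1, Th1 l K (cx K x).2.1 u x1 ≤ Θ) (h : ℤ) (L : ℕ) {δ : ℝ}
    (hδ : 0 < δ) :
    X2 K (cx K x) R h W v' ≤ (e * s * 8 ^ K) * (9 * 10 ^ 8 * (1 + (L : ℝ)) ^ 6 *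
      (δ + V / (2 * l) * (E / δ) + E + V / (2 * l) * (1 + κ ^ 2 + Θ / δ) / 2 ^ L)) := by
  obtain ⟨sg, hs1, hs0, hR⟩ := S.sgn
  set M := cx K x with hM
  have hone : ∀ t, ∑ x0 ∈ iv K t, ∑ k ∈ range K, ∑ x1 ∈ iv K M.1, ∑ z ∈ iv K M.2.2,
      W x1 k x0 z * nsq ((av R h x0 k z x1 - av R h x0 (k + 1) z x1) *ᵥ
        (av R h x0 (k + 1) z x1 *ᵥ v' x1 z)) ≤
      (e * s * 8 ^ K) * (3 * 10 ^ 8 * (1 + (L : ℝ)) ^ 6 *
      (δ + V / (2 * l) * (E / δ) + E + V / (2 * l) * (1 + κ ^ 2 + Θ / δ) / 2 ^ L)) := by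
    intro t
    rw [H483.sum4]
    have hpt : ∀ x1 ∈ iv K M.1, ∑ z ∈ iv K M.2.2, ∑ k ∈ range K, ∑ x0 ∈ iv K t,
        W x1 k x0 z * nsq ((av R h x0 k z x1 - av R h x0 (k + 1) z x1) *ᵥ
          (av R h x0 (k + 1) z x1 *ᵥ v' x1 z)) ≤
        3 * 10 ^ 8 * e * (1 + (L : ℝ)) ^ 5 * (2 ^ K * E * ∑ y ∈ iv K M.2.2, nsq (v' x1 y)) +
        4608 * e * κ ^ 2 * (1 + (L : ℝ)) ^ 2 * (V * 4 ^ K * (Th1 l K M.2.1 u x1 / 2 ^ L)) +
        777600 * e * (1 + (L : ℝ)) ^ 6 * NB K L (∑ y ∈ iv K M.2.2, nsq (v' x1 y)) V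
          (Th1 l K M.2.1 u x1) (Th1 l K M.2.1 u x1) E δ := by
      intro x1 hx1
      have H := hypN_slot hl ho hs1 hs0 hR hE S.en hx1 t
      have h3 := H64.S3z (tr_inst _ _ (tr_Mc hl K M.2.1 u x1))
        (fun k m a => (Mc_mulVec l K M.2.1 u x1 k m a).trans (mT_inst _ _ _ _ _ _ _)) H HW.e0
        (HW.W0 x1) (HW.line x1 hx1) HW.V0 (HW.fib x1 hx1) (sq_nonneg κ)
        (fun y _ x0 p => cap_cut hs0 hR S.cap x1 x0 p (v' x1 y)) (HW.up x1 hx1)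
        (HW.dead x1 hx1) L h hδ
      refine le_trans (le_of_eq ?_) h3
      refine sum_congr rfl fun z _ => sum_congr rfl fun k _ => sum_congr rfl fun x0 _ => ?_
      rw [av_cut hs0 hR h x0 k z x1, av_cut hs0 hR h x0 (k + 1) z x1]
    refine (sum_le_sum hpt).trans ?_
    have hsplit : ∑ x1 ∈ iv K M.1,
        (3 * 10 ^ 8 * e * (1 + (L : ℝ)) ^ 5 * (2 ^ K * E * ∑ y ∈ iv K M.2.2, nsq (v' x1 y)) +
        4608 * e * κ ^ 2 * (1 + (L : ℝ)) ^ 2 * (V * 4 ^ K * (Th1 l K M.2.1 u x1 / 2 ^ L)) +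
        777600 * e * (1 + (L : ℝ)) ^ 6 * NB K L (∑ y ∈ iv K M.2.2, nsq (v' x1 y)) V
          (Th1 l K M.2.1 u x1) (Th1 l K M.2.1 u x1) E δ) =
        3 * 10 ^ 8 * e * (1 + (L : ℝ)) ^ 5 *
          (∑ x1 ∈ iv K M.1, 2 ^ K * E * ∑ y ∈ iv K M.2.2, nsq (v' x1 y)) +
        4608 * e * κ ^ 2 * (1 + (L : ℝ)) ^ 2 *
          (∑ x1 ∈ iv K M.1, V * 4 ^ K * (Th1 l K M.2.1 u x1 / 2 ^ L)) +
        777600 * e * (1 + (L : ℝ)) ^ 6 * ∑ x1 ∈ iv K M.1,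
          NB K L (∑ y ∈ iv K M.2.2, nsq (v' x1 y)) V
          (Th1 l K M.2.1 u x1) (Th1 l K M.2.1 u x1) E δ := by
      rw [sum_add_distrib, sum_add_distrib, mul_sum, mul_sum, mul_sum]
    rw [hsplit]
    have hN := NB_sum C hl hv HW.V0 hE hδ hΘ L
    have hm := mass_C C hv
    have ht := Th_sumC C hl
    have e1 : ∑ x1 ∈ iv K M.1, 2 ^ K * E * ∑ y ∈ iv K M.2.2, nsq (v' x1 y) ≤
        2 ^ K * E * (s * 4 ^ K) := by
      rw [← mul_sum]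
      exact mul_le_mul_of_nonneg_left hm (by positivity)
    have e2 : ∑ x1 ∈ iv K M.1, V * 4 ^ K * (Th1 l K M.2.1 u x1 / 2 ^ L) ≤
        V * 4 ^ K * ((2 * l)⁻¹ * (s * 2 ^ K) / 2 ^ L) := by
      rw [← mul_sum, ← sum_div]
      exact mul_le_mul_of_nonneg_left (div_le_div_of_nonneg_right ht (by positivity))
        (mul_nonneg HW.V0 (by positivity))
    have he := HW.e0
    have hV := HW.V0
    have f1 := mul_le_mul_of_nonneg_left e1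
      (by positivity : 0 ≤ 3 * 10 ^ 8 * e * (1 + (L : ℝ)) ^ 5)
    have f2 := mul_le_mul_of_nonneg_left e2
      (by positivity : 0 ≤ 4608 * e * κ ^ 2 * (1 + (L : ℝ)) ^ 2)
    have f3 := mul_le_mul_of_nonneg_left hN
      (by positivity : 0 ≤ 777600 * e * (1 + (L : ℝ)) ^ 6)
    refine (add_le_add (add_le_add f1 f2) f3).trans ?_
    have e8 : (8 : ℝ) ^ K = 2 ^ K * 4 ^ K := by rw [← mul_pow]; norm_num
    have hL : (0 : ℝ) ≤ L := Nat.cast_nonneg _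
    have p5 : (1 + (L : ℝ)) ^ 5 ≤ (1 + (L : ℝ)) ^ 6 := pow_le_pow_right₀ (by linarith) (by norm_num)
    have p2 : (1 + (L : ℝ)) ^ 2 ≤ (1 + (L : ℝ)) ^ 6 := pow_le_pow_right₀ (by linarith) (by norm_num)
    have hD : 0 ≤ e * s * 8 ^ K := by positivity
    have g1 : 3 * 10 ^ 8 * e * (1 + (L : ℝ)) ^ 5 * (2 ^ K * E * (s * 4 ^ K)) ≤
        (e * s * 8 ^ K) * (3 * 10 ^ 8 * (1 + (L : ℝ)) ^ 6 * E) := by
      have : 3 * 10 ^ 8 * e * (1 + (L : ℝ)) ^ 5 * (2 ^ K * E * (s * 4 ^ K)) =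
        (e * s * 8 ^ K) * (3 * 10 ^ 8 * (1 + (L : ℝ)) ^ 5 * E) := by rw [e8]; ring
      rw [this]
      gcongr
    have g2 : 4608 * e * κ ^ 2 * (1 + (L : ℝ)) ^ 2 *
        (V * 4 ^ K * ((2 * l)⁻¹ * (s * 2 ^ K) / 2 ^ L)) ≤
        (e * s * 8 ^ K) * (3 * 10 ^ 8 * (1 + (L : ℝ)) ^ 6 * (V / (2 * l) * κ ^ 2 / 2 ^ L)) := by
      have : 4608 * e * κ ^ 2 * (1 + (L : ℝ)) ^ 2 *
        (V * 4 ^ K * ((2 * l)⁻¹ * (s * 2 ^ K) / 2 ^ L)) =
        (e * s * 8 ^ K) * (4608 * (1 + (L : ℝ)) ^ 2 * (V / (2 * l) * κ ^ 2 / 2 ^ L)) := by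
        rw [e8]
        field_simp
      rw [this]
      refine mul_le_mul_of_nonneg_left ?_ hD
      refine mul_le_mul_of_nonneg_right ?_ (by positivity)
      exact mul_le_mul (by norm_num) p2 (by positivity) (by norm_num)
    have g3 : 777600 * e * (1 + (L : ℝ)) ^ 6 *
        (s * 8 ^ K * (δ + V / (2 * l) * (E / δ + (1 + Θ / δ) / 2 ^ L))) ≤
        (e * s * 8 ^ K) * (3 * 10 ^ 8 * (1 + (L : ℝ)) ^ 6 *
          (δ + V / (2 * l) * (E / δ) + V / (2 * l) * (1 + Θ / δ) / 2 ^ L)) := by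
      have : 777600 * e * (1 + (L : ℝ)) ^ 6 *
        (s * 8 ^ K * (δ + V / (2 * l) * (E / δ + (1 + Θ / δ) / 2 ^ L))) =
        (e * s * 8 ^ K) * (777600 * (1 + (L : ℝ)) ^ 6 *
          (δ + V / (2 * l) * (E / δ) + V / (2 * l) * (1 + Θ / δ) / 2 ^ L)) := by
        ring
      rw [this]
      refine mul_le_mul_of_nonneg_left ?_ hD
      refine mul_le_mul_of_nonneg_right ?_ (by positivity)
      exact mul_le_mul_of_nonneg_right (by norm_num) (by positivity)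
    refine (add_le_add (add_le_add g1 g2) g3).trans (le_of_eq ?_)
    ring
  refine (sum_rt_le hone).trans (le_of_eq ?_)
  ring

/-- **The products of the slot, blind.** -/
theorem q2_blind (C : H305.Cls K x s r P U g u v) (hl : 0 < l) (ho : o = 1 ∨ o = -1)
    (hv : ∀ x' z, v' x' z ⬝ᵥ v' x' z ≤ v x' z ⬝ᵥ v x' z) (hs : 0 ≤ s) (hP : 0 ≤ P)
    (HW : Wt K (cx K x) v' W al e V)
    (S : SlotN Al o K (cx K x) l u R κ E) (h : ℤ) (L : ℕ) :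
    X2 K (cx K x) R h W v' ≤ (e * s * 8 ^ K) * (9 * 10 ^ 8 * (1 + (L : ℝ)) ^ 6 *
      (P / (2 * l) + V / (2 * l) * (1 + κ ^ 2) / 2 ^ L)) := by
  obtain ⟨sg, hs1, hs0, hR⟩ := S.sgn
  set M := cx K x with hM
  have hone : ∀ t, ∑ x0 ∈ iv K t, ∑ k ∈ range K, ∑ x1 ∈ iv K M.1, ∑ z ∈ iv K M.2.2,
      W x1 k x0 z * nsq ((av R h x0 k z x1 - av R h x0 (k + 1) z x1) *ᵥ
        (av R h x0 (k + 1) z x1 *ᵥ v' x1 z)) ≤
      (e * s * 8 ^ K) * (3 * 10 ^ 8 * (1 + (L : ℝ)) ^ 6 *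
      (P / (2 * l) + V / (2 * l) * (1 + κ ^ 2) / 2 ^ L)) := by
    intro t
    rw [H483.sum4]
    have hpt : ∀ x1 ∈ iv K M.1, ∑ z ∈ iv K M.2.2, ∑ k ∈ range K, ∑ x0 ∈ iv K t,
        W x1 k x0 z * nsq ((av R h x0 k z x1 - av R h x0 (k + 1) z x1) *ᵥ
          (av R h x0 (k + 1) z x1 *ᵥ v' x1 z)) ≤
        e * (200000000 * (1 + (L : ℝ)) ^ 6 * (2 ^ K * ∑ y ∈ iv K M.2.2,
            Qf (cJ l K M.2.1) (uJ K M.2.1 u x1) (v' x1 y)) +
          102400 * (1 + (L : ℝ)) ^ 3 * (1 + κ ^ 2) * (((L : ℝ) + 2) ^ 2 + 2) / 2 ^ L *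
            (V * Th1 l K M.2.1 u x1 * 4 ^ K)) := by
      intro x1 hx1
      have h3 := H415.S3.S3a (n := K) (T := t) (x1 := x1) (M3 := M.2.2) (Mx := Mc l K M.2.1 u x1)
        (s := sg x1) (o := o) (tr_Mc hl K M.2.1 u x1)
        (fun k m a => le_of_eq (congrArg nsq (Mc_mulVec l K M.2.1 u x1 k m a)))
        (hs1 x1) ho (hX1 hl K u M.2.1 t x1 M.2.2) (e := e) HW.e0
        (W := fun k x0 y => if k < K then W x1 k x0 y else 0)
        (fun k x0 y => by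
          show 0 ≤ if k < K then W x1 k x0 y else 0
          split_ifs
          · exact HW.W0 x1 k x0 y
          · exact le_rfl)
        (fun k _ j y => by
          show ∑ x0 ∈ iv k j, (if k < K then W x1 k x0 y else 0) ≤ e * 2 ^ k
          by_cases hk : k < K
          · simp only [if_pos hk]
            exact HW.line x1 hx1 k hk j y
          · simp only [if_neg hk, sum_const_zero]
            have := HW.e0
            positivity)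
        (thH_nonneg _) (thH_le _) (hTh1 hl K u M.2.1 t x1 M.2.2) HW.V0 (HW.fib x1 hx1)
        (HW.up x1 hx1)
        (fun y hy k _ hn x0 => by
          show (if k < K then W x1 k x0 y else 0) = 0
          by_cases hk : k < K
          · rw [if_pos hk]
            exact HW.dead x1 hx1 y hy k hk hn x0
          · rw [if_neg hk]) L h (sq_nonneg κ)
        (fun y _ x0 p => cap_cut hs0 hR S.cap x1 x0 p (v' x1 y))
      refine le_trans (le_of_eq ?_) h3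
      refine sum_congr rfl fun z _ => sum_congr rfl fun k hk => sum_congr rfl fun x0 _ => ?_
      rw [av_cut hs0 hR h x0 k z x1, av_cut hs0 hR h x0 (k + 1) z x1, if_pos (mem_range.1 hk)]
    refine (sum_le_sum hpt).trans ?_
    rw [← mul_sum, sum_add_distrib, ← mul_sum, ← mul_sum, ← mul_sum, ← sum_mul, ← mul_sum]
    have hm := Q_sumC C hl hP hv
    have ht := Th_sumC C hl
    have he := HW.e0
    have hV := HW.V0
    have hL : (0 : ℝ) ≤ L := Nat.cast_nonneg _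
    have f1 := mul_le_mul_of_nonneg_left (mul_le_mul_of_nonneg_left hm
      (by positivity : (0 : ℝ) ≤ 2 ^ K)) (by positivity : 0 ≤ 200000000 * (1 + (L : ℝ)) ^ 6)
    have f2 := mul_le_mul_of_nonneg_left (mul_le_mul_of_nonneg_right
      (mul_le_mul_of_nonneg_left ht hV) (by positivity : (0 : ℝ) ≤ 4 ^ K))
      (by positivity : 0 ≤ 102400 * (1 + (L : ℝ)) ^ 3 * (1 + κ ^ 2) *
        (((L : ℝ) + 2) ^ 2 + 2) / 2 ^ L)
    refine (mul_le_mul_of_nonneg_left (add_le_add f1 f2) he).trans ?_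
    have e8 : (8 : ℝ) ^ K = 2 ^ K * 4 ^ K := by rw [← mul_pow]; norm_num
    have p5 : (1 + (L : ℝ)) ^ 3 * (((L : ℝ) + 2) ^ 2 + 2) ≤ 6 * (1 + (L : ℝ)) ^ 6 := by
      have h1 : ((L : ℝ) + 2) ^ 2 + 2 ≤ 6 * (1 + (L : ℝ)) ^ 2 := by nlinarith
      have h2 : (1 + (L : ℝ)) ^ 5 ≤ (1 + (L : ℝ)) ^ 6 :=
        pow_le_pow_right₀ (by linarith) (by norm_num)
      have h3 := mul_le_mul_of_nonneg_left h1 (by positivity : 0 ≤ (1 + (L : ℝ)) ^ 3)
      refine h3.trans ?_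
      have : (1 + (L : ℝ)) ^ 3 * (6 * (1 + (L : ℝ)) ^ 2) = 6 * (1 + (L : ℝ)) ^ 5 := by ring
      rw [this]
      linarith
    have hD : 0 ≤ e * s * 8 ^ K := by positivity
    have hl' : (2 * l)⁻¹ * P = P / (2 * l) := by rw [div_eq_mul_inv, mul_comm]
    have g1 : e * (200000000 * (1 + (L : ℝ)) ^ 6 * (2 ^ K * ((2 * l)⁻¹ * P * (s * 4 ^ K)))) ≤
        (e * s * 8 ^ K) * (3 * 10 ^ 8 * (1 + (L : ℝ)) ^ 6 * (P / (2 * l))) := by
      have : e * (200000000 * (1 + (L : ℝ)) ^ 6 * (2 ^ K * ((2 * l)⁻¹ * P * (s * 4 ^ K)))) =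
          (e * s * 8 ^ K) * (200000000 * (1 + (L : ℝ)) ^ 6 * (P / (2 * l))) := by
        rw [hl', e8]
        ring
      rw [this]
      refine mul_le_mul_of_nonneg_left ?_ hD
      refine mul_le_mul_of_nonneg_right ?_ (by positivity)
      exact mul_le_mul_of_nonneg_right (by norm_num) (by positivity)
    have g2 : e * (102400 * (1 + (L : ℝ)) ^ 3 * (1 + κ ^ 2) * (((L : ℝ) + 2) ^ 2 + 2) / 2 ^ L *
        (V * ((2 * l)⁻¹ * (s * 2 ^ K)) * 4 ^ K)) ≤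
        (e * s * 8 ^ K) * (3 * 10 ^ 8 * (1 + (L : ℝ)) ^ 6 *
          (V / (2 * l) * (1 + κ ^ 2) / 2 ^ L)) := by
      have : e * (102400 * (1 + (L : ℝ)) ^ 3 * (1 + κ ^ 2) * (((L : ℝ) + 2) ^ 2 + 2) / 2 ^ L *
          (V * ((2 * l)⁻¹ * (s * 2 ^ K)) * 4 ^ K)) =
          (e * s * 8 ^ K) * (102400 * ((1 + (L : ℝ)) ^ 3 * (((L : ℝ) + 2) ^ 2 + 2)) *
            (V / (2 * l) * (1 + κ ^ 2) / 2 ^ L)) := by
        rw [e8]
        field_simp
      rw [this]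
      refine mul_le_mul_of_nonneg_left ?_ hD
      refine mul_le_mul_of_nonneg_right ?_ (by positivity)
      have h1 := mul_le_mul_of_nonneg_left p5 (by norm_num : (0 : ℝ) ≤ 102400)
      refine h1.trans ?_
      have h0 : 0 ≤ (1 + (L : ℝ)) ^ 6 := by positivity
      nlinarith
    rw [mul_add]
    refine (add_le_add g1 g2).trans (le_of_eq ?_)
    ring
  refine (sum_rt_le hone).trans (le_of_eq ?_)
  ring

end sums

/-- **Constants are absorbed.** -/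
theorem raw_of {q m : ℕ} {C0 C1 A0 b y e0 κ E D X c : ℝ} (hc : 1 ≤ c)
    (hm : c * (1 + (m : ℝ)) ^ q ≤ 2 ^ m) (hA : 1 ≤ A0) (hb : 0 ≤ b) (hy : 0 < y) (hE : 0 ≤ E)
    (hD : 0 ≤ D)
    (hB : ∀ L : ℕ, X ≤ D * (c * (1 + (L : ℝ)) ^ q *
      (b * A0 * y ^ e0 + (1 + κ) ^ 2 * y ^ (-C0) / 2 ^ L)))
    (hS : ∀ (L : ℕ) (δ : ℝ), 0 < δ → X ≤ D * (c * (1 + (L : ℝ)) ^ q *
      (δ + y ^ (-C1) * E / δ + E + (1 + κ) ^ 2 * y ^ (-C1) * (1 + 1 / δ) / 2 ^ L))) :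
    H677.Sk.Raw q C0 C1 ((c * (1 + (m : ℝ)) ^ q) ^ 2 * A0) b y e0 κ E D X := by
  set c' := c * (1 + (m : ℝ)) ^ q with hc'
  have hm0 : (0 : ℝ) ≤ m := Nat.cast_nonneg _
  have hp1 : (1 : ℝ) ≤ (1 + (m : ℝ)) ^ q := one_le_pow₀ (by linarith)
  have hc1 : 1 ≤ c' := by
    have := mul_le_mul hc hp1 (by norm_num) (by linarith)
    linarith
  have hc0 : 0 < c' := by linarith
  have hcc : c' ≤ c' ^ 2 * A0 := by
    have h1 : c' * 1 ≤ c' * c' := mul_le_mul_of_nonneg_left hc1 hc0.le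
    have h2 : c' ^ 2 * 1 ≤ c' ^ 2 * A0 := mul_le_mul_of_nonneg_left hA (by positivity)
    nlinarith
  have y0 : 0 < y ^ e0 := Real.rpow_pos_of_pos hy _
  have y1 : 0 < y ^ (-C0) := Real.rpow_pos_of_pos hy _
  have y2 : 0 < y ^ (-C1) := Real.rpow_pos_of_pos hy _
  have hL2 : ∀ L : ℕ, c * (1 + ((L + m : ℕ) : ℝ)) ^ q ≤ c' * (1 + (L : ℝ)) ^ q := by
    intro L
    have hL : (0 : ℝ) ≤ L := Nat.cast_nonneg _
    rw [hc', mul_assoc, ← mul_pow]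
    refine mul_le_mul_of_nonneg_left (pow_le_pow_left₀ (by positivity) ?_ q) (by linarith)
    push_cast
    nlinarith
  have hpw : ∀ L : ℕ, (2 : ℝ) ^ (L + m) = 2 ^ L * 2 ^ m := fun L => pow_add _ _ _
  have hdiv : ∀ (L : ℕ) (Z : ℝ), 0 ≤ Z → c' * (Z / 2 ^ (L + m)) ≤ Z / 2 ^ L := by
    intro L Z hZ
    rw [hpw, ← mul_div_assoc, div_le_div_iff₀ (by positivity) (by positivity)]
    have h1 := mul_le_mul_of_nonneg_left hm (by positivity : 0 ≤ Z * 2 ^ L)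
    nlinarith
  refine ⟨fun L => ?_, fun L δ hδ => ?_⟩
  · refine (hB (L + m)).trans (mul_le_mul_of_nonneg_left ?_ hD)
    have hZ : 0 ≤ b * A0 * y ^ e0 + (1 + κ) ^ 2 * y ^ (-C0) / 2 ^ (L + m) := by
      have : 0 ≤ A0 := by linarith
      positivity
    refine (mul_le_mul_of_nonneg_right (hL2 L) hZ).trans ?_
    rw [mul_comm c', mul_assoc]
    refine mul_le_mul_of_nonneg_left ?_ (by positivity)
    rw [mul_add]
    refine add_le_add ?_ (hdiv L _ (by positivity))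
    have h1 : c' * A0 ≤ c' ^ 2 * A0 := by
      refine mul_le_mul_of_nonneg_right ?_ (by linarith)
      nlinarith
    have h2 := mul_le_mul_of_nonneg_left h1 (by positivity : 0 ≤ b * y ^ e0)
    nlinarith
  · refine (hS (L + m) (c' * δ) (by positivity)).trans (mul_le_mul_of_nonneg_left ?_ hD)
    have hZ : 0 ≤ c' * δ + y ^ (-C1) * E / (c' * δ) + E +
        (1 + κ) ^ 2 * y ^ (-C1) * (1 + 1 / (c' * δ)) / 2 ^ (L + m) := by
      positivity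
    refine (mul_le_mul_of_nonneg_right (hL2 L) hZ).trans ?_
    rw [mul_comm c', mul_assoc]
    refine mul_le_mul_of_nonneg_left ?_ (by positivity)
    rw [mul_add, mul_add, mul_add]
    refine add_le_add (add_le_add (add_le_add ?_ ?_) ?_) ?_
    · have h2 : c' ^ 2 * 1 ≤ c' ^ 2 * A0 := mul_le_mul_of_nonneg_left hA (by positivity)
      have h3 := mul_le_mul_of_nonneg_right h2 hδ.le
      nlinarith
    · refine le_of_eq ?_
      field_simp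
    · exact mul_le_mul_of_nonneg_right hcc hE
    · refine le_trans (hdiv L _ (by positivity)) ?_
      refine div_le_div_of_nonneg_right ?_ (by positivity)
      refine mul_le_mul_of_nonneg_left ?_ (by positivity)
      have h4 : 1 / (c' * δ) ≤ 1 / δ := by
        refine one_div_le_one_div_of_le hδ ?_
        nlinarith
      linarith

/-- **The raw bounds of the products, any weights.** -/
theorem q2_raw {Al : ℕ → Pt → Prop} {o : ℤ} {K : ℕ} {x : Pt} {l : ℝ} {g : ℤ → ℤ → ℝ}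
    {u v v' : ℤ → ℤ → ι → ℝ} {R : Slt ι} {κ E e V s r P : ℝ} {U : PL.H315.Tri}
    {W : ℤ → ℕ → ℤ → ℤ → ℝ} {al : ℤ → ℕ → ℤ → Prop}
    (C : H305.Cls K x s r P U g u v) (hl : 0 < l) (ho : o = 1 ∨ o = -1)
    (hv : ∀ x' z, v' x' z ⬝ᵥ v' x' z ≤ v x' z ⬝ᵥ v x' z) (hs : 0 ≤ s) (hP : 0 ≤ P)
    (HW : Wt K (cx K x) v' W al e V) (hκ : 0 ≤ κ) (hE : 0 ≤ E)
    (S : SlotN Al o K (cx K x) l u R κ E) {Θ : ℝ} (hΘ0 : 0 ≤ Θ)
    (hΘ : ∀ x1 ∈ iv K (cx K x).1, Th1 l K (cx K x).2.1 u x1 ≤ Θ) (h : ℤ) {b y e0 A0 : ℝ}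
    (hy : 0 < y) (hy1 : y ≤ 1) (hb : 0 ≤ b) (hA : 1 ≤ A0) (hVy : V / (2 * l) ≤ y ^ (-10 : ℝ))
    (hΘy : Θ ≤ y ^ (-2 : ℝ)) (hPy : P / (2 * l) ≤ b * A0 * y ^ e0) :
    H677.Sk.Raw 6 12 12 ((9 * 10 ^ 8 * (1 + ((70 : ℕ) : ℝ)) ^ 6) ^ 2 * A0) b y e0 κ E
      (e * s * 8 ^ K) (X2 K (cx K x) R h W v') := by
  have he := HW.e0
  have hV0 := HW.V0
  have hD : 0 ≤ e * s * 8 ^ K := by positivity
  have y10 : y ^ (-10 : ℝ) ≤ y ^ (-12 : ℝ) :=
    Real.rpow_le_rpow_of_exponent_ge hy hy1 (by norm_num)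
  have y12 : y ^ (-10 : ℝ) * y ^ (-2 : ℝ) = y ^ (-12 : ℝ) := by
    rw [← Real.rpow_add hy]
    norm_num
  have y2 : 1 ≤ y ^ (-2 : ℝ) := Real.one_le_rpow_of_pos_of_le_one_of_nonpos hy hy1 (by norm_num)
  have p10 : 0 < y ^ (-10 : ℝ) := Real.rpow_pos_of_pos hy _
  have p12 : 0 < y ^ (-12 : ℝ) := Real.rpow_pos_of_pos hy _
  have hVl : 0 ≤ V / (2 * l) := by positivity
  have hκ1 : 1 + κ ^ 2 ≤ (1 + κ) ^ 2 := by nlinarith
  refine raw_of (by norm_num) (by norm_num) hA hb hy hE hD (fun L => ?_) (fun L δ hδ => ?_)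
  · refine (q2_blind C hl ho hv hs hP HW S h L).trans (mul_le_mul_of_nonneg_left ?_ hD)
    refine mul_le_mul_of_nonneg_left (add_le_add hPy ?_) (by positivity)
    refine div_le_div_of_nonneg_right ?_ (by positivity)
    rw [mul_comm]
    exact mul_le_mul hκ1 (hVy.trans y10) hVl (by positivity)
  · refine (q2_signed C hl ho hv hs HW hE S hΘ0 hΘ h L hδ).trans
      (mul_le_mul_of_nonneg_left ?_ hD)
    refine mul_le_mul_of_nonneg_left ?_ (by positivity)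
    refine add_le_add (add_le_add (add_le_add le_rfl ?_) le_rfl) ?_
    · rw [mul_div_assoc]
      exact mul_le_mul_of_nonneg_right (hVy.trans y10) (by positivity)
    · refine div_le_div_of_nonneg_right ?_ (by positivity)
      have h1 : 1 + κ ^ 2 + Θ / δ ≤ (1 + κ) ^ 2 * y ^ (-2 : ℝ) * (1 + 1 / δ) := by
        have h2 : Θ / δ ≤ y ^ (-2 : ℝ) * (1 / δ) := by
          rw [mul_one_div]
          exact div_le_div_of_nonneg_right hΘy hδ.le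
        have h3 : (1 : ℝ) ≤ (1 + κ) ^ 2 := by nlinarith
        have h4 : 0 < 1 / δ := by positivity
        have h5 : (1 + κ) ^ 2 * 1 ≤ (1 + κ) ^ 2 * y ^ (-2 : ℝ) :=
          mul_le_mul_of_nonneg_left y2 (by positivity)
        have h6 : 1 * (y ^ (-2 : ℝ) * (1 / δ)) ≤ (1 + κ) ^ 2 * (y ^ (-2 : ℝ) * (1 / δ)) :=
          mul_le_mul_of_nonneg_right h3 (by positivity)
        nlinarith
      have h7 := mul_le_mul hVy h1 (by positivity) p10.le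
      refine h7.trans (le_of_eq ?_)
      rw [← y12]
      ring

end

end Vale.Agent.P141.H690.Q2R
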