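import Vale.Agent.P141.H483.Moving
import Vale.Agent.P141.H690.Mom4

/-!
# P141, line (A): the cap of the flow matrices, real ties

`H690.Mom4` for the flow matrices `M = √l K⁻¹ dK K⁻¹` of `H483.Chain`, along the `x₀`-tree at fixed
`x₁, x₃`: the tied `x₂`-cell of the cell `i` of scale `j` is `c - i - x₁ / 2 ^ j - x₃ / 2 ^ j`.

* `tsum_tie` : a tree sum over the `x₀`-cells is at most the sum over three cells of the `x₂`-tree;
* `Qs_tie`, `Qs_tie_trace` : the same for the conditional square functions;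
* `MX`, `MX_sum_le`, `MX_sum_le'` : `∑ |M v|² ≤ |v|²` and `≤ ⟪v, G v⟫ / (2 l)`;
* `flow_mom4`, `flow_stop` : `E tr R⁴ ≤ 270 g / l`, `P (tr R⁴ ≥ M) ≤ 270 g / (l M)` for
  `R = ∑ ± θ M`, `|θ| ≤ 1`, `tr G ≤ g`.
-/

namespace Vale.Agent.P141.H690

open Matrix Finset

set_option linter.unusedSectionVars false

variable {ι : Type*} [Fintype ι]

/-- quadratic form of the conditional square function. -/
theorem Qs_form {X : ℕ → ℤ → Matrix ι ι ℝ} (hX : ∀ k m, (X k m)ᵀ = X k m) (v : ι → ℝ) (k : ℕ) :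
    ∀ m, v ⬝ᵥ Qs X k m *ᵥ v = H420.tsum (fun j i => (X j i *ᵥ v) ⬝ᵥ (X j i *ᵥ v)) k m := by
  induction k with
  | zero => intro m; simp [Qs, H420.tsum]
  | succ k ih =>
    intro m
    have h1 : v ⬝ᵥ (X (k + 1) m * X (k + 1) m) *ᵥ v =
        (X (k + 1) m *ᵥ v) ⬝ᵥ (X (k + 1) m *ᵥ v) := by
      rw [← mulVec_mulVec, dotProduct_mulVec v, ← mulVec_transpose, hX]
    rw [Qs, H420.tsum, add_mulVec, dotProduct_add, smul_mulVec, dotProduct_smul, add_mulVec,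
      dotProduct_add, ih, ih, h1, smul_eq_mul]

/-- trace of the conditional square function. -/
theorem Qs_trace {X : ℕ → ℤ → Matrix ι ι ℝ} (k : ℕ) :
    ∀ m, (Qs X k m).trace = H420.tsum (fun j i => (X j i * X j i).trace) k m := by
  induction k with
  | zero => intro m; simp [Qs, H420.tsum]
  | succ k ih =>
    intro m
    rw [Qs, H420.tsum, trace_add, trace_smul, trace_add, ih, ih, smul_eq_mul]

/-- position of the tied interval. -/
theorem div_two_pow (x : ℤ) {j k : ℕ} (h : j ≤ k) :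
    2 ^ (k - j) * (x / 2 ^ k) ≤ x / 2 ^ j ∧ x / 2 ^ j ≤ 2 ^ (k - j) * (x / 2 ^ k) +
      (2 ^ (k - j) - 1) := by
  obtain ⟨r, rfl⟩ := Nat.exists_eq_add_of_le h
  have e : j + r - j = r := by omega
  rw [e, pow_add, ← Int.ediv_ediv_of_nonneg (by positivity)]
  set y := x / 2 ^ j
  have hp : (0 : ℤ) < 2 ^ r := by positivity
  have h1 := Int.emod_nonneg y hp.ne'
  have h2 := Int.emod_lt_of_pos y hp
  have h3 := Int.mul_ediv_add_emod y (2 ^ r)
  constructor <;> linarith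

theorem sum_Ico_consecutive' (f : ℤ → ℝ) {a b c : ℤ} (h1 : a ≤ b) (h2 : b ≤ c) :
    (∑ i ∈ Ico a b, f i) + ∑ i ∈ Ico b c, f i = ∑ i ∈ Ico a c, f i := by
  rw [← Ico_union_Ico_eq_Ico h1 h2, sum_union (Ico_disjoint_Ico_consecutive a b c)]

/-- **Tied tree sums.** -/
theorem tsum_tie {f g : ℕ → ℤ → ℝ} (hg : ∀ j i, 0 ≤ g j i) {c x1 x3 : ℤ} (hc : -3 ≤ c)
    (hc' : c ≤ -1) {k : ℕ} (m : ℤ)
    (h : ∀ j, 1 ≤ j → j ≤ k → ∀ i, f j i ≤ g j (c - i - x1 / 2 ^ j - x3 / 2 ^ j)) :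
    H420.tsum f k m ≤ H420.tsum g k (-(x1 / 2 ^ k + x3 / 2 ^ k + m) - 3) +
      H420.tsum g k (-(x1 / 2 ^ k + x3 / 2 ^ k + m) - 2) +
      H420.tsum g k (-(x1 / 2 ^ k + x3 / 2 ^ k + m) - 1) := by
  set P : ℤ := -(x1 / 2 ^ k + x3 / 2 ^ k + m) - 3 with hP
  have eP2 : -(x1 / 2 ^ k + x3 / 2 ^ k + m) - 2 = P + 1 := by rw [hP]; ring
  have eP1 : -(x1 / 2 ^ k + x3 / 2 ^ k + m) - 1 = P + 2 := by rw [hP]; ring
  rw [eP2, eP1]
  simp only [H420.tsum_eq]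
  rw [← sum_add_distrib, ← sum_add_distrib]
  refine sum_le_sum fun j hj => ?_
  obtain ⟨hj1, hjk⟩ := mem_Icc.1 hj
  rw [← mul_add, ← mul_add]
  refine mul_le_mul_of_nonneg_left ?_ (by positivity)
  set p : ℤ := 2 ^ (k - j) with hp
  have hp0 : 0 < p := by rw [hp]; positivity
  have hun : (∑ i ∈ Ico (p * P) (p * P + p), g j i) +
      (∑ i ∈ Ico (p * (P + 1)) (p * (P + 1) + p), g j i) +
      (∑ i ∈ Ico (p * (P + 2)) (p * (P + 2) + p), g j i) =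
        ∑ i ∈ Ico (p * P) (p * P + 3 * p), g j i := by
    have e1 : p * (P + 1) = p * P + p := by ring
    have e2 : p * (P + 2) = p * P + 2 * p := by ring
    have e3 : p * P + p + p = p * P + 2 * p := by ring
    have e4 : p * P + 2 * p + p = p * P + 3 * p := by ring
    rw [e1, e2, e3, e4, sum_Ico_consecutive' _ (by linarith) (by linarith),
      sum_Ico_consecutive' _ (by linarith) (by linarith)]
  rw [hun]
  set a : ℤ := x1 / 2 ^ j + x3 / 2 ^ j with ha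
  obtain ⟨a1, a2⟩ := div_two_pow x1 hjk
  obtain ⟨b1, b2⟩ := div_two_pow x3 hjk
  rw [← hp] at a1 a2 b1 b2
  calc ∑ i ∈ Ico (p * m) (p * m + p), f j i
      ≤ ∑ i ∈ Ico (p * m) (p * m + p), g j (c - a - i) := by
        refine sum_le_sum fun i _ => (h j hj1 hjk i).trans (le_of_eq ?_)
        congr 1
        rw [ha]; ring
    _ = ∑ i ∈ (Ico (p * m) (p * m + p)).image (fun i => c - a - i), g j i := by
        rw [sum_image]
        intro x _ y _ hxy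
        simpa using hxy
    _ ≤ ∑ i ∈ Ico (p * P) (p * P + 3 * p), g j i := by
        refine sum_le_sum_of_subset_of_nonneg ?_ fun i _ _ => hg j i
        intro y hy
        obtain ⟨i, hi, rfl⟩ := mem_image.1 hy
        rw [mem_Ico] at hi ⊢
        obtain ⟨h1, h2⟩ := hi
        rw [hP, ha]
        constructor <;> nlinarith

/-- a symmetric real matrix with nonnegative form is positive semidefinite. -/
theorem psd_of_form {A : Matrix ι ι ℝ} (hA : Aᵀ = A) (h : ∀ v, 0 ≤ v ⬝ᵥ A *ᵥ v) :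
    A.PosSemidef := by
  refine .of_dotProduct_mulVec_nonneg ?_ fun v => by simpa using h v
  rw [IsHermitian, conjTranspose_eq_transpose_of_trivial, hA]

theorem form_smul_one_sub [DecidableEq ι] (κ : ℝ) (A : Matrix ι ι ℝ) (v : ι → ℝ) :
    v ⬝ᵥ (κ • (1 : Matrix ι ι ℝ) - A) *ᵥ v = κ * (v ⬝ᵥ v) - v ⬝ᵥ A *ᵥ v := by
  rw [sub_mulVec, smul_mulVec, one_mulVec, dotProduct_sub, dotProduct_smul, smul_eq_mul]

/-- from the tree sums to `Qs ≤ κ`. -/
theorem Qs_le_of_form [DecidableEq ι] {X : ℕ → ℤ → Matrix ι ι ℝ} (hX : ∀ k m, (X k m)ᵀ = X k m)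
    {κ : ℝ} {k : ℕ} {m : ℤ}
    (h : ∀ v, H420.tsum (fun j i => (X j i *ᵥ v) ⬝ᵥ (X j i *ᵥ v)) k m ≤ κ * (v ⬝ᵥ v)) :
    (κ • (1 : Matrix ι ι ℝ) - Qs X k m).PosSemidef := by
  refine psd_of_form ?_ fun v => ?_
  · rw [transpose_sub, transpose_smul, transpose_one, Qs_symm hX]
  · rw [form_smul_one_sub, Qs_form hX]
    linarith [h v]

/-- `tr X² = ∑ |X e|²`. -/
theorem trace_sq [DecidableEq ι] {X : Matrix ι ι ℝ} (hX : Xᵀ = X) :
    (X * X).trace = ∑ a, (X *ᵥ Pi.single a 1) ⬝ᵥ (X *ᵥ Pi.single a 1) := by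
  rw [trace]
  refine sum_congr rfl fun a _ => ?_
  rw [diag_apply, mul_apply, dotProduct]
  refine sum_congr rfl fun b _ => ?_
  rw [mulVec_single_one, col_apply]
  congr 1
  exact congrFun (congrFun hX b) a

/-- sums of tree sums. -/
theorem tsum_sum {α : Type*} (s : Finset α) (f : α → ℕ → ℤ → ℝ) (k : ℕ) :
    ∀ m, H420.tsum (fun j i => ∑ a ∈ s, f a j i) k m = ∑ a ∈ s, H420.tsum (f a) k m := by
  induction k with
  | zero => intro m; simp [H420.tsum]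
  | succ k ih =>
    intro m
    simp only [H420.tsum, ih, sum_add_distrib, mul_sum, mul_add]

theorem Qs_trace_eq [DecidableEq ι] {X : ℕ → ℤ → Matrix ι ι ℝ} (hX : ∀ k m, (X k m)ᵀ = X k m)
    (k : ℕ) (m : ℤ) : (Qs X k m).trace = ∑ a, H420.tsum (fun j i =>
      (X j i *ᵥ Pi.single a 1) ⬝ᵥ (X j i *ᵥ Pi.single a 1)) k m := by
  rw [Qs_trace, ← tsum_sum]
  congr 1
  funext j i
  exact trace_sq (hX j i)

/-! ### the flow matrices -/

section flow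

variable [DecidableEq ι]

/-- The flow matrix `√l K⁻¹ dK K⁻¹` of the cell `(k, m)`. -/
noncomputable def MX (l : ℝ) (K : ℕ → ℤ → Matrix ι ι ℝ) (k : ℕ) (m : ℤ) : Matrix ι ι ℝ :=
  √l • ((K k m)⁻¹ * H483.hd K k m * (K k m)⁻¹)

theorem MX_mulVec (l : ℝ) (K : ℕ → ℤ → Matrix ι ι ℝ) (k : ℕ) (m : ℤ) (v : ι → ℝ) :
    MX l K k m *ᵥ v = H483.xiT l K v k m := by
  rw [MX, H483.xiT, smul_mulVec, mulVec_mulVec, mulVec_mulVec, Matrix.mul_assoc]

variable {l : ℝ} {n : ℕ} {G K : ℕ → ℤ → Matrix ι ι ℝ}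

theorem MX_symm (h : H420.Tr l n G K) (k : ℕ) (m : ℤ) : (MX l K k m)ᵀ = MX l K k m := by
  have hK : ∀ j i, (K j i)ᵀ = K j i := fun j i => H186.tr_eq (h.pdK j i).isHermitian
  have hi : ((K k m)⁻¹)ᵀ = (K k m)⁻¹ := by rw [transpose_nonsing_inv, hK]
  rw [MX, transpose_smul, transpose_mul, transpose_mul, hi, H483.hd, transpose_smul,
    transpose_sub, hK, hK, Matrix.mul_assoc]

/-- `∑ |M v|² ≤ ⟪v, G v⟫ / (2 l)`. -/
theorem MX_sum_le (h : H420.Tr l n G K) (v : ι → ℝ) {k : ℕ} (hk : k ≤ n) (m : ℤ) :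
    H420.tsum (fun j i => (MX l K j i *ᵥ v) ⬝ᵥ (MX l K j i *ᵥ v)) k m ≤
      (v ⬝ᵥ G k m *ᵥ v) / (2 * l) := by
  have hs : 0 < √l := Real.sqrt_pos.2 h.l_pos
  have h1 := H483.xi_tree h v hk m
  have h2 : H420.tsum (fun j i => √l * ((MX l K j i *ᵥ v) ⬝ᵥ (MX l K j i *ᵥ v))) k m ≤
      H420.tsum (fun j i => H483.xiT l K v j i ⬝ᵥ K j i *ᵥ H483.xiT l K v j i) k m :=
    H483.tsum_mono (n := n) (fun j _ i => by
      rw [MX_mulVec]
      exact H186.sqrt_le_form (h.pdK _ _).posSemidef (h.psG _ _) h.l_pos.le (h.sq _ _) _) k hk m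
  rw [H483.tsum_mul] at h2
  have h3 : √l * H420.tsum (fun j i => (MX l K j i *ᵥ v) ⬝ᵥ (MX l K j i *ᵥ v)) k m ≤
      √l * ((v ⬝ᵥ G k m *ᵥ v) / (2 * l)) := by
    refine (h2.trans h1).trans (le_of_eq ?_)
    have hll : √l * √l = l := Real.mul_self_sqrt h.l_pos.le
    have hl := h.l_pos
    clear h2 h1
    generalize √l = r at *
    subst hll
    field_simp
  exact le_of_mul_le_mul_left h3 hs

/-- `∑ |M v|² ≤ |v|²`. -/
theorem MX_sum_le' (h : H420.Tr l n G K) (v : ι → ℝ) {k : ℕ} (hk : k ≤ n) (m : ℤ) :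
    H420.tsum (fun j i => (MX l K j i *ᵥ v) ⬝ᵥ (MX l K j i *ᵥ v)) k m ≤ v ⬝ᵥ v := by
  have hs : 0 < √l := Real.sqrt_pos.2 h.l_pos
  have h1 := H420.tsum_le
    (f := fun j i => H483.xiT l K v j i ⬝ᵥ K j i *ᵥ H483.xiT l K v j i)
    (F := fun j i => -(l * (v ⬝ᵥ (K j i)⁻¹ *ᵥ v))) (b := -(√l * (v ⬝ᵥ v))) (n := n)
    (fun j hj i => by
      have h1 := (H483.nd' h hj i).xi_le v
      have e : H483.xiT l K v (j + 1) i =
        H186.xi l (K (j + 1) i) (K j (2 * i)) (K j (2 * i + 1)) v := rfl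
      simp only [e]
      linarith) (fun i => H483.flow_bot h.l_pos (h.psG 0 i) (h.pdK 0 i) (h.sq 0 i) v) k hk m
  have h2 : H420.tsum (fun j i => √l * ((MX l K j i *ᵥ v) ⬝ᵥ (MX l K j i *ᵥ v))) k m ≤
      H420.tsum (fun j i => H483.xiT l K v j i ⬝ᵥ K j i *ᵥ H483.xiT l K v j i) k m :=
    H483.tsum_mono (n := n) (fun j _ i => by
      rw [MX_mulVec]
      exact H186.sqrt_le_form (h.pdK _ _).posSemidef (h.psG _ _) h.l_pos.le (h.sq _ _) _) k hk m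
  rw [H483.tsum_mul] at h2
  have h3 : 0 ≤ l * (v ⬝ᵥ (K k m)⁻¹ *ᵥ v) :=
    mul_nonneg h.l_pos.le (H186.form_nonneg (h.pdK k m).inv.posSemidef v)
  have h4 : √l * H420.tsum (fun j i => (MX l K j i *ᵥ v) ⬝ᵥ (MX l K j i *ᵥ v)) k m ≤
      √l * (v ⬝ᵥ v) := by linarith
  exact le_of_mul_le_mul_left h4 hs

theorem E4_congr {X X' : ℕ → ℤ → Matrix ι ι ℝ} (k : ℕ)
    (h : ∀ j, 1 ≤ j → j ≤ k → ∀ i, X j i = X' j i) :
    ∀ m R, E4 X k m R = E4 X' k m R := by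
  induction k with
  | zero => intro m R; rfl
  | succ k ih =>
    intro m R
    have ih' := ih fun j h1 h2 i => h j h1 (by omega) i
    rw [E4, E4, ih', ih', h (k + 1) (by omega) le_rfl m]

theorem Pst_congr {X X' : ℕ → ℤ → Matrix ι ι ℝ} (M : ℝ) (k : ℕ)
    (h : ∀ j, 1 ≤ j → j ≤ k → ∀ i, X j i = X' j i) :
    ∀ m R, Pst X M k m R = Pst X' M k m R := by
  induction k with
  | zero => intro m R; rfl
  | succ k ih =>
    intro m R
    have ih' := ih fun j h1 h2 i => h j h1 (by omega) i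
    rw [Pst, Pst, ih', ih', h (k + 1) (by omega) le_rfl m]

/-- The increments along the `x₀`-tree at fixed `x₁, x₃`, cut above the scale `n`. -/
noncomputable def XT (l : ℝ) (n : ℕ) (K : ℕ → ℤ → Matrix ι ι ℝ) (th : ℕ → ℤ → ℝ)
    (c x1 x3 : ℤ) (j : ℕ) (i : ℤ) : Matrix ι ι ℝ :=
  if j ≤ n then th j i • MX l K j (c - i - x1 / 2 ^ j - x3 / 2 ^ j) else 0

variable {th : ℕ → ℤ → ℝ} {c x1 x3 : ℤ}

theorem XT_symm (h : H420.Tr l n G K) (j : ℕ) (i : ℤ) :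
    (XT l n K th c x1 x3 j i)ᵀ = XT l n K th c x1 x3 j i := by
  rw [XT]
  split_ifs
  · rw [transpose_smul, MX_symm h]
  · exact transpose_zero

theorem XT_sq_le (hth : ∀ j i, |th j i| ≤ 1) (v : ι → ℝ) (j : ℕ) (i : ℤ) :
    (XT l n K th c x1 x3 j i *ᵥ v) ⬝ᵥ (XT l n K th c x1 x3 j i *ᵥ v) ≤
      (MX l K j (c - i - x1 / 2 ^ j - x3 / 2 ^ j) *ᵥ v) ⬝ᵥ
        (MX l K j (c - i - x1 / 2 ^ j - x3 / 2 ^ j) *ᵥ v) := by
  set w := MX l K j (c - i - x1 / 2 ^ j - x3 / 2 ^ j) *ᵥ v with hw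
  have h0 : 0 ≤ w ⬝ᵥ w := H186.dot_self_nonneg w
  rw [XT]
  split_ifs
  · rw [smul_mulVec, ← hw, smul_dotProduct, dotProduct_smul, smul_eq_mul, smul_eq_mul,
      ← mul_assoc]
    have h1 : th j i * th j i ≤ 1 := by
      have := hth j i
      rw [← sq, ← sq_abs]
      exact pow_le_one₀ (abs_nonneg _) this
    exact mul_le_of_le_one_left h0 h1
  · simpa using h0

/-- `∑ |X v|²` from every cell is at most `3 |v|²`. -/
theorem XT_sum_le' (h : H420.Tr l n G K) (hth : ∀ j i, |th j i| ≤ 1) (hc : -3 ≤ c)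
    (hc' : c ≤ -1) (v : ι → ℝ) (k : ℕ) : ∀ m,
    H420.tsum (fun j i => (XT l n K th c x1 x3 j i *ᵥ v) ⬝ᵥ (XT l n K th c x1 x3 j i *ᵥ v)) k m ≤
      3 * (v ⬝ᵥ v) := by
  have key : ∀ k ≤ n, ∀ m, H420.tsum (fun j i => (XT l n K th c x1 x3 j i *ᵥ v) ⬝ᵥ
      (XT l n K th c x1 x3 j i *ᵥ v)) k m ≤ 3 * (v ⬝ᵥ v) := by
    intro k hk m
    have h1 := tsum_tie (f := fun j i => (XT l n K th c x1 x3 j i *ᵥ v) ⬝ᵥ
      (XT l n K th c x1 x3 j i *ᵥ v)) (g := fun j i => (MX l K j i *ᵥ v) ⬝ᵥ (MX l K j i *ᵥ v))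
      (fun j i => H186.dot_self_nonneg _) (x1 := x1) (x3 := x3) hc hc' (k := k) m
      (fun j _ _ i => XT_sq_le hth v j i)
    have h2 := fun p => MX_sum_le' h v hk p
    linarith [h2 (-(x1 / 2 ^ k + x3 / 2 ^ k + m) - 3), h2 (-(x1 / 2 ^ k + x3 / 2 ^ k + m) - 2),
      h2 (-(x1 / 2 ^ k + x3 / 2 ^ k + m) - 1)]
  induction k with
  | zero => exact key 0 (by omega)
  | succ k ih =>
    intro m
    by_cases hk : k + 1 ≤ n
    · exact key (k + 1) hk m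
    · have h1 := ih (2 * m)
      have h2 := ih (2 * m + 1)
      have h3 : XT l n K th c x1 x3 (k + 1) m = 0 := by rw [XT, if_neg hk]
      rw [H420.tsum]
      simp only [h3, zero_mulVec, zero_dotProduct]
      linarith

theorem XT_trace_le (h : H420.Tr l n G K) (hth : ∀ j i, |th j i| ≤ 1) (hc : -3 ≤ c)
    (hc' : c ≤ -1) {k : ℕ} (hk : k ≤ n) {g : ℝ} (hg : ∀ m, (G k m).trace ≤ g) (m : ℤ) :
    (Qs (XT l n K th c x1 x3) k m).trace ≤ 3 * g / (2 * l) := by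
  rw [Qs_trace_eq (XT_symm h)]
  have e : ∀ p, ∑ a, ((Pi.single a (1 : ℝ) : ι → ℝ) ⬝ᵥ G k p *ᵥ Pi.single a 1) / (2 * l) ≤
      g / (2 * l) := by
    intro p
    rw [← sum_div]
    refine div_le_div_of_nonneg_right ?_ (by linarith [h.l_pos])
    refine le_trans (le_of_eq ?_) (hg p)
    rw [trace]
    refine sum_congr rfl fun a _ => ?_
    rw [mulVec_single_one, single_dotProduct, one_mul, col_apply, diag_apply]
  calc ∑ a, H420.tsum (fun j i => (XT l n K th c x1 x3 j i *ᵥ Pi.single a 1) ⬝ᵥ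
        (XT l n K th c x1 x3 j i *ᵥ Pi.single a 1)) k m
      ≤ ∑ a, (((Pi.single a (1 : ℝ) : ι → ℝ) ⬝ᵥ
            G k (-(x1 / 2 ^ k + x3 / 2 ^ k + m) - 3) *ᵥ Pi.single a 1) / (2 * l) +
          ((Pi.single a (1 : ℝ) : ι → ℝ) ⬝ᵥ
            G k (-(x1 / 2 ^ k + x3 / 2 ^ k + m) - 2) *ᵥ Pi.single a 1) / (2 * l) +
          ((Pi.single a (1 : ℝ) : ι → ℝ) ⬝ᵥ
            G k (-(x1 / 2 ^ k + x3 / 2 ^ k + m) - 1) *ᵥ Pi.single a 1) / (2 * l)) := by
        refine sum_le_sum fun a _ => ?_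
        set v : ι → ℝ := Pi.single a 1
        have h1 := tsum_tie (f := fun j i => (XT l n K th c x1 x3 j i *ᵥ v) ⬝ᵥ
          (XT l n K th c x1 x3 j i *ᵥ v)) (g := fun j i => (MX l K j i *ᵥ v) ⬝ᵥ (MX l K j i *ᵥ v))
          (fun j i => H186.dot_self_nonneg _) (x1 := x1) (x3 := x3) hc hc' (k := k) m
          (fun j _ _ i => XT_sq_le hth v j i)
        have h2 := fun p => MX_sum_le h v hk p
        linarith [h2 (-(x1 / 2 ^ k + x3 / 2 ^ k + m) - 3),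
          h2 (-(x1 / 2 ^ k + x3 / 2 ^ k + m) - 2), h2 (-(x1 / 2 ^ k + x3 / 2 ^ k + m) - 1)]
    _ ≤ g / (2 * l) + g / (2 * l) + g / (2 * l) := by
        rw [sum_add_distrib, sum_add_distrib]
        exact add_le_add (add_le_add (e _) (e _)) (e _)
    _ = 3 * g / (2 * l) := by ring

theorem XT_psd (h : H420.Tr l n G K) (hth : ∀ j i, |th j i| ≤ 1) (hc : -3 ≤ c)
    (hc' : c ≤ -1) (k : ℕ) (m : ℤ) :
    ((3 : ℝ) • (1 : Matrix ι ι ℝ) - Qs (XT l n K th c x1 x3) k m).PosSemidef :=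
  Qs_le_of_form (XT_symm h) fun v => XT_sum_le' h hth hc hc' v k m

/-- **The fourth moment of the flow matrices, real ties.** -/
theorem flow_mom4 (h : H420.Tr l n G K) (hth : ∀ j i, |th j i| ≤ 1) (hc : -3 ≤ c)
    (hc' : c ≤ -1) {k : ℕ} (hk : k ≤ n) {g : ℝ} (hg : ∀ m, (G k m).trace ≤ g) (m : ℤ) :
    E4 (fun j i => th j i • MX l K j (c - i - x1 / 2 ^ j - x3 / 2 ^ j)) k m 0 ≤
      270 * g / l := by
  have h1 := mom4_zero (XT_symm h) (XT_psd (x1 := x1) (x3 := x3) h hth hc hc') k m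
  have h2 := XT_trace_le (x1 := x1) (x3 := x3) h hth hc hc' hk hg m
  have h3 : E4 (fun j i => th j i • MX l K j (c - i - x1 / 2 ^ j - x3 / 2 ^ j)) k m 0 =
      E4 (XT l n K th c x1 x3) k m 0 :=
    E4_congr k (fun j _ hj i => by rw [XT, if_pos (by omega)]) m 0
  rw [h3]
  have h4 : 270 * g / l = 60 * 3 * (3 * g / (2 * l)) := by
    have := h.l_pos
    field_simp
    ring
  rw [h4]
  linarith

/-- **The stopping probability of the flow matrices, real ties.** -/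
theorem flow_stop (h : H420.Tr l n G K) (hth : ∀ j i, |th j i| ≤ 1) (hc : -3 ≤ c)
    (hc' : c ≤ -1) {k : ℕ} (hk : k ≤ n) {g : ℝ} (hg : ∀ m, (G k m).trace ≤ g) {M : ℝ}
    (hM : 0 < M) (m : ℤ) :
    Pst (fun j i => th j i • MX l K j (c - i - x1 / 2 ^ j - x3 / 2 ^ j)) M k m 0 ≤
      270 * g / (l * M) := by
  have h1 := prob_stop hM (XT_symm h) (XT_psd (x1 := x1) (x3 := x3) h hth hc hc') k m
  have h2 := XT_trace_le (x1 := x1) (x3 := x3) h hth hc hc' hk hg m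
  have h3 : Pst (fun j i => th j i • MX l K j (c - i - x1 / 2 ^ j - x3 / 2 ^ j)) M k m 0 =
      Pst (XT l n K th c x1 x3) M k m 0 :=
    Pst_congr M k (fun j _ hj i => by rw [XT, if_pos (by omega)]) m 0
  rw [h3]
  refine h1.trans ?_
  have h4 : 270 * g / (l * M) = 60 * 3 * (3 * g / (2 * l)) / M := by
    have := h.l_pos
    field_simp
    ring
  rw [h4]
  exact div_le_div_of_nonneg_right (by linarith) hM.le

end flow

end Vale.Agent.P141.H690
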