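import Vale.Agent.P141.H690.S1abs
import Vale.Agent.P141.H876.ShiftY

/-!
# P141, line (A): the deviation of the shifted slot for delayed generations

Letters of `H876.ShiftY`.  `Ev j a` : the `x₀`-cell `a` of scale `j` is inside a start cell of the
path of `y`.  The signs of the layer `i` vanish unless the ancestor at the scale `i + D` is inside.

* `Es` : the energy of one layer below the start cells, `Es_near`, `Es_sum`;
* `badA` : the multiplicity of the pairs of scales with different ancestors, `badA_sum`;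
* `S1D`, `S1D_succ`, `S2D` : the deviation and the half differences, one point.
-/

namespace Vale.Agent.P141.H690

open Finset Matrix
open Vale.Agent.P141.PL (iv ix hs mem_iv ix_ix card_iv)
open Vale.Agent.P141.H922 (ck iv_iv)
open Vale.Agent.P141.H43 (avv nsq nsq_nonneg)
open Vale.Agent.P141.H841 (Lm Rm Rs Nn Nn_nonneg om om_nonneg st st_bd ep ep_nonneg Nrb
  nsq_add_le nsq_sub_le)
open Vale.Agent.P141.H876 (wn En En_nonneg wt_Nn En_sum En_th near_root)
open Vale.Agent.P141.H444.FD (farA strip)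
open Vale.Agent.P141.H420 (Tr)

noncomputable section

open scoped Classical

variable {ι : Type*} [Fintype ι]

theorem sum_half (N : ℕ) (T : ℤ) (f : ℤ → ℝ) :
    ∑ x ∈ iv (N + 1) T, f x = ∑ x ∈ iv N (2 * T), f x + ∑ x ∈ iv N (2 * T + 1), f x := by
  have e : iv (N + 1) T = iv N (2 * T) ∪ iv N (2 * T + 1) := by
    ext x
    rw [mem_union, mem_iv, mem_iv, mem_iv, H841.ix_half]
    omega
  rw [e, sum_union]
  rw [disjoint_left]
  intro x h1 h2
  rw [mem_iv] at h1 h2
  omega

/-! ### The energies below the start cells -/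

/-- the energy of the layer `i` below the start cells inside the cell `(N, T)` -/
def Es (Mx : ℕ → ℤ → Matrix ι ι ℝ) (x1 y : ℤ) (w : ι → ℝ) (Ev : ℕ → ℤ → Prop) (D i : ℕ) :
    ℕ → ℤ → ℝ
  | 0, T => if Ev 0 T then (if i + D ≤ 0 then En Mx 0 T x1 (ix 0 y) i w else 0) else 0
  | N + 1, T => if Ev (N + 1) T then
      (if i + D ≤ N + 1 then En Mx (N + 1) T x1 (ix (N + 1) y) i w else 0)
      else Es Mx x1 y w Ev D i N (2 * T) + Es Mx x1 y w Ev D i N (2 * T + 1)

variable {Mx : ℕ → ℤ → Matrix ι ι ℝ} {o x1 T M3 y : ℤ} {n : ℕ} {s : ℕ → ℤ → ℤ → ℝ}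
  {w : ι → ℝ} {Ev : ℕ → ℤ → Prop} {D : ℕ}

theorem Es_pos {i N : ℕ} {T : ℤ} (h : Ev N T) : Es Mx x1 y w Ev D i N T =
    if i + D ≤ N then En Mx N T x1 (ix N y) i w else 0 := by
  cases N with
  | zero => rw [Es, if_pos h]
  | succ N => rw [Es, if_pos h]

theorem Es_neg {i N : ℕ} {T : ℤ} (h : ¬ Ev (N + 1) T) : Es Mx x1 y w Ev D i (N + 1) T =
    Es Mx x1 y w Ev D i N (2 * T) + Es Mx x1 y w Ev D i N (2 * T + 1) := by
  rw [Es, if_neg h]

theorem Es_nonneg (i : ℕ) : ∀ (N : ℕ) (T : ℤ), 0 ≤ Es Mx x1 y w Ev D i N T := by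
  intro N
  induction N with
  | zero =>
    intro T
    rw [Es]
    split_ifs
    · exact En_nonneg _ _
    · exact le_rfl
    · exact le_rfl
  | succ N ih =>
    intro T
    by_cases h : Ev (N + 1) T
    · rw [Es_pos h]
      split_ifs
      · exact En_nonneg _ _
      · exact le_rfl
    · rw [Es_neg h]
      exact add_nonneg (ih _) (ih _)

/-- **One layer at a point with the same ancestor as `y`.** -/
theorem Es_near (ho : o = 1 ∨ o = -1) {W : ℤ → ℝ} {e : ℝ} (he : 0 ≤ e) {k : ℕ}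
    (hW0 : ∀ x, 0 ≤ W x) (hW : ∀ j, ∑ x ∈ iv k j, W x ≤ e * 2 ^ k) {i : ℕ} {p : ℤ}
    (hp : ix (i + D) p = ix (i + D) y) : ∀ N : ℕ, i + D ≤ N → ∀ T : ℤ,
    ∑ x0 ∈ iv N T, (if Ev (i + D) (ix (i + D) x0) then W x0 * Nn Mx o x1 i x0 p w else 0) ≤
      e * 2 ^ (k - i) * Es Mx x1 y w Ev D i N T := by
  have anc : ∀ {N : ℕ}, i + D ≤ N → ix N p = ix N y := by
    intro N hN
    obtain ⟨d, rfl⟩ := Nat.exists_eq_add_of_le hN
    rw [← ix_ix, ← ix_ix (i + D) d y, hp]
  have top : ∀ {N : ℕ}, i + D ≤ N → ∀ T : ℤ,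
      ∑ x0 ∈ iv N T, (if Ev (i + D) (ix (i + D) x0) then W x0 * Nn Mx o x1 i x0 p w else 0) ≤
        e * 2 ^ (k - i) * En Mx N T x1 (ix N y) i w := by
    intro N hN T
    refine (sum_le_sum fun x0 _ => ?_).trans
      (wt_Nn (Mx := Mx) (x1 := x1) (T := T) (M3 := ix N y) (n := N) ho hW0 hW (i := i)
        (by omega) (p := p) (by rw [anc hN]; omega) (by rw [anc hN]; omega) w)
    split_ifs
    · exact le_rfl
    · exact mul_nonneg (hW0 _) (Nn_nonneg _ _ _ _ _ _ _)
  have zer : ∀ {N : ℕ}, i + D = N → ∀ T : ℤ, ¬ Ev N T →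
      ∑ x0 ∈ iv N T, (if Ev (i + D) (ix (i + D) x0) then W x0 * Nn Mx o x1 i x0 p w else 0) =
        0 := by
    intro N hN T hE
    refine sum_eq_zero fun x0 hx => ?_
    rw [mem_iv] at hx
    rw [hN, hx, if_neg hE]
  have h0 : ∀ (N : ℕ) (T : ℤ), 0 ≤ e * 2 ^ (k - i) * Es Mx x1 y w Ev D i N T := fun N T =>
    mul_nonneg (by positivity) (Es_nonneg _ _ _)
  intro N
  induction N with
  | zero =>
    intro hN T
    by_cases hE : Ev 0 T
    · rw [Es_pos hE, if_pos hN]
      exact top hN T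
    · rw [zer (by omega) T hE]
      exact h0 0 T
  | succ N ih =>
    intro hN T
    by_cases hE : Ev (N + 1) T
    · rw [Es_pos hE, if_pos hN]
      exact top hN T
    · by_cases hD : i + D = N + 1
      · rw [zer hD T hE]
        exact h0 _ T
      · rw [Es_neg hE, sum_half, mul_add]
        exact add_le_add (ih (by omega) _) (ih (by omega) _)

theorem Ev_down (hEv : ∀ j x, Ev (j + 1) (ix (j + 1) x) → Ev j (ix j x)) (x : ℤ) :
    ∀ N : ℕ, Ev N (ix N x) → Ev 0 (ix 0 x) := by
  intro N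
  induction N with
  | zero => exact id
  | succ N ih => exact fun h => ih (hEv N x h)

/-- the number of the points below the start cells -/
def cE (Ev : ℕ → ℤ → Prop) (n : ℕ) (T : ℤ) : ℝ :=
  ∑ x0 ∈ iv n T, if Ev 0 (ix 0 x0) then (1 : ℝ) else 0

theorem cE_nonneg (n : ℕ) (T : ℤ) : 0 ≤ cE Ev n T :=
  sum_nonneg fun _ _ => by split_ifs <;> norm_num

/-- **The energies of all the layers below the start cells.** -/
theorem Es_sum [DecidableEq ι] {l : ℝ} {G K : ℕ → ℤ → Matrix ι ι ℝ} (h : Tr l n G K)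
    (hM : ∀ k m a, Mx k m *ᵥ a = H483.mT l K k m a)
    (hEv : ∀ j x, Ev (j + 1) (ix (j + 1) x) → Ev j (ix j x)) : ∀ N ≤ n, ∀ T : ℤ,
    ∑ i ∈ range n, Es Mx x1 y w Ev D (i + 1) N T ≤ 5 * nsq w * cE Ev N T := by
  have top : ∀ N ≤ n, ∀ T : ℤ, Ev N T →
      ∑ i ∈ range n, Es Mx x1 y w Ev D (i + 1) N T ≤ 5 * nsq w * cE Ev N T := by
    intro N hN T hE
    have hT : Tr l N G K := ⟨h.l_pos, h.psG, h.pdK, h.sq, fun k hk => h.mean k (by omega)⟩
    have e1 : cE Ev N T = 2 ^ N := by
      unfold cE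
      have : ∀ x0 ∈ iv N T, (if Ev 0 (ix 0 x0) then (1 : ℝ) else 0) = 1 := by
        intro x0 hx
        rw [mem_iv] at hx
        rw [if_pos (Ev_down hEv x0 N (by rw [hx]; exact hE))]
      rw [sum_congr rfl this, sum_const, card_iv, nsmul_eq_mul, mul_one]
      push_cast
      rfl
    have e2 := En_sum (x1 := x1) (T := T) (M3 := ix N y) hT hM w
    rw [e1]
    calc ∑ i ∈ range n, Es Mx x1 y w Ev D (i + 1) N T
        = ∑ i ∈ (range n).filter (fun i => i + 1 + D ≤ N),
            En Mx N T x1 (ix N y) (i + 1) w := by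
          rw [sum_filter]
          exact sum_congr rfl fun i _ => Es_pos hE
      _ ≤ ∑ i ∈ range N, En Mx N T x1 (ix N y) (i + 1) w := by
          refine sum_le_sum_of_subset_of_nonneg (fun i hi => ?_) fun _ _ _ => En_nonneg _ _
          rw [mem_filter] at hi
          rw [mem_range]
          omega
      _ ≤ 5 * nsq w * 2 ^ N := by linarith
  intro N
  induction N with
  | zero =>
    intro hN T
    by_cases hE : Ev 0 T
    · exact top 0 hN T hE
    · have : ∀ i ∈ range n, Es Mx x1 y w Ev D (i + 1) 0 T = 0 := by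
        intro i _
        rw [Es, if_neg hE]
      rw [sum_eq_zero this]
      exact mul_nonneg (mul_nonneg (by norm_num) (nsq_nonneg _)) (cE_nonneg _ _)
  | succ N ih =>
    intro hN T
    by_cases hE : Ev (N + 1) T
    · exact top (N + 1) hN T hE
    · have e1 : cE Ev (N + 1) T = cE Ev N (2 * T) + cE Ev N (2 * T + 1) := by
        unfold cE
        rw [sum_half]
      rw [sum_congr rfl fun i _ => Es_neg hE, sum_add_distrib, e1, mul_add]
      exact add_le_add (ih (by omega) _) (ih (by omega) _)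

/-! ### The bad pairs -/

/-- the weight of a pair of scales -/
def wb (k i : ℕ) : ℝ :=
  if i < k then 4 * ((k - i : ℕ) : ℝ) ^ 2 / 2 ^ (k - i) else 8 * ((i + 1 - k : ℕ) : ℝ) ^ 2

theorem wb_nonneg (k i : ℕ) : 0 ≤ wb k i := by
  unfold wb
  split_ifs <;> positivity

theorem om_wb (sh : ℤ) (k i : ℕ) (y : ℤ) : om sh k i y * 2 ^ (k - (i + 1)) ≤ wb k i := by
  unfold H841.om wb
  by_cases h : i < k
  · rw [if_pos h, if_pos h]
    refine le_of_eq ?_
    have e : k - i = (k - (i + 1)) + 1 := by omega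
    have e4 : (4 : ℝ) ^ (k - i) = 2 ^ (k - i) * 2 ^ (k - i) := by rw [← mul_pow]; norm_num
    rw [e4]
    have e5 : (2 : ℝ) ^ (k - i) = 2 ^ (k - (i + 1)) * 2 := by rw [e, pow_succ]
    rw [mul_inv, e5]
    field_simp
    ring
  · rw [if_neg h, if_neg h]
    have e : k - (i + 1) = 0 := by omega
    rw [e, pow_zero, mul_one]
    split_ifs
    · positivity
    · exact le_rfl

/-- the multiplicity of the pairs of scales with different ancestors -/
def badA (n L D : ℕ) (b : ℕ → ℝ) (al : ℕ → ℤ → Prop) (y : ℤ) : ℝ :=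
  ∑ k ∈ range (n + 1), ∑ i ∈ range n,
    if i + 1 ≤ k + L ∧ k < i + 1 + D ∧ i + 1 + D ≤ n ∧ Nrb k (i + 1 + D) y ∧ al k y then
      wb k i * b i else 0

theorem badA_nonneg (n L D : ℕ) {b : ℕ → ℝ} (hb : ∀ i, 0 ≤ b i) (al : ℕ → ℤ → Prop) (y : ℤ) :
    0 ≤ badA n L D b al y := by
  refine sum_nonneg fun k _ => sum_nonneg fun i _ => ?_
  split_ifs
  · exact mul_nonneg (wb_nonneg _ _) (hb i)
  · exact le_rfl

/-- **The bad pairs against a function with small live fibres.** -/
theorem badA_sum (n L D : ℕ) (R : ℤ) {b : ℕ → ℝ} (hb : ∀ i, 0 ≤ b i) {al : ℕ → ℤ → Prop}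
    {g : ℤ → ℝ} (hg : ∀ y, 0 ≤ g y) {V : ℝ} (hV0 : 0 ≤ V)
    (hV : ∀ k ≤ n, ∀ y, al k y → ∑ y' ∈ iv k (ix k y), g y' ≤ V * 2 ^ k) :
    ∑ y ∈ iv n R, badA n L D b al y * g y ≤
      (4 * (D : ℝ) ^ 3 + 96) / 2 ^ D * (V * 2 ^ n) * ∑ i ∈ range n, b i := by
  unfold badA
  have e0 : ∑ y ∈ iv n R, (∑ k ∈ range (n + 1), ∑ i ∈ range n,
      if i + 1 ≤ k + L ∧ k < i + 1 + D ∧ i + 1 + D ≤ n ∧ Nrb k (i + 1 + D) y ∧ al k y then
        wb k i * b i else 0) * g y =
      ∑ i ∈ range n, ∑ k ∈ range (n + 1), ∑ y ∈ iv n R,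
        (if i + 1 ≤ k + L ∧ k < i + 1 + D ∧ i + 1 + D ≤ n ∧ Nrb k (i + 1 + D) y ∧ al k y then
          wb k i * b i * g y else 0) := by
    rw [sum_comm (s := range n)]
    rw [sum_congr rfl fun k _ => sum_comm (s := range n) (t := iv n R)]
    rw [sum_comm (s := range (n + 1)) (t := iv n R)]
    refine sum_congr rfl fun y _ => ?_
    rw [sum_mul]
    refine sum_congr rfl fun k _ => ?_
    rw [sum_mul]
    refine sum_congr rfl fun i _ => ?_
    split_ifs
    · rfl
    · rw [zero_mul]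
  rw [e0, mul_sum]
  refine sum_le_sum fun i hi => ?_
  rw [mem_range] at hi
  set c : ℝ := V * 2 ^ n / 2 ^ D * b i with hc
  have hc0 : 0 ≤ c := mul_nonneg (by positivity) (hb i)
  have step : ∀ k ∈ range (n + 1), ∑ y ∈ iv n R,
      (if i + 1 ≤ k + L ∧ k < i + 1 + D ∧ i + 1 + D ≤ n ∧ Nrb k (i + 1 + D) y ∧ al k y then
        wb k i * b i * g y else 0) ≤
      (if i < k ∧ k < i + 1 + D then 4 * (D : ℝ) ^ 2 * c else 0) +
      (if k ≤ i then 8 * c * ((((i - k : ℕ) : ℝ) + 1) ^ 2 / 2 ^ (i - k)) else 0) := by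
    intro k hk
    rw [mem_range] at hk
    have r1 : 0 ≤ (if i < k ∧ k < i + 1 + D then 4 * (D : ℝ) ^ 2 * c else 0) := by
      split_ifs
      · positivity
      · exact le_rfl
    have r2 : 0 ≤ (if k ≤ i then 8 * c * ((((i - k : ℕ) : ℝ) + 1) ^ 2 / 2 ^ (i - k)) else 0) := by
      split_ifs
      · positivity
      · exact le_rfl
    by_cases hcd : i + 1 ≤ k + L ∧ k < i + 1 + D ∧ i + 1 + D ≤ n
    · obtain ⟨h1, h2, h3⟩ := hcd
      have hst := strip (k := k) (i := i + 1 + D) (n := n) h2.le h3 hg hV0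
        (hV k (by omega)) R
      have e1 : ∑ y ∈ iv n R,
          (if i + 1 ≤ k + L ∧ k < i + 1 + D ∧ i + 1 + D ≤ n ∧ Nrb k (i + 1 + D) y ∧ al k y then
            wb k i * b i * g y else 0) =
          wb k i * b i * ∑ y ∈ iv n R, (if Nrb k (i + 1 + D) y ∧ al k y then g y else 0) := by
        rw [mul_sum]
        refine sum_congr rfl fun y _ => ?_
        by_cases h4 : Nrb k (i + 1 + D) y ∧ al k y
        · rw [if_pos ⟨h1, h2, h3, h4⟩, if_pos h4]
        · rw [if_neg fun h' => h4 h'.2.2.2, if_neg h4, mul_zero]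
      rw [e1]
      have e2 := mul_le_mul_of_nonneg_left hst (mul_nonneg (wb_nonneg k i) (hb i))
      refine e2.trans ?_
      have en : (2 : ℝ) ^ n = 2 ^ (n - (i + 1 + D)) * 2 ^ i * 2 * 2 ^ D := by
        rw [← pow_add, ← pow_succ, ← pow_add]
        congr 1
        omega
      by_cases hik : i < k
      · have e3 : wb k i * b i * (2 * 2 ^ (n - (i + 1 + D)) * (V * 2 ^ k)) =
            4 * ((k - i : ℕ) : ℝ) ^ 2 * c := by
          unfold wb
          rw [if_pos hik, hc, en]
          have ek : (2 : ℝ) ^ k = 2 ^ (k - i) * 2 ^ i := by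
            rw [← pow_add, Nat.sub_add_cancel hik.le]
          rw [ek]
          field_simp
        rw [e3, if_pos ⟨hik, h2⟩]
        have h5 : ((k - i : ℕ) : ℝ) ≤ D := by
          have : k - i ≤ D := by omega
          exact_mod_cast this
        have h6 : ((k - i : ℕ) : ℝ) ^ 2 ≤ (D : ℝ) ^ 2 := pow_le_pow_left₀ (Nat.cast_nonneg _) h5 2
        have h7 : 4 * ((k - i : ℕ) : ℝ) ^ 2 * c ≤ 4 * (D : ℝ) ^ 2 * c :=
          mul_le_mul_of_nonneg_right (by linarith) hc0
        linarith
      · have e3 : wb k i * b i * (2 * 2 ^ (n - (i + 1 + D)) * (V * 2 ^ k)) =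
            8 * c * ((((i - k : ℕ) : ℝ) + 1) ^ 2 / 2 ^ (i - k)) := by
          unfold wb
          have e6 : ((i + 1 - k : ℕ) : ℝ) = ((i - k : ℕ) : ℝ) + 1 := by
            have : i + 1 - k = i - k + 1 := by omega
            rw [this]
            push_cast
            ring
          rw [if_neg hik, hc, en, e6]
          have ei : (2 : ℝ) ^ i = 2 ^ (i - k) * 2 ^ k := by
            rw [← pow_add, Nat.sub_add_cancel (not_lt.1 hik)]
          rw [ei]
          field_simp
        rw [e3, if_pos (not_lt.1 hik)]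
        linarith
    · have z : ∑ y ∈ iv n R,
          (if i + 1 ≤ k + L ∧ k < i + 1 + D ∧ i + 1 + D ≤ n ∧ Nrb k (i + 1 + D) y ∧ al k y then
            wb k i * b i * g y else 0) = 0 := by
        refine sum_eq_zero fun y _ => if_neg fun h' => hcd ⟨h'.1, h'.2.1, h'.2.2.1⟩
      rw [z]
      linarith
  refine (sum_le_sum step).trans ?_
  rw [sum_add_distrib]
  have p1 : ∑ k ∈ range (n + 1), (if i < k ∧ k < i + 1 + D then 4 * (D : ℝ) ^ 2 * c else 0) ≤
      4 * (D : ℝ) ^ 3 * c := by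
    rw [← sum_filter, sum_const, nsmul_eq_mul]
    have h1 : (((range (n + 1)).filter fun k => i < k ∧ k < i + 1 + D).card : ℝ) ≤ D := by
      have h2 : ((range (n + 1)).filter fun k => i < k ∧ k < i + 1 + D) ⊆
          Ioo i (i + 1 + D) := by
        intro k hk
        rw [mem_filter] at hk
        rw [mem_Ioo]
        exact hk.2
      have h3 := card_le_card h2
      rw [Nat.card_Ioo] at h3
      have : i + 1 + D - i - 1 = D := by omega
      rw [this] at h3
      exact_mod_cast h3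
    have h4 : 0 ≤ 4 * (D : ℝ) ^ 2 * c := by positivity
    calc _ ≤ (D : ℝ) * (4 * (D : ℝ) ^ 2 * c) := mul_le_mul_of_nonneg_right h1 h4
      _ = _ := by ring
  have p2 : ∑ k ∈ range (n + 1),
      (if k ≤ i then 8 * c * ((((i - k : ℕ) : ℝ) + 1) ^ 2 / 2 ^ (i - k)) else 0) ≤ 96 * c := by
    calc ∑ k ∈ range (n + 1),
        (if k ≤ i then 8 * c * ((((i - k : ℕ) : ℝ) + 1) ^ 2 / 2 ^ (i - k)) else 0)
        = ∑ k ∈ (range (n + 1)).filter (fun k => k ≤ i),
          8 * c * ((((i - k : ℕ) : ℝ) + 1) ^ 2 / 2 ^ (i - k)) := (sum_filter _ _).symm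
      _ ≤ ∑ m ∈ Ico 0 (i + 1), 8 * c * (((m : ℝ) + 1) ^ 2 / 2 ^ m) := by
          rw [← sum_image (s := (range (n + 1)).filter (fun k => k ≤ i))
            (g := fun k : ℕ => i - k)
            (f := fun m : ℕ => 8 * c * ((((m : ℕ) : ℝ) + 1) ^ 2 / 2 ^ m))]
          · refine sum_le_sum_of_subset_of_nonneg ?_ fun m _ _ => by positivity
            intro m hm
            rw [mem_image] at hm
            obtain ⟨k, hk, rfl⟩ := hm
            rw [mem_Ico]
            omega
          · intro x hx z hz hxz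
            simp only [coe_filter, mem_range, Set.mem_ofPred_eq] at hx hz
            simp only at hxz
            omega
      _ ≤ 8 * c * 12 := by
          rw [← mul_sum]
          refine mul_le_mul_of_nonneg_left ?_ (by positivity)
          have := ser2_Ico 0 (i + 1)
          norm_num at this ⊢
          exact this
      _ = 96 * c := by ring
  have e7 : (4 * (D : ℝ) ^ 3 + 96) / 2 ^ D * (V * 2 ^ n) * b i =
      4 * (D : ℝ) ^ 3 * c + 96 * c := by
    rw [hc]
    ring
  rw [e7]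
  exact add_le_add p1 p2

/-- the pairs of scales with a coarse delay -/
theorem om_coarse (n D : ℕ) (sh y : ℤ) {E : ℕ → ℝ} (hE : ∀ i, 0 ≤ E i) :
    ∑ k ∈ range (n + 1), ∑ i ∈ range n,
      (if i + 1 + D ≤ k then om sh k i y * 2 ^ (k - (i + 1)) * E i else 0) ≤
      4 * (((D : ℝ) + 2) ^ 2 + 2) / 2 ^ D * ∑ i ∈ range n, E i := by
  rw [sum_comm, mul_sum]
  refine sum_le_sum fun i _ => ?_
  calc ∑ k ∈ range (n + 1),
        (if i + 1 + D ≤ k then om sh k i y * 2 ^ (k - (i + 1)) * E i else 0)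
      ≤ ∑ k ∈ range (n + 1), (if i + 1 + D ≤ k then
          2 * E i * ((((k - (i + 1) : ℕ) : ℝ) + 1) ^ 2 / 2 ^ (k - (i + 1))) else 0) := by
        refine sum_le_sum fun k _ => ?_
        by_cases h : i + 1 + D ≤ k
        · rw [if_pos h, if_pos h]
          refine (mul_le_mul_of_nonneg_right (om_wb sh k i y) (hE i)).trans (le_of_eq ?_)
          unfold wb
          rw [if_pos (by omega)]
          have e : k - i = (k - (i + 1)) + 1 := by omega
          rw [e, pow_succ]
          push_cast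
          field_simp
          ring
        · rw [if_neg h, if_neg h]
    _ = ∑ k ∈ (range (n + 1)).filter (fun k => i + 1 + D ≤ k),
          2 * E i * ((((k - (i + 1) : ℕ) : ℝ) + 1) ^ 2 / 2 ^ (k - (i + 1))) :=
        (sum_filter _ _).symm
    _ ≤ ∑ m ∈ Ico D (n + 1), 2 * E i * (((m : ℝ) + 1) ^ 2 / 2 ^ m) := by
        rw [← sum_image (s := (range (n + 1)).filter (fun k => i + 1 + D ≤ k))
          (g := fun k : ℕ => k - (i + 1))
          (f := fun m : ℕ => 2 * E i * ((((m : ℕ) : ℝ) + 1) ^ 2 / 2 ^ m))]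
        · refine sum_le_sum_of_subset_of_nonneg ?_ fun m _ _ =>
            mul_nonneg (mul_nonneg (by norm_num) (hE i)) (by positivity)
          intro m hm
          rw [mem_image] at hm
          obtain ⟨k, hk, rfl⟩ := hm
          rw [mem_filter, mem_range] at hk
          rw [mem_Ico]
          omega
        · intro x hx z hz hxz
          simp only [coe_filter, mem_range, Set.mem_ofPred_eq] at hx hz
          simp only at hxz
          omega
    _ ≤ 2 * E i * (2 * (((D : ℝ) + 2) ^ 2 + 2) / 2 ^ D) := by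
        rw [← mul_sum]
        exact mul_le_mul_of_nonneg_left (ser2_Ico D (n + 1)) (mul_nonneg (by norm_num) (hE i))
    _ = 4 * (((D : ℝ) + 2) ^ 2 + 2) / 2 ^ D * E i := by ring

/-! ### The deviation, one point -/

/-- different ancestors: the point is near the border -/
theorem Nrb_of {sh : ℤ} {k j : ℕ} {p : ℤ} (hp : p = st sh k y ∨ p = st sh k y + 2 ^ k)
    (h : ix j p ≠ ix j y) : Nrb k j y := by
  obtain ⟨h1, h2⟩ := st_bd sh k y
  have hk : (0 : ℤ) < 2 ^ k := by positivity
  unfold H841.Nrb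
  by_contra hc
  push Not at hc
  obtain ⟨c1, c2⟩ := hc
  apply h
  rcases hp with rfl | rfl
  · exact H841.ix_of (by linarith) (by linarith [(H841.ix_bd j y).2])
  · exact H841.ix_of (by linarith [(H841.ix_bd j y).1]) (by linarith)

/-- the signed layer at a point with the same ancestor -/
theorem Ns_near (ho : o = 1 ∨ o = -1) (hs1 : ∀ k a b, |s k a b| ≤ 1)
    (hs : ∀ i < n, ∀ x0 p, s (i + 1) (ix (i + 1) x0) (ix (i + 1) p) ≠ 0 →
      i + 1 + D ≤ n ∧ (ix (i + 1 + D) p = ix (i + 1 + D) y →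
        Ev (i + 1 + D) (ix (i + 1 + D) x0)))
    {W : ℤ → ℝ} {e : ℝ} (he : 0 ≤ e) {k : ℕ} (hW0 : ∀ x, 0 ≤ W x)
    (hW : ∀ j, ∑ x ∈ iv k j, W x ≤ e * 2 ^ k) {i : ℕ} (hi : i < n) {p : ℤ}
    (hp : ix (i + 1 + D) p = ix (i + 1 + D) y) (w : ι → ℝ) :
    ∑ x0 ∈ iv n T, W x0 * Ns Mx o x1 s (i + 1) x0 p w ≤
      e * 2 ^ (k - (i + 1)) * Es Mx x1 y w Ev D (i + 1) n T := by
  by_cases hn : i + 1 + D ≤ n
  · refine (sum_le_sum fun x0 _ => ?_).trans
      (Es_near (Mx := Mx) (x1 := x1) (w := w) (Ev := Ev) ho he hW0 hW hp n hn T)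
    by_cases h0 : s (i + 1) (ix (i + 1) x0) (ix (i + 1) p) = 0
    · have : Ns Mx o x1 s (i + 1) x0 p w = 0 := by
        unfold Ns
        rw [h0]
        ring
      rw [this, mul_zero]
      split_ifs
      · exact mul_nonneg (hW0 _) (Nn_nonneg _ _ _ _ _ _ _)
      · exact le_rfl
    · rw [if_pos ((hs i hi x0 p h0).2 hp)]
      exact mul_le_mul_of_nonneg_left (Ns_le hs1 _ _ _ _) (hW0 x0)
  · have z : ∑ x0 ∈ iv n T, W x0 * Ns Mx o x1 s (i + 1) x0 p w = 0 := by
      refine sum_eq_zero fun x0 _ => ?_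
      have h0 : s (i + 1) (ix (i + 1) x0) (ix (i + 1) p) = 0 := by
        by_contra h
        exact hn (hs i hi x0 p h).1
      unfold Ns
      rw [h0]
      ring
    rw [z]
    exact mul_nonneg (by positivity) (Es_nonneg _ _ _)

/-- the bound of the deviation of a delayed generation -/
def RD (e : ℝ) (L D : ℕ) (w : ι → ℝ) (c q f : ℝ) : ℝ :=
  2 * e * ((24 + 8 * (L : ℝ) ^ 3) * (5 * nsq w * c) +
    4 * (((D : ℝ) + 2) ^ 2 + 2) / 2 ^ D * q + f * nsq w)

/-- **(S1) for a delayed generation, one point.** -/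
theorem S1D [DecidableEq ι] {l : ℝ} {G K : ℕ → ℤ → Matrix ι ι ℝ} (h : Tr l n G K)
    (hM : ∀ k m a, Mx k m *ᵥ a = H483.mT l K k m a) (ho : o = 1 ∨ o = -1)
    (hs1 : ∀ k a b, |s k a b| ≤ 1) (hEv : ∀ j x, Ev (j + 1) (ix (j + 1) x) → Ev j (ix j x))
    (hs : ∀ i < n, ∀ x0 p, s (i + 1) (ix (i + 1) x0) (ix (i + 1) p) ≠ 0 →
      i + 1 + D ≤ n ∧ (ix (i + 1 + D) p = ix (i + 1 + D) y →
        Ev (i + 1 + D) (ix (i + 1 + D) x0)))
    {q : ℝ} (hX : ∑ i ∈ range n, En Mx n T x1 M3 (i + 1) w ≤ q)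
    {W : ℕ → ℤ → ℝ} {e : ℝ} (he : 0 ≤ e) (hW0 : ∀ k x0, 0 ≤ W k x0)
    (hW : ∀ k ≤ n, ∀ j, ∑ x0 ∈ iv k j, W k x0 ≤ e * 2 ^ k)
    {θ : ℕ → ℤ → ℝ} (hθ0 : ∀ k m, 0 ≤ θ k m)
    (hθ : ∀ k m a, nsq (Mx k m *ᵥ a) ≤ θ k m * nsq a) (al : ℕ → ℤ → Prop) (L : ℕ) (sh : ℤ)
    (hy : y ∈ iv n M3) (hal : ∀ k ≤ n, ¬ al k y → ∀ x0, W k x0 = 0) :
    ∑ k ∈ range (n + 1), ∑ x0 ∈ iv n T, W k x0 *
        nsq ((Rs Mx o x1 s n sh k x0 (ix k (y - sh)) - Rm Mx o x1 s n k x0 y) *ᵥ w) ≤
      RD e L D w (cE Ev n T) q (farA n L (ep θ n T x1 M3) al y +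
        badA n L D (ep θ n T x1 M3) al y) := by
  set b : ℕ → ℝ := ep θ n T x1 M3 with hb
  have hb0 : ∀ i, 0 ≤ b i := fun i => ep_nonneg hθ0 n T x1 M3 i
  set S : ℕ → ℝ := fun i => Es Mx x1 y w Ev D (i + 1) n T with hS
  set E : ℕ → ℝ := fun i => En Mx n T x1 M3 (i + 1) w with hE
  have hS0 : ∀ i, 0 ≤ S i := fun i => Es_nonneg _ _ _
  have hE0 : ∀ i, 0 ≤ E i := fun i => En_nonneg _ _
  have hEb : ∀ i, E i ≤ b i * nsq w := fun i => En_th hθ (i + 1) w
  have hy' : ix n y = M3 := mem_iv.1 hy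
  set N : ℕ → ℕ → ℝ := fun k i => if al k y then
    (if i + 1 ≤ k + L then e * 2 ^ (k - (i + 1)) * S i +
      (if i + 1 + D ≤ n ∧ Nrb k (i + 1 + D) y then e * 2 ^ (k - (i + 1)) * E i else 0)
    else e * 2 ^ (k - (i + 1)) * E i) else 0 with hN
  -- the full bound of a layer
  have full : ∀ k ≤ n, ∀ i < n, ∀ p, p = st sh k y ∨ p = st sh k y + 2 ^ k →
      ∑ x0 ∈ iv n T, W k x0 * Ns Mx o x1 s (i + 1) x0 p w ≤ e * 2 ^ (k - (i + 1)) * E i := by
    intro k hk i hi p hp
    obtain ⟨t1, t2⟩ := st_bd sh k y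
    have hk0 : (0 : ℤ) < 2 ^ k := by positivity
    obtain ⟨a1, a2⟩ := near_root hk (p := p) (y := y)
      (by rcases hp with rfl | rfl <;> linarith) (by rcases hp with rfl | rfl <;> linarith)
    rw [hy'] at a1 a2
    refine (sum_le_sum fun x0 _ => mul_le_mul_of_nonneg_left (Ns_le hs1 _ _ _ _)
      (hW0 k x0)).trans ?_
    exact wt_Nn (Mx := Mx) (x1 := x1) (T := T) ho (hW0 k) (hW k hk) (i := i + 1) (by omega) a1 a2 w
  have key := S1N (Mx := Mx) (o := o) (x1 := x1) (T := T) (s := s) (n := n) hW0 sh y w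
    (N := N) (by
      intro k hk i hi p hp
      by_cases hak : al k y
      · simp only [hN, if_pos hak]
        by_cases hL : i + 1 ≤ k + L
        · rw [if_pos hL]
          by_cases hanc : ix (i + 1 + D) p = ix (i + 1 + D) y
          · have h1 := Ns_near (T := T) (Mx := Mx) (x1 := x1) ho hs1 hs he (hW0 k) (hW k hk) hi
              hanc w
            have h2 : 0 ≤ (if i + 1 + D ≤ n ∧ Nrb k (i + 1 + D) y then
                e * 2 ^ (k - (i + 1)) * E i else 0) := by
              split_ifs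
              · exact mul_nonneg (by positivity) (hE0 i)
              · exact le_rfl
            simp only [hS]
            linarith
          · by_cases hn : i + 1 + D ≤ n
            · rw [if_pos ⟨hn, Nrb_of hp hanc⟩]
              have h1 := full k hk i hi p hp
              have h2 : 0 ≤ e * 2 ^ (k - (i + 1)) * S i := mul_nonneg (by positivity) (hS0 i)
              linarith
            · have z : ∑ x0 ∈ iv n T, W k x0 * Ns Mx o x1 s (i + 1) x0 p w = 0 := by
                refine sum_eq_zero fun x0 _ => ?_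
                have h0 : s (i + 1) (ix (i + 1) x0) (ix (i + 1) p) = 0 := by
                  by_contra h'
                  exact hn (hs i hi x0 p h').1
                unfold Ns
                rw [h0]
                ring
              rw [z, if_neg fun h' => hn h'.1, add_zero]
              exact mul_nonneg (by positivity) (hS0 i)
        · rw [if_neg hL]
          exact full k hk i hi p hp
      · simp only [hN, if_neg hak]
        refine le_of_eq (sum_eq_zero fun x0 _ => ?_)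
        rw [hal k hk hak x0, zero_mul])
  refine key.trans ?_
  -- the sums over the scales
  have term : ∀ k i, om sh k i y * N k i ≤ e * (
      (if i + 1 ≤ k + L then om sh k i y * 2 ^ (k - (i + 1)) * S i else 0) +
      (if i + 1 + D ≤ k then om sh k i y * 2 ^ (k - (i + 1)) * E i else 0) +
      ((if i + 1 ≤ k + L ∧ k < i + 1 + D ∧ i + 1 + D ≤ n ∧ Nrb k (i + 1 + D) y ∧ al k y then
        wb k i * b i else 0) +
      (if k + L ≤ i ∧ al k y then om sh k i y * b i else 0)) * nsq w) := by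
    intro k i
    have ho0 := om_nonneg sh k i y
    have hP : (0 : ℝ) < 2 ^ (k - (i + 1)) := by positivity
    have n0 := nsq_nonneg w
    have c1 : 0 ≤ (if i + 1 ≤ k + L then om sh k i y * 2 ^ (k - (i + 1)) * S i else 0) := by
      split_ifs
      · exact mul_nonneg (by positivity) (hS0 i)
      · exact le_rfl
    have c2 : 0 ≤ (if i + 1 + D ≤ k then om sh k i y * 2 ^ (k - (i + 1)) * E i else 0) := by
      split_ifs
      · exact mul_nonneg (by positivity) (hE0 i)
      · exact le_rfl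
    have c3 : 0 ≤ (if i + 1 ≤ k + L ∧ k < i + 1 + D ∧ i + 1 + D ≤ n ∧ Nrb k (i + 1 + D) y ∧
        al k y then wb k i * b i else 0) := by
      split_ifs
      · exact mul_nonneg (wb_nonneg _ _) (hb0 i)
      · exact le_rfl
    have c4 : 0 ≤ (if k + L ≤ i ∧ al k y then om sh k i y * b i else 0) := by
      split_ifs
      · exact mul_nonneg ho0 (hb0 i)
      · exact le_rfl
    by_cases hak : al k y
    · simp only [hN, if_pos hak]
      by_cases hL : i + 1 ≤ k + L
      · rw [if_pos hL, if_pos hL]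
        by_cases hb1 : i + 1 + D ≤ n ∧ Nrb k (i + 1 + D) y
        · rw [if_pos hb1]
          by_cases hk : i + 1 + D ≤ k
          · rw [if_pos hk]
            have : 0 ≤ ((if i + 1 ≤ k + L ∧ k < i + 1 + D ∧ i + 1 + D ≤ n ∧
                Nrb k (i + 1 + D) y ∧ al k y then wb k i * b i else 0) +
                (if k + L ≤ i ∧ al k y then om sh k i y * b i else 0)) * nsq w :=
              mul_nonneg (add_nonneg c3 c4) n0
            have h2 := mul_nonneg he this
            calc om sh k i y * (e * 2 ^ (k - (i + 1)) * S i + e * 2 ^ (k - (i + 1)) * E i)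
                = e * (om sh k i y * 2 ^ (k - (i + 1)) * S i +
                    om sh k i y * 2 ^ (k - (i + 1)) * E i) := by ring
              _ ≤ _ := by
                rw [mul_add e (_ + _)]
                linarith
          · rw [if_neg hk, if_pos ⟨hL, by omega, hb1.1, hb1.2, hak⟩, if_neg (fun h' => by omega)]
            have h1 : om sh k i y * 2 ^ (k - (i + 1)) * E i ≤ wb k i * b i * nsq w := by
              calc _ ≤ wb k i * (b i * nsq w) :=
                    mul_le_mul (om_wb sh k i y) (hEb i) (hE0 i) (wb_nonneg _ _)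
                _ = _ := by ring
            have h2 := mul_le_mul_of_nonneg_left h1 he
            calc om sh k i y * (e * 2 ^ (k - (i + 1)) * S i + e * 2 ^ (k - (i + 1)) * E i)
                = e * (om sh k i y * 2 ^ (k - (i + 1)) * S i) +
                    e * (om sh k i y * 2 ^ (k - (i + 1)) * E i) := by ring
              _ ≤ e * (om sh k i y * 2 ^ (k - (i + 1)) * S i) + e * (wb k i * b i * nsq w) := by
                linarith
              _ = _ := by ring
        · rw [if_neg hb1, add_zero]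
          have h3 : 0 ≤ e * ((if i + 1 + D ≤ k then om sh k i y * 2 ^ (k - (i + 1)) * E i
              else 0) + ((if i + 1 ≤ k + L ∧ k < i + 1 + D ∧ i + 1 + D ≤ n ∧
                Nrb k (i + 1 + D) y ∧ al k y then wb k i * b i else 0) +
                (if k + L ≤ i ∧ al k y then om sh k i y * b i else 0)) * nsq w) :=
            mul_nonneg he (add_nonneg c2 (mul_nonneg (add_nonneg c3 c4) n0))
          calc om sh k i y * (e * 2 ^ (k - (i + 1)) * S i)
              = e * (om sh k i y * 2 ^ (k - (i + 1)) * S i) := by ring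
            _ ≤ _ := by
              rw [add_assoc (om sh k i y * 2 ^ (k - (i + 1)) * S i), mul_add e (om sh k i y *
                2 ^ (k - (i + 1)) * S i)]
              linarith
      · rw [if_neg hL, if_neg hL, if_pos (⟨by omega, hak⟩ : k + L ≤ i ∧ al k y)]
        have e2 : k - (i + 1) = 0 := by omega
        have h1 : om sh k i y * E i ≤ om sh k i y * b i * nsq w := by
          calc _ ≤ om sh k i y * (b i * nsq w) := mul_le_mul_of_nonneg_left (hEb i) ho0
            _ = _ := by ring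
        have h2 := mul_le_mul_of_nonneg_left h1 he
        have h3 := mul_nonneg he (add_nonneg c2 (mul_nonneg c3 n0))
        calc om sh k i y * (e * 2 ^ (k - (i + 1)) * E i)
            = e * (om sh k i y * E i) := by rw [e2, pow_zero]; ring
          _ ≤ e * (om sh k i y * b i * nsq w) := h2
          _ ≤ e * (om sh k i y * b i * nsq w) + e * ((if i + 1 + D ≤ k then
                om sh k i y * 2 ^ (k - (i + 1)) * E i else 0) +
                (if i + 1 ≤ k + L ∧ k < i + 1 + D ∧ i + 1 + D ≤ n ∧ Nrb k (i + 1 + D) y ∧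
                  al k y then wb k i * b i else 0) * nsq w) := by linarith
          _ = _ := by ring
    · simp only [hN, if_neg hak, mul_zero]
      exact mul_nonneg he (add_nonneg (add_nonneg c1 c2) (mul_nonneg (add_nonneg c3 c4) n0))
  have tot : ∑ k ∈ range (n + 1), ∑ i ∈ range n, om sh k i y * N k i ≤ e * (
      (24 + 8 * (L : ℝ) ^ 3) * (5 * nsq w * cE Ev n T) +
      4 * (((D : ℝ) + 2) ^ 2 + 2) / 2 ^ D * q +
      (badA n L D b al y + farA n L b al y) * nsq w) := by
    refine (sum_le_sum fun k _ => sum_le_sum fun i _ => term k i).trans ?_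
    simp only [← mul_sum, sum_add_distrib, ← sum_mul]
    refine mul_le_mul_of_nonneg_left (add_le_add (add_le_add ?_ ?_) ?_) he
    · refine (near_E n L sh y hS0).trans ?_
      refine mul_le_mul_of_nonneg_left ?_ (by positivity)
      exact Es_sum h hM hEv n le_rfl T
    · refine (om_coarse n D sh y hE0).trans ?_
      exact mul_le_mul_of_nonneg_left hX (by positivity)
    · refine mul_le_mul_of_nonneg_right (add_le_add le_rfl ?_) (nsq_nonneg w)
      exact H876.om_farA n L sh hb0 al y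
  unfold RD
  refine (mul_le_mul_of_nonneg_left tot (by norm_num : (0 : ℝ) ≤ 2)).trans (le_of_eq ?_)
  ring

end

end Vale.Agent.P141.H690
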