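import Vale.Agent.P141.H876.WinS

/-!
# P141, line (A): the deviation of the shifted slot with signed layer numbers

Letters of `H841.Lay`, `H876.WinS`.

* `Ns` : the square of a signed layer, `dev_leS` : `H841.dev_le` with the signs kept;
* `dev_sumN`, `S1N` : the deviation by ANY bounds `N k i` of the signed layers.
-/

namespace Vale.Agent.P141.H690

open Finset Matrix
open Vale.Agent.P141.PL (iv ix hs mem_iv ix_ix)
open Vale.Agent.P141.H922 (ck)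
open Vale.Agent.P141.H43 (avv nsq nsq_nonneg)
open Vale.Agent.P141.H841 (Lm Rm Rs Nn Nn_nonneg om om_nonneg st st_bd nsq_add_le nsq_smul gl
  Lm_vec Rm_vec Rs_vec nsq_sum_le sum_inv_sq lay_fine lay_coarse)

noncomputable section

variable {ι : Type*} [Fintype ι]

/-- the square of a signed layer at the point `p` -/
def Ns (Mx : ℕ → ℤ → Matrix ι ι ℝ) (o x1 : ℤ) (s : ℕ → ℤ → ℤ → ℝ) (i : ℕ) (x0 p : ℤ)
    (w : ι → ℝ) : ℝ :=
  s i (ix i x0) (ix i p) ^ 2 * Nn Mx o x1 i x0 p w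

theorem Ns_nonneg (Mx : ℕ → ℤ → Matrix ι ι ℝ) (o x1 : ℤ) (s : ℕ → ℤ → ℤ → ℝ) (i : ℕ)
    (x0 p : ℤ) (w : ι → ℝ) : 0 ≤ Ns Mx o x1 s i x0 p w :=
  mul_nonneg (sq_nonneg _) (Nn_nonneg _ _ _ _ _ _ _)

variable {Mx : ℕ → ℤ → Matrix ι ι ℝ} {o x1 T : ℤ} {s : ℕ → ℤ → ℤ → ℝ} {n : ℕ}

theorem nsq_gl (i : ℕ) (x0 p : ℤ) (w : ι → ℝ) :
    nsq (gl Mx o x1 s i x0 w (ix i p)) = Ns Mx o x1 s i x0 p w := by
  unfold H841.gl Ns H841.Nn H922.ck
  rw [nsq_smul, mul_pow, sq (hs i x0), PL.hs_mul_self, mul_one]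

theorem Lm_eqS (i : ℕ) (x0 p : ℤ) (w : ι → ℝ) :
    nsq (Lm Mx o x1 s i x0 p *ᵥ w) = Ns Mx o x1 s i x0 p w := by
  rw [Lm_vec, nsq_smul, sq, PL.hs_mul_self, one_mul]
  exact nsq_gl i x0 p w

theorem Ns_le (hs1 : ∀ k a b, |s k a b| ≤ 1) (i : ℕ) (x0 p : ℤ) (w : ι → ℝ) :
    Ns Mx o x1 s i x0 p w ≤ Nn Mx o x1 i x0 p w := by
  have h2 : s i (ix i x0) (ix i p) ^ 2 ≤ 1 := by
    rw [← sq_abs]
    exact pow_le_one₀ (abs_nonneg _) (hs1 i (ix i x0) (ix i p))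
  calc _ ≤ 1 * _ := mul_le_mul_of_nonneg_right h2 (Nn_nonneg _ _ _ _ _ _ _)
    _ = _ := one_mul _

/-- **The deviation of the slot on the shifted grid, one point, signed layers.** -/
theorem dev_leS (n : ℕ) (sh : ℤ) {k : ℕ} (hk : k ≤ n) (x0 y : ℤ) (w : ι → ℝ) :
    nsq ((Rs Mx o x1 s n sh k x0 (ix k (y - sh)) - Rm Mx o x1 s n k x0 y) *ᵥ w) ≤
      ∑ i ∈ range n, om sh k i y * (Ns Mx o x1 s (i + 1) x0 (st sh k y) w +
        Ns Mx o x1 s (i + 1) x0 (st sh k y + 2 ^ k) w) := by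
  set a := st sh k y with ha
  obtain ⟨hy1, hy2⟩ := st_bd sh k y
  rw [← ha] at hy1 hy2
  set A : ℕ → ι → ℝ := fun i => ((2 : ℝ) ^ k)⁻¹ • ∑ p ∈ Ico a (a + 2 ^ k),
    hs (i + 1) p • gl Mx o x1 s (i + 1) x0 w (ix (i + 1) p) with hA
  set B : ℕ → ι → ℝ := fun i => hs (i + 1) y • gl Mx o x1 s (i + 1) x0 w (ix (i + 1) y) with hB
  set N : ℕ → ℝ := fun i => Ns Mx o x1 s (i + 1) x0 a w +
    Ns Mx o x1 s (i + 1) x0 (a + 2 ^ k) w with hN
  have hN0 : ∀ i, 0 ≤ N i := fun i =>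
    add_nonneg (Ns_nonneg _ _ _ _ _ _ _ _) (Ns_nonneg _ _ _ _ _ _ _ _)
  have e1 : (Rs Mx o x1 s n sh k x0 (ix k (y - sh)) - Rm Mx o x1 s n k x0 y) *ᵥ w =
      ∑ i ∈ range k, A i + ∑ i ∈ Ico k n, (A i - B i) := by
    rw [sub_mulVec, Rs_vec, Rm_vec, sum_sub_distrib, ← add_sub_assoc]
    congr 1
    rw [range_eq_Ico, range_eq_Ico, sum_Ico_consecutive _ (Nat.zero_le k) hk]
  rw [e1]
  have f1 : nsq (∑ i ∈ range k, A i) ≤
      2 * ∑ i ∈ range k, ((k - i : ℕ) : ℝ) ^ 2 * (2 * ((4 : ℝ) ^ (k - i))⁻¹ * N i) := by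
    refine (nsq_sum_le (range k) (fun i => ((k - i : ℕ) : ℝ)) (fun i hi => ?_) A).trans ?_
    · rw [mem_range] at hi
      have : 0 < k - i := by omega
      exact_mod_cast this
    · have h1 : ∑ i ∈ range k, (((k - i : ℕ) : ℝ))⁻¹ ^ 2 ≤ 2 := by
        have h2 := sum_inv_sq k
        rw [← sum_range_reflect] at h2
        refine le_trans (le_of_eq (sum_congr rfl fun i hi => ?_)) h2
        rw [mem_range] at hi
        have : ((k - i : ℕ) : ℝ) = ((k - 1 - i : ℕ) : ℝ) + 1 := by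
          have : k - i = k - 1 - i + 1 := by omega
          rw [this]; push_cast; ring
        rw [this]
      refine mul_le_mul h1 (sum_le_sum fun i hi => ?_) (sum_nonneg fun i _ =>
        mul_nonneg (by positivity) (nsq_nonneg _)) (by norm_num)
      rw [mem_range] at hi
      refine mul_le_mul_of_nonneg_left ?_ (by positivity)
      refine (lay_fine hi a _).trans (mul_le_mul_of_nonneg_left ?_ (by positivity))
      exact add_le_add (nsq_gl _ _ _ _).le (nsq_gl _ _ _ _).le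
  have f2 : nsq (∑ i ∈ Ico k n, (A i - B i)) ≤
      2 * ∑ i ∈ Ico k n, ((i + 1 - k : ℕ) : ℝ) ^ 2 *
        ((if ix i a = ix i (a + 2 ^ k) then 0 else 2) * N i) := by
    refine (nsq_sum_le (Ico k n) (fun i => ((i + 1 - k : ℕ) : ℝ)) (fun i hi => ?_) _).trans ?_
    · rw [mem_Ico] at hi
      have : 0 < i + 1 - k := by omega
      exact_mod_cast this
    · have h1 : ∑ i ∈ Ico k n, (((i + 1 - k : ℕ) : ℝ))⁻¹ ^ 2 ≤ 2 := by
        have h2 := sum_inv_sq (n - k)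
        rw [sum_Ico_eq_sum_range]
        refine le_trans (le_of_eq (sum_congr rfl fun i _ => ?_)) h2
        have : ((k + i + 1 - k : ℕ) : ℝ) = (i : ℝ) + 1 := by
          have : k + i + 1 - k = i + 1 := by omega
          rw [this]; push_cast; ring
        rw [this]
      refine mul_le_mul h1 (sum_le_sum fun i hi => ?_) (sum_nonneg fun i _ =>
        mul_nonneg (by positivity) (nsq_nonneg _)) (by norm_num)
      rw [mem_Ico] at hi
      refine mul_le_mul_of_nonneg_left ?_ (by positivity)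
      refine (lay_coarse hi.1 hy1 hy2 _).trans (mul_le_mul_of_nonneg_left ?_ ?_)
      · exact add_le_add (nsq_gl _ _ _ _).le (nsq_gl _ _ _ _).le
      · split_ifs <;> norm_num
  refine (nsq_add_le _ _).trans ?_
  have e2 : ∑ i ∈ range n, om sh k i y * N i =
      ∑ i ∈ range k, om sh k i y * N i + ∑ i ∈ Ico k n, om sh k i y * N i := by
    rw [range_eq_Ico, range_eq_Ico, sum_Ico_consecutive _ (Nat.zero_le k) hk]
  refine le_trans ?_ (le_of_eq e2.symm)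
  refine add_le_add ?_ ?_
  · calc 2 * nsq (∑ i ∈ range k, A i) ≤ 2 * (2 * ∑ i ∈ range k, ((k - i : ℕ) : ℝ) ^ 2 *
          (2 * ((4 : ℝ) ^ (k - i))⁻¹ * N i)) := by linarith
      _ = ∑ i ∈ range k, om sh k i y * N i := by
        rw [mul_sum, mul_sum]
        refine sum_congr rfl fun i hi => ?_
        rw [mem_range] at hi
        unfold H841.om
        rw [if_pos hi]
        ring
  · calc 2 * nsq (∑ i ∈ Ico k n, (A i - B i)) ≤ 2 * (2 * ∑ i ∈ Ico k n,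
          ((i + 1 - k : ℕ) : ℝ) ^ 2 * ((if ix i a = ix i (a + 2 ^ k) then 0 else 2) * N i)) := by
            linarith
      _ = ∑ i ∈ Ico k n, om sh k i y * N i := by
        rw [mul_sum, mul_sum]
        refine sum_congr rfl fun i hi => ?_
        have hi' := (mem_Ico.1 hi).1
        unfold H841.om
        rw [if_neg (not_lt.2 hi'), ← ha]
        by_cases hc : ix i a = ix i (a + 2 ^ k)
        · rw [if_pos hc, if_pos hc]
          ring
        · rw [if_neg hc, if_neg hc]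
          ring

/-- one point `y`, one scale, any bounds of the signed layers at the two ends -/
theorem dev_sumN {W : ℤ → ℝ} (hW0 : ∀ x, 0 ≤ W x) {k : ℕ} (hk : k ≤ n) (sh y : ℤ) (w : ι → ℝ)
    {N : ℕ → ℝ}
    (hN : ∀ i < n, ∑ x0 ∈ iv n T, W x0 * Ns Mx o x1 s (i + 1) x0 (st sh k y) w ≤ N i)
    (hN' : ∀ i < n, ∑ x0 ∈ iv n T, W x0 * Ns Mx o x1 s (i + 1) x0 (st sh k y + 2 ^ k) w ≤ N i) :
    ∑ x0 ∈ iv n T, W x0 *
        nsq ((Rs Mx o x1 s n sh k x0 (ix k (y - sh)) - Rm Mx o x1 s n k x0 y) *ᵥ w) ≤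
      2 * ∑ i ∈ range n, om sh k i y * N i := by
  have e1 : ∀ x0 ∈ iv n T, W x0 *
      nsq ((Rs Mx o x1 s n sh k x0 (ix k (y - sh)) - Rm Mx o x1 s n k x0 y) *ᵥ w) ≤
      ∑ i ∈ range n, om sh k i y * (W x0 * Ns Mx o x1 s (i + 1) x0 (st sh k y) w +
        W x0 * Ns Mx o x1 s (i + 1) x0 (st sh k y + 2 ^ k) w) := by
    intro x0 _
    refine (mul_le_mul_of_nonneg_left (dev_leS n sh hk x0 y w) (hW0 x0)).trans (le_of_eq ?_)
    rw [mul_sum]
    exact sum_congr rfl fun i _ => by ring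
  refine (sum_le_sum e1).trans ?_
  rw [sum_comm, mul_sum]
  refine sum_le_sum fun i hi => ?_
  rw [mem_range] at hi
  rw [← mul_sum, sum_add_distrib]
  have c1 := hN i hi
  have c2 := hN' i hi
  refine (mul_le_mul_of_nonneg_left (add_le_add c1 c2) (om_nonneg sh k i y)).trans (le_of_eq ?_)
  ring

/-- **(S1), one point, any bounds `N k i` of the signed layers.** -/
theorem S1N {W : ℕ → ℤ → ℝ} (hW0 : ∀ k x0, 0 ≤ W k x0) (sh y : ℤ) (w : ι → ℝ)
    {N : ℕ → ℕ → ℝ}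
    (hN : ∀ k ≤ n, ∀ i < n, ∀ p, p = st sh k y ∨ p = st sh k y + 2 ^ k →
      ∑ x0 ∈ iv n T, W k x0 * Ns Mx o x1 s (i + 1) x0 p w ≤ N k i) :
    ∑ k ∈ range (n + 1), ∑ x0 ∈ iv n T, W k x0 *
        nsq ((Rs Mx o x1 s n sh k x0 (ix k (y - sh)) - Rm Mx o x1 s n k x0 y) *ᵥ w) ≤
      2 * ∑ k ∈ range (n + 1), ∑ i ∈ range n, om sh k i y * N k i := by
  rw [mul_sum]
  refine sum_le_sum fun k hk => ?_
  rw [mem_range] at hk
  exact dev_sumN (hW0 k) (by omega) sh y w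
    (fun i hi => hN k (by omega) i hi _ (Or.inl rfl))
    (fun i hi => hN k (by omega) i hi _ (Or.inr rfl))

end

end Vale.Agent.P141.H690
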