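import Vale.Agent.P141.H690.Mom6

/-!
# P141, line (A): sixth moment of the flow matrices, real ties

As `H690.QTie.flow_mom4`, `flow_stop`, with `tr R⁶`. `g` bounds the traces at the scale of the
start cell (`g = 1` for unit vectors at any cell).
-/

namespace Vale.Agent.P141.H690

open Matrix Finset

set_option linter.unusedSectionVars false

variable {ι : Type*} [Fintype ι] [DecidableEq ι]

theorem E6_congr {X X' : ℕ → ℤ → Matrix ι ι ℝ} (k : ℕ)
    (h : ∀ j, 1 ≤ j → j ≤ k → ∀ i, X j i = X' j i) :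
    ∀ m R, E6 X k m R = E6 X' k m R := by
  induction k with
  | zero => intro m R; rfl
  | succ k ih =>
    intro m R
    have ih' := ih fun j h1 h2 i => h j h1 (by omega) i
    rw [E6, E6, ih', ih', h (k + 1) (by omega) le_rfl m]

theorem Pst6_congr {X X' : ℕ → ℤ → Matrix ι ι ℝ} (M : ℝ) (k : ℕ)
    (h : ∀ j, 1 ≤ j → j ≤ k → ∀ i, X j i = X' j i) :
    ∀ m R, Pst6 X M k m R = Pst6 X' M k m R := by
  induction k with
  | zero => intro m R; rfl
  | succ k ih =>
    intro m R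
    have ih' := ih fun j h1 h2 i => h j h1 (by omega) i
    rw [Pst6, Pst6, ih', ih', h (k + 1) (by omega) le_rfl m]

variable {l : ℝ} {n : ℕ} {G K : ℕ → ℤ → Matrix ι ι ℝ} {th : ℕ → ℤ → ℝ} {c x1 x3 : ℤ}

/-- **The sixth moment of the flow matrices, real ties.** -/
theorem flow_mom6 (h : H420.Tr l n G K) (hth : ∀ j i, |th j i| ≤ 1) (hc : -3 ≤ c)
    (hc' : c ≤ -1) {k : ℕ} (hk : k ≤ n) {g : ℝ} (hg : ∀ m, (G k m).trace ≤ g) (m : ℤ) :
    E6 (fun j i => th j i • MX l K j (c - i - x1 / 2 ^ j - x3 / 2 ^ j)) k m 0 ≤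
      3780000 * g / l := by
  have h1 := mom6_zero (by norm_num : (0 : ℝ) < 3) (XT_symm h)
    (XT_psd (x1 := x1) (x3 := x3) h hth hc hc') k m
  have h2 := XT_trace_le (x1 := x1) (x3 := x3) h hth hc hc' hk hg m
  have h3 : E6 (fun j i => th j i • MX l K j (c - i - x1 / 2 ^ j - x3 / 2 ^ j)) k m 0 =
      E6 (XT l n K th c x1 x3) k m 0 :=
    E6_congr k (fun j _ hj i => by rw [XT, if_pos (by omega)]) m 0
  rw [h3]
  have h4 : 3780000 * g / l = 280000 * 3 ^ 2 * (3 * g / (2 * l)) := by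
    have := h.l_pos
    field_simp
    ring
  rw [h4]
  linarith

/-- **The stopping probability of the flow matrices, real ties, sixth power.** -/
theorem flow_stop6 (h : H420.Tr l n G K) (hth : ∀ j i, |th j i| ≤ 1) (hc : -3 ≤ c)
    (hc' : c ≤ -1) {k : ℕ} (hk : k ≤ n) {g : ℝ} (hg : ∀ m, (G k m).trace ≤ g) {M : ℝ}
    (hM : 0 < M) (m : ℤ) :
    Pst6 (fun j i => th j i • MX l K j (c - i - x1 / 2 ^ j - x3 / 2 ^ j)) M k m 0 ≤
      3780000 * g / (l * M) := by
  have h1 := prob_stop6 (by norm_num : (0 : ℝ) < 3) hM (XT_symm h)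
    (XT_psd (x1 := x1) (x3 := x3) h hth hc hc') k m
  have h2 := XT_trace_le (x1 := x1) (x3 := x3) h hth hc hc' hk hg m
  have h3 : Pst6 (fun j i => th j i • MX l K j (c - i - x1 / 2 ^ j - x3 / 2 ^ j)) M k m 0 =
      Pst6 (XT l n K th c x1 x3) M k m 0 :=
    Pst6_congr M k (fun j _ hj i => by rw [XT, if_pos (by omega)]) m 0
  rw [h3]
  refine h1.trans ?_
  have h4 : 3780000 * g / (l * M) = 280000 * 3 ^ 2 * (3 * g / (2 * l)) / M := by
    have := h.l_pos
    field_simp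
    ring
  rw [h4]
  exact div_le_div_of_nonneg_right (by linarith) hM.le

end Vale.Agent.P141.H690
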